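import Vale.Agent.P281Z.Defs
import Vale.Agent.P231.ChW.Newton

/-!
# P280Z: smooth vector bundles and the abstract even real cohomology of compact complex manifolds
-/

open scoped Manifold ContDiff Topology ComplexOrder Matrix
open Set Filter
open Vale.Agent.P272.K Vale.Agent.P285.H281.FD Vale.Agent.P281Z
open Vale.Agent.P277Z.Slc (lin dd)
open Vale.Agent.P231.ChW (NewtonRec)

noncomputable section

namespace Vale.Agent.P280Z

/-- a family of vector spaces with local frames -/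
structure VB (X : Type) : Type 1 where
  A : X → Type
  [ac : ∀ x, AddCommGroup (A x)]
  [md : ∀ x, Module ℂ (A x)]
  r : ℕ
  ι : Type
  U : ι → Set X
  b : ι → ∀ x, (Fin r → ℂ) →ₗ[ℂ] A x

attribute [instance] VB.ac VB.md

/-- the pull back -/
def VB.pull {X Y : Type} (f : Y → X) (E : VB X) : VB Y where
  A y := E.A (f y)
  r := E.r
  ι := E.ι
  U i := f ⁻¹' E.U i
  b i y := E.b i (f y)

/-- the trivial bundle -/
def VB.triv (X : Type) (r : ℕ) : VB X where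
  A _ := Fin r → ℂ
  r := r
  ι := Unit
  U _ := univ
  b _ _ := LinearMap.id

open Classical in
/-- the frame `a` of `L` in terms of a reference frame at `x` -/
def cf {X : Type} (L : Bd X) (a : L.ι) (x : X) : ℂ :=
  if h : ∃ c, x ∈ L.U c then L.g h.choose a x else 0

/-- the tensor product with a line bundle: `v` in the fibre stands for `v ⊗ t`, where `t` is the
reference frame of `L` at `x` -/
def VB.tw {X : Type} (E : VB X) (L : Bd X) : VB X where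
  A := E.A
  r := E.r
  ι := E.ι × L.ι
  U i := E.U i.1 ∩ L.U i.2
  b i x := cf L i.2 x • E.b i.1 x

/-- a line bundle as a vector bundle -/
def VB.ln {X : Type} (L : Bd X) : VB X := (VB.triv X 1).tw L

section
variable (n : ℕ) {X : Type} [TopologicalSpace X] [ChartedSpace (Cm n) X]

/-- the matrix function `m` is smooth at `x` -/
def SmAt {α β : Type} (m : X → Matrix α β ℂ) (x : X) : Prop :=
  ∀ e : Chart n X, At e x → ∀ i j, ContDiffAt ℝ ∞ (fun z => m (e.symm z) i j) (e x)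

/-- `φ` is smooth at `x` in the frames `i`, `i'` -/
def SmIn (E E' : VB X) (φ : ∀ x, E.A x →ₗ[ℂ] E'.A x) (i : E.ι) (i' : E'.ι) (x : X) : Prop :=
  ∃ m : X → Matrix (Fin E'.r) (Fin E.r) ℂ, SmAt n m x ∧
    ∀ᶠ y in 𝓝 x, (φ y).comp (E.b i y) = (E'.b i' y).comp (Matrix.toLin' (m y))

/-- smooth vector bundles -/
structure IsVB (E : VB X) : Prop where
  isOpen : ∀ i, IsOpen (E.U i)
  cover : ∀ x, ∃ i, x ∈ E.U i
  bij : ∀ i x, x ∈ E.U i → Function.Bijective (E.b i x)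
  sm : ∀ i j x, x ∈ E.U i → x ∈ E.U j → SmIn n E E (fun _ => LinearMap.id) j i x

/-- smooth homomorphisms -/
def IsHom (E E' : VB X) (φ : ∀ x, E.A x →ₗ[ℂ] E'.A x) : Prop :=
  ∀ x, ∃ i i', x ∈ E.U i ∧ x ∈ E'.U i' ∧ SmIn n E E' φ i i' x

/-- short exact sequences -/
structure Ses (E' E E'' : VB X) (φ : ∀ x, E'.A x →ₗ[ℂ] E.A x) (ψ : ∀ x, E.A x →ₗ[ℂ] E''.A x) :
    Prop where
  v1 : IsVB n E'
  v2 : IsVB n E
  v3 : IsVB n E''
  h1 : IsHom n E' E φ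
  h2 : IsHom n E E'' ψ
  inj : ∀ x, Function.Injective (φ x)
  ex : ∀ x, Function.Exact (φ x) (ψ x)
  surj : ∀ x, Function.Surjective (ψ x)

variable (X) in
/-- the tangent bundle: the fibre is written in the preferred chart -/
def VB.tan : VB X where
  A _ := Cm n
  r := n
  ι := Chart n X
  U e := {x | At e x}
  b e x := (df (fun y : X => y) e (chartAt (Cm n) x) x : Cm n →L[ℂ] Cm n)

variable (p : ℕ) {Y : Type} [TopologicalSpace Y] [ChartedSpace (Cm p) Y]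

/-- the differential in the preferred charts -/
def Df (f : X → Y) (x : X) : Cm n →ₗ[ℂ] Cm p :=
  (df f (chartAt (Cm n) x) (chartAt (Cm p) (f x)) x : Cm n →L[ℂ] Cm p)

/-- holomorphic submersions -/
structure Sub (f : X → Y) : Prop where
  hol : HolM n p f
  sbm : ∀ x, Sbm n p f x

end

/-- `V'` is the fibre product of the submersion `f` and the holomorphic map `g` -/
structure Cart {n m n' m' : ℕ} {V : Mf n} {W : Mf m} {V' : Mf n'} {W' : Mf m'} (f : V.X → W.X)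
    (g : W'.X → W.X) (f' : V'.X → W'.X) (g' : V'.X → V.X) : Prop where
  dim : n' + m = n + m'
  sf : Sub n m f
  sf' : Sub n' m' f'
  hg : HolM m' m g
  hg' : HolM n' n g'
  comm : ∀ z, f (g' z) = g (f' z)
  uniq : ∀ y x, g y = f x → ∃! z, f' z = y ∧ g' z = x
  imm : ∀ z v, Df n' m' f' z v = 0 → Df n' n g' z v = 0 → v = 0

/-- `Z` is the transversal zero set of the section `s` of `L` -/
structure Cut {m n : ℕ} {V : Mf m} {Z : Mf n} (L : Bd V.X) (s : L.ι → V.X → ℂ) (i : Z.X → V.X) :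
    Prop where
  dim : m = n + 1
  lb : IsLB m L
  sec : IsSec m L s
  emb : Emb n m i {x | ¬ NZ L s x}
  tr : ∀ z a, i z ∈ L.U a → ∀ e : Chart m V.X, At e (i z) → dd (s a) e (i z) ≠ 0

/-- the data of a cohomology theory: `pr V k` is the projector on the degree `2 k`; `ps E k` is
`k!` times the component of degree `2 k` of the Chern character; `(a, N) ∈ Sp V` says that `a` is
the class of a closed semipositive `(1,1)` form whose null space at `x` lies in `N x`; `Wp V` are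
the classes of closed weakly positive forms; `Ty V` the classes of sums of closed `(k,k)` forms -/
structure CT : Type 1 where
  H : ∀ {n : ℕ}, Mf n → Type
  [cr : ∀ {n : ℕ} (V : Mf n), CommRing (H V)]
  [al : ∀ {n : ℕ} (V : Mf n), Algebra ℝ (H V)]
  pr : ∀ {n : ℕ} (V : Mf n), ℕ → H V →ₗ[ℝ] H V
  int : ∀ {n : ℕ} (V : Mf n), H V →ₗ[ℝ] ℝ
  pull : ∀ {n m : ℕ} {V : Mf n} {W : Mf m} {f : V.X → W.X}, HolM n m f → H W →ₐ[ℝ] H V
  push : ∀ {n m : ℕ} {V : Mf n} {W : Mf m}, (V.X → W.X) → H V →ₗ[ℝ] H W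
  c1 : ∀ {n : ℕ} (V : Mf n), Bd V.X → H V
  ps : ∀ {n : ℕ} (V : Mf n), VB V.X → ℕ → H V
  Sp : ∀ {n : ℕ} (V : Mf n), Set (H V × (V.X → Submodule ℂ (Cm n)))
  Wp : ∀ {n : ℕ} (V : Mf n), Set (H V)
  Ty : ∀ {n : ℕ} (V : Mf n), Subalgebra ℝ (H V)

attribute [instance] CT.cr CT.al

namespace CT
variable (T : CT)

/-- classes of degree `2 k` -/
def Dg {n : ℕ} (V : Mf n) (k : ℕ) (a : T.H V) : Prop := T.pr V k a = a

/-- Kähler classes -/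
def Kc {n : ℕ} (V : Mf n) (w : T.H V) : Prop := (w, fun _ => ⊥) ∈ T.Sp V

/-- semipositive classes -/
def Nn {n : ℕ} (V : Mf n) (w : T.H V) : Prop := (w, fun _ => ⊤) ∈ T.Sp V

/-- grading, integral, pull back -/
structure Rg : Prop where
  pr_pr : ∀ {n : ℕ} (V : Mf n) j k a, T.pr V j (T.pr V k a) = if j = k then T.pr V k a else 0
  pr_sum : ∀ {n : ℕ} (V : Mf n) a, ∑ k ∈ Finset.range (n + 1), T.pr V k a = a
  pr_zero : ∀ {n : ℕ} (V : Mf n) k a, n < k → T.pr V k a = 0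
  dg_one : ∀ {n : ℕ} (V : Mf n), T.Dg V 0 1
  dg_mul : ∀ {n : ℕ} (V : Mf n) j k a b, T.Dg V j a → T.Dg V k b → T.Dg V (j + k) (a * b)
  int_pr : ∀ {n : ℕ} (V : Mf n) a, T.int V (T.pr V n a) = T.int V a
  int_pt : ∀ V : Mf 0, T.int V 1 = Nat.card V.X
  h0 : ∀ {n : ℕ} (V : Mf n), PreconnectedSpace V.X → ∀ a, T.Dg V 0 a →
    ∃ c : ℝ, a = algebraMap ℝ _ c
  pull_pr : ∀ {n m : ℕ} {V : Mf n} {W : Mf m} {f : V.X → W.X} (hf : HolM n m f) k a,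
    T.pull hf (T.pr W k a) = T.pr V k (T.pull hf a)
  pull_id : ∀ {n : ℕ} {V : Mf n} (h : HolM n n (fun x : V.X => x)) a, T.pull h a = a
  pull_comp : ∀ {n m l : ℕ} {V : Mf n} {W : Mf m} {Z : Mf l} {f : V.X → W.X} {g : W.X → Z.X}
    {k : V.X → Z.X} (hf : HolM n m f) (hg : HolM m l g) (hk : HolM n l k), (∀ x, k x = g (f x)) →
    ∀ a, T.pull hk a = T.pull hf (T.pull hg a)
  van : ∀ {n m : ℕ} {V : Mf n} {W : Mf m} {f : V.X → W.X} (hf : HolM n m f) k,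
    (∀ x, Module.finrank ℂ (LinearMap.range (Df n m f x)) < k) → ∀ a, T.pull hf (T.pr W k a) = 0

/-- integration over the fibre -/
structure Pu : Prop where
  deg : ∀ {n m : ℕ} {V : Mf n} {W : Mf m} {f : V.X → W.X}, Sub n m f → ∀ d, n = m + d → ∀ k a,
    T.pr W k (T.push f a) = T.push f (T.pr V (k + d) a)
  proj : ∀ {n m : ℕ} {V : Mf n} {W : Mf m} {f : V.X → W.X} (hf : Sub n m f) a b,
    T.push f (a * T.pull hf.hol b) = T.push f a * b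
  int : ∀ {n m : ℕ} {V : Mf n} {W : Mf m} {f : V.X → W.X}, Sub n m f → ∀ a,
    T.int W (T.push f a) = T.int V a
  id : ∀ {n : ℕ} (V : Mf n) a, T.push (V := V) (W := V) (fun x => x) a = a
  comp : ∀ {n m l : ℕ} {V : Mf n} {W : Mf m} {Z : Mf l} {f : V.X → W.X} {g : W.X → Z.X},
    Sub n m f → Sub m l g → ∀ a, T.push (fun x => g (f x)) a = T.push g (T.push f a)
  bc : ∀ {n m n' m' : ℕ} {V : Mf n} {W : Mf m} {V' : Mf n'} {W' : Mf m'} {f : V.X → W.X}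
    {g : W'.X → W.X} {f' : V'.X → W'.X} {g' : V'.X → V.X} (h : Cart f g f' g') a,
    T.pull h.hg (T.push f a) = T.push f' (T.pull h.hg' a)

/-- the first Chern class -/
structure C1 : Prop where
  deg : ∀ {n : ℕ} (V : Mf n) L, T.Dg V 1 (T.c1 V L)
  mul : ∀ {n : ℕ} (V : Mf n) L M, IsLB n L → IsLB n M → T.c1 V (L.mul M) = T.c1 V L + T.c1 V M
  pow : ∀ {n : ℕ} (V : Mf n) L k, IsLB n L → T.c1 V (L.pow k) = (k : ℝ) • T.c1 V L
  lin : ∀ {n : ℕ} (V : Mf n) {α : Type} [Fintype α] (L : α → Bd V.X) (k : α → ℤ),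
    (∀ a, IsLB n (L a)) → T.c1 V (lin L k) = ∑ a, (k a : ℝ) • T.c1 V (L a)
  pull : ∀ {n m : ℕ} {V : Mf n} {W : Mf m} {f : V.X → W.X} (hf : HolM n m f) L, IsLB m L →
    T.c1 V (P277.HD.pull f L) = T.pull hf (T.c1 W L)
  triv : ∀ {n : ℕ} (V : Mf n) L s, IsLB n L → IsSec n L s → (∀ x, NZ L s x) → T.c1 V L = 0
  pos : ∀ {n : ℕ} (V : Mf n) L, IsLB n L → Pos n L → T.Kc V (T.c1 V L)
  bpf : ∀ {n : ℕ} (V : Mf n) L, IsLB n L → Bpf n L → T.Nn V (T.c1 V L)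

/-- the formula of Poincaré and Lelong -/
def PL : Prop := ∀ {m n : ℕ} {V : Mf m} {Z : Mf n} {L : Bd V.X} {s : L.ι → V.X → ℂ}
  {i : Z.X → V.X} (h : Cut L s i) a, T.int V (T.c1 V L * a) = T.int Z (T.pull h.emb.hol a)

/-- effective classes -/
def EFF : Prop := ∀ {m : ℕ} (V : Mf m) (L : Bd V.X) (s : L.ι → V.X → ℂ) (n : ℕ) (w : Fin n → T.H V),
  m = n + 1 → IsLB m L → IsSec m L s → Dense {x | NZ L s x} → (∀ k, T.Nn V (w k)) →
  0 ≤ T.int V (T.c1 V L * ∏ k, w k) ∧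
    ((∀ k, T.Kc V (w k)) → (∃ x, ¬ NZ L s x) → 0 < T.int V (T.c1 V L * ∏ k, w k))

/-- the lower bound of Bezout -/
def BEZ : Prop := ∀ {n : ℕ} (V : Mf n) (L : Bd V.X) (s : Fin n → L.ι → V.X → ℂ), IsLB n L →
  (∀ k, IsSec n L (s k)) → {x | ∀ k, ¬ NZ L (s k) x}.Finite →
  ({x | ∀ k, ¬ NZ L (s k) x}.ncard : ℝ) ≤ T.int V (T.c1 V L ^ n)

/-- a line bundle whose class is a Kähler class is positive -/
def KP : Prop := ∀ {n : ℕ} (V : Mf n) (L : Bd V.X), IsLB n L → T.Kc V (T.c1 V L) → Pos n L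

/-- positivity -/
structure Po : Prop where
  deg : ∀ {n : ℕ} {V : Mf n} {a N}, (a, N) ∈ T.Sp V → T.Dg V 1 a
  mono : ∀ {n : ℕ} {V : Mf n} {a N N'}, (a, N) ∈ T.Sp V → (∀ x, N x ≤ N' x) → (a, N') ∈ T.Sp V
  zero : ∀ {n : ℕ} (V : Mf n), T.Nn V 0
  add : ∀ {n : ℕ} {V : Mf n} {a N a' N'}, (a, N) ∈ T.Sp V → (a', N') ∈ T.Sp V →
    (a + a', fun x => N x ⊓ N' x) ∈ T.Sp V
  smul : ∀ {n : ℕ} {V : Mf n} {a N} (c : ℝ), 0 < c → (a, N) ∈ T.Sp V → (c • a, N) ∈ T.Sp V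
  pull : ∀ {n m : ℕ} {V : Mf n} {W : Mf m} {f : V.X → W.X} (hf : HolM n m f) {a N},
    (a, N) ∈ T.Sp W → (T.pull hf a, fun x => (N (f x)).comap (Df n m f x)) ∈ T.Sp V
  opn : ∀ {n : ℕ} {V : Mf n} {w}, T.Kc V w → ∀ a ∈ T.Ty V, T.Dg V 1 a →
    ∃ c : ℝ, 0 < c ∧ T.Kc V (c • w + a)
  kah : ∀ {n : ℕ} (V : Mf n), V.Kah ↔ ∃ w, T.Kc V w
  pos : ∀ {n : ℕ} {V : Mf n} {a N b N'} (j k : ℕ) (x : V.X), (a, N) ∈ T.Sp V → (b, N') ∈ T.Sp V →
    j + k = n → N' x = ⊥ → j + Module.finrank ℂ (N x) ≤ n → 0 < T.int V (a ^ j * b ^ k)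
  wp_one : ∀ {n : ℕ} (V : Mf n), 1 ∈ T.Wp V
  wp_mul : ∀ {n : ℕ} {V : Mf n} {a b}, T.Nn V a → b ∈ T.Wp V → a * b ∈ T.Wp V
  wp_pull : ∀ {n m : ℕ} {V : Mf n} {W : Mf m} {f : V.X → W.X} (hf : HolM n m f) {a},
    a ∈ T.Wp W → T.pull hf a ∈ T.Wp V
  wp_push : ∀ {n m : ℕ} {V : Mf n} {W : Mf m} {f : V.X → W.X}, Sub n m f → ∀ {a},
    a ∈ T.Wp V → T.push f a ∈ T.Wp W
  wp_nn : ∀ {n : ℕ} {V : Mf n} {a}, a ∈ T.Wp V → T.Dg V 1 a → T.Nn V a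
  wp_int : ∀ {n : ℕ} {V : Mf n} {a}, a ∈ T.Wp V → 0 ≤ T.int V a

/-- types -/
structure Tp : Prop where
  pr : ∀ {n : ℕ} {V : Mf n} k {a}, a ∈ T.Ty V → T.pr V k a ∈ T.Ty V
  pull : ∀ {n m : ℕ} {V : Mf n} {W : Mf m} {f : V.X → W.X} (hf : HolM n m f) {a},
    a ∈ T.Ty W → T.pull hf a ∈ T.Ty V
  push : ∀ {n m : ℕ} {V : Mf n} {W : Mf m} {f : V.X → W.X}, Sub n m f → ∀ {a},
    a ∈ T.Ty V → T.push f a ∈ T.Ty W
  c1 : ∀ {n : ℕ} (V : Mf n) L, IsLB n L → T.c1 V L ∈ T.Ty V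
  wp : ∀ {n : ℕ} {V : Mf n} {a}, a ∈ T.Wp V → a ∈ T.Ty V

/-- Hodge theory -/
structure Ho : Prop where
  fin : ∀ {n : ℕ} (V : Mf n), V.Kah → Module.Finite ℝ (T.H V)
  pd : ∀ {n : ℕ} (V : Mf n), V.Kah → ∀ a, (∀ b, T.int V (a * b) = 0) → a = 0
  hl : ∀ {n : ℕ} {V : Mf n} {w}, T.Kc V w → ∀ k j, k + k + j = n →
    (∀ a, T.Dg V k a → w ^ j * a = 0 → a = 0) ∧
      ∀ b, T.Dg V (k + j) b → ∃ a, T.Dg V k a ∧ w ^ j * a = b
  hr : ∀ {n : ℕ} {V : Mf n} {w}, T.Kc V w → ∀ k j, k + k + j = n → ∀ a ∈ T.Ty V, T.Dg V k a →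
    w ^ (j + 1) * a = 0 → a ≠ 0 → 0 < (-1) ^ k * T.int V (a * a * w ^ j)
  one : ∀ {n : ℕ} {V : Mf n} {w}, T.Kc V w → ∀ k j, k + k + j = n → ∀ a, T.Dg V k a →
    w ^ (j + 1) * a = 0 → (∀ b, T.Dg V k b → w ^ (j + 1) * b = 0 → ∃ c : ℝ, b = c • a) →
    a ≠ 0 → 0 < (-1) ^ k * T.int V (a * a * w ^ j)

/-- the Chern character -/
structure Ch : Prop where
  deg : ∀ {n : ℕ} (V : Mf n) E k, T.Dg V k (T.ps V E k)
  zero : ∀ {n : ℕ} (V : Mf n) E, IsVB n E → T.ps V E 0 = (E.r : T.H V)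
  triv : ∀ {n : ℕ} (V : Mf n) r k, T.ps V (VB.triv V.X r) (k + 1) = 0
  ses : ∀ {n : ℕ} (V : Mf n) {E' E E'' : VB V.X} {φ ψ}, Ses n E' E E'' φ ψ → ∀ k,
    T.ps V E k = T.ps V E' k + T.ps V E'' k
  iso : ∀ {n : ℕ} (V : Mf n) {E E' : VB V.X} {φ}, IsVB n E → IsVB n E' → IsHom n E E' φ →
    (∀ x, Function.Bijective (φ x)) → ∀ k, T.ps V E k = T.ps V E' k
  pull : ∀ {n m : ℕ} {V : Mf n} {W : Mf m} {f : V.X → W.X} (hf : HolM n m f) E, IsVB m E → ∀ k,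
    T.ps V (E.pull f) k = T.pull hf (T.ps W E k)
  tw : ∀ {n : ℕ} (V : Mf n) E L, IsVB n E → IsLB n L → ∀ k, T.ps V (E.tw L) k =
    ∑ j ∈ Finset.range (k + 1), (k.choose j : ℝ) • (T.ps V E j * T.c1 V L ^ (k - j))
  rank : ∀ {n : ℕ} (V : Mf n) E, IsVB n E → ∀ e, NewtonRec ℝ (T.ps V E) e → ∀ j, E.r < j → e j = 0
  det : ∀ {n : ℕ} (V : Mf n) (E : VB V.X) (L : Bd V.X) (a : E.ι → L.ι), IsVB n E → IsLB n L →
    (∀ i, E.U i ⊆ L.U (a i)) → (∀ i j x, x ∈ E.U i → x ∈ E.U j → ∀ m,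
      E.b j x = (E.b i x).comp (Matrix.toLin' m) → m.det = L.g (a i) (a j) x) →
    T.ps V E 1 = T.c1 V L
  tan : ∀ {n : ℕ} (V : Mf n), T.ps V (VB.tan n V.X) 1 = -T.c1 V (Bd.can n V.X)

/-- all the axioms -/
structure OK : Prop where
  rg : T.Rg
  pu : T.Pu
  c1 : T.C1
  pl : T.PL
  eff : T.EFF
  bez : T.BEZ
  kp : T.KP
  po : T.Po
  tp : T.Tp
  ho : T.Ho
  ch : T.Ch

end CT

/-- **the output of the block Co** -/
def COH : Prop := ∃ T : CT, T.OK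

/-- row FP: fibre products exist -/
def FP : Prop := ∀ {n m m' : ℕ} (n' : ℕ) {V : Mf n} {W : Mf m} {W' : Mf m'} (f : V.X → W.X)
  (g : W'.X → W.X), n' + m = n + m' → Sub n m f → HolM m' m g →
  ∃ (V' : Mf n') (f' : V'.X → W'.X) (g' : V'.X → V.X), Cart f g f' g' ∧
    ((∀ y, Sbm m' m g y) → ∀ z, Sbm n' n g' z) ∧ (V.Kah → W'.Kah → V'.Kah) ∧
    ∀ {l : ℕ} (Z : Mf l) (a : Z.X → W'.X) (b : Z.X → V.X), HolM l m' a → HolM l n b →
      (∀ z, g (a z) = f (b z)) → ∃ c : Z.X → V'.X, HolM l n' c ∧ ∀ z, f' (c z) = a z ∧ g' (c z) = b z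

/-- row VBL: the standard bundles -/
structure VBL : Prop where
  triv : ∀ {n : ℕ} (V : Mf n) r, IsVB n (VB.triv V.X r)
  tan : ∀ {n : ℕ} (V : Mf n), IsVB n (VB.tan n V.X)
  tw : ∀ {n : ℕ} (V : Mf n) (E : VB V.X) L, IsVB n E → IsLB n L → IsVB n (E.tw L)
  pull : ∀ {n m : ℕ} {V : Mf n} {W : Mf m} {f : V.X → W.X} (E : VB W.X), HolM n m f → IsVB m E →
    IsVB n (E.pull f)
  all : ∀ {n : ℕ} {V : Mf n} {E E' : VB V.X} {φ}, IsVB n E → IsVB n E' → IsHom n E E' φ →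
    ∀ i i' x, x ∈ E.U i → x ∈ E'.U i' → SmIn n E E' φ i i' x
  comp : ∀ {n : ℕ} {V : Mf n} {E E' E'' : VB V.X} {φ ψ}, IsVB n E' → IsHom n E E' φ →
    IsHom n E' E'' ψ → IsHom n E E'' fun x => (ψ x).comp (φ x)
  hpull : ∀ {n m : ℕ} {V : Mf n} {W : Mf m} {f : V.X → W.X} {E E' : VB W.X} {φ}, HolM n m f →
    IsHom m E E' φ → IsHom n (E.pull f) (E'.pull f) fun x => φ (f x)
  htw : ∀ {n : ℕ} {V : Mf n} {E E' : VB V.X} {φ} (L : Bd V.X), IsLB n L → IsHom n E E' φ →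
    IsHom n (E.tw L) (E'.tw L) φ
  df : ∀ {n m : ℕ} {V : Mf n} {W : Mf m} {f : V.X → W.X}, HolM n m f →
    IsHom n (VB.tan n V.X) ((VB.tan m W.X).pull f) (Df n m f)
  ker : ∀ {n : ℕ} {V : Mf n} {E E'' : VB V.X} {ψ} (r : ℕ), IsVB n E → IsVB n E'' → IsHom n E E'' ψ →
    (∀ x, Function.Surjective (ψ x)) → r + E''.r = E.r →
    ∃ (ι : Type) (U : ι → Set V.X) (b : ι → ∀ x, (Fin r → ℂ) →ₗ[ℂ] LinearMap.ker (ψ x)),
      Ses n ⟨fun x => LinearMap.ker (ψ x), r, ι, U, b⟩ E E'' (fun x => (LinearMap.ker (ψ x)).subtype) ψ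
  lift : ∀ {n : ℕ} {V : Mf n} {G E' E : VB V.X} {φ} {χ : ∀ x, G.A x →ₗ[ℂ] E'.A x}, IsVB n E' →
    IsVB n E → IsHom n E' E φ → (∀ x, Function.Injective (φ x)) →
    IsHom n G E (fun x => (φ x).comp (χ x)) → IsHom n G E' χ
  desc : ∀ {n : ℕ} {V : Mf n} {E E'' G : VB V.X} {ψ} {χ : ∀ x, E''.A x →ₗ[ℂ] G.A x}, IsVB n E →
    IsVB n E'' → IsHom n E E'' ψ → (∀ x, Function.Surjective (ψ x)) →
    IsHom n E G (fun x => (χ x).comp (ψ x)) → IsHom n E'' G χ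

end Vale.Agent.P280Z
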