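import Vale.Agent.P272.K.Inv.Hess
import Vale.Agent.P272.K.N.MaxP
import Vale.Agent.P272.K.C2.Wirt
import Vale.Agent.P272.K.INT.Dens
import Mathlib.LinearAlgebra.Matrix.SchurComplement
import Mathlib.Analysis.SpecialFunctions.SmoothTransition
import Mathlib.Analysis.SpecialFunctions.Integrals.Basic
import Mathlib.MeasureTheory.Measure.Lebesgue.VolumeOfBalls

/-!
# P280Z: radial weights, isolated zeros of holomorphic maps, the local mass
-/

open scoped ContDiff Topology Matrix ComplexOrder Nat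
open Set Filter MeasureTheory
open Vale.Agent.P272.K

noncomputable section

namespace Vale.Agent.P280Z.Co.Bez

variable {n : ℕ}

/-- the square of the Euclidean norm -/
def sq (w : Cm n) : ℝ := ∑ i, ‖w i‖ ^ 2

theorem sq_nonneg' (w : Cm n) : 0 ≤ sq w := Finset.sum_nonneg fun _ _ => sq_nonneg _

theorem le_sq (w : Cm n) (i : Fin n) : ‖w i‖ ^ 2 ≤ sq w :=
  Finset.single_le_sum (f := fun i => ‖w i‖ ^ 2) (fun _ _ => sq_nonneg _) (Finset.mem_univ i)

theorem sq_pos {w : Cm n} (h : w ≠ 0) : 0 < sq w := by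
  obtain ⟨i, hi⟩ := Function.ne_iff.1 h
  exact (pow_pos (norm_pos_iff.2 hi) 2).trans_le (le_sq w i)

theorem sq_zero : sq (0 : Cm n) = 0 := by simp [sq]

theorem sq_neg (w : Cm n) : sq (-w) = sq w := by simp [sq]

theorem sq_smul (c : ℂ) (w : Cm n) : sq (fun i => c * w i) = ‖c‖ ^ 2 * sq w := by
  simp only [sq, norm_mul, mul_pow, Finset.mul_sum]

theorem sq_cd {m : WithTop ℕ∞} : ContDiff ℝ m (sq : Cm n → ℝ) :=
  ContDiff.sum fun i _ => (contDiff_apply ℝ ℂ i).norm_sq ℝ

theorem sq_cast (w : Cm n) : (sq w : ℂ) = ∑ i, w i * starRingEnd ℂ (w i) := by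
  simp only [sq, Complex.mul_conj', Complex.ofReal_sum, Complex.ofReal_pow]

theorem dz_co (i k : Fin n) (z : Cm n) : dz k (fun y : Cm n => y i) z = if i = k then 1 else 0 := by
  rw [dz_of_holo (differentiableAt_apply i z), (hasFDerivAt_apply (𝕜 := ℂ) i z).fderiv]
  simp only [ContinuousLinearMap.proj_apply, Pi.single_apply]

theorem d_sq (k : Fin n) (z : Cm n) : dz k (fun y => (sq y : ℂ)) z = starRingEnd ℂ (z k) ∧
    dzb k (fun y => (sq y : ℂ)) z = z k := by
  have hd : ∀ i, DifferentiableAt ℝ (fun y : Cm n => y i) z := fun i => differentiableAt_apply i z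
  have hc : ∀ i, DifferentiableAt ℝ (fun y : Cm n => starRingEnd ℂ (y i)) z := fun i =>
    Complex.conjCLE.differentiableAt.comp z (hd i)
  have h0 : ∀ i, dzb k (fun y : Cm n => y i) z = 0 := fun i =>
    dzb_of_holo (differentiableAt_apply i z)
  simp only [sq_cast]
  rw [C2.dz_sum k _ fun i _ => (hd i).fun_mul (hc i), C2.dzb_sum k _ fun i _ => (hd i).fun_mul (hc i)]
  simp [C2.dz_mul k (hd _) (hc _), C2.dzb_mul k (hd _) (hc _), C2.dz_conj k (hd _),
    C2.dzb_conj k (hd _), h0, dz_co, apply_ite (starRingEnd ℂ)]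

theorem hess_sq (z : Cm n) : cHess sq z = 1 := by
  ext j k
  rw [cHess_apply, funext fun y => (d_sq k y).2, dz_co, Matrix.one_apply]
  simp only [eq_comm]

/-- the determinant of the Hessian of a radial function of a holomorphic map -/
theorem det_rad {χ : ℝ → ℝ} {f : Cm n → Cm n} {z : Cm n} (hf : ContDiffAt ℂ ω f z)
    (hχ : ContDiffAt ℝ 2 χ (sq (f z))) (h0 : deriv χ (sq (f z)) ≠ 0) :
    (cHess (fun y => χ (sq (f y))) z).det = (‖(jmat f z).det‖ ^ 2 * (deriv χ (sq (f z)) ^ n *
      (1 + deriv (deriv χ) (sq (f z)) * sq (f z) / deriv χ (sq (f z)))) : ℝ) := by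
  have h1 : ∀ᶠ s in 𝓝 (sq (f z)), HasDerivAt χ (deriv χ s) s :=
    (hχ.eventually (by simp)).mono fun s hs => (hs.differentiableAt (by simp)).hasDerivAt
  have h2 : HasDerivAt (deriv χ) (deriv (deriv χ) (sq (f z))) (sq (f z)) :=
    ((hχ.derivWithin (m := 1) le_rfl).differentiableAt (by simp)).hasDerivAt
  have h3 : ((deriv χ (sq (f z)) : ℝ) : ℂ) ≠ 0 := Complex.ofReal_ne_zero.2 h0
  have h4 : cHess (fun w => χ (sq w)) (f z) = ((deriv χ (sq (f z)) : ℝ) : ℂ) •
      (1 + Matrix.replicateCol Unit (fun j => (deriv (deriv χ) (sq (f z)) / deriv χ (sq (f z)) : ℝ) *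
        starRingEnd ℂ (f z j)) * Matrix.replicateRow Unit (f z)) := by
    ext j k
    rw [C2.cHess_comp h1 h2 sq_cd.contDiffAt, hess_sq, (d_sq j _).1, (d_sq k _).2]
    simp only [Matrix.smul_apply, Matrix.add_apply, Matrix.mul_apply, Matrix.replicateCol_apply,
      Matrix.replicateRow_apply, Finset.sum_const, Finset.card_univ, Fintype.card_unique, one_smul,
      smul_eq_mul, Complex.ofReal_div]
    field_simp
  have h5 : ((jmat f z).map (starRingEnd ℂ)).det = starRingEnd ℂ (jmat f z).det :=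
    (RingHom.map_det _ _).symm
  rw [cHess_comp (f := fun w => χ (sq w)) (hχ.comp _ sq_cd.contDiffAt) hf, Matrix.det_mul,
    Matrix.det_mul, Matrix.det_transpose, h5, h4, Matrix.det_smul, Fintype.card_fin,
    Matrix.det_one_add_replicateCol_mul_replicateRow, mul_right_comm, Complex.mul_conj']
  simp only [dotProduct, mul_left_comm (f z _), ← Finset.mul_sum, ← sq_cast]
  push_cast
  ring

theorem det_log {f : Cm n → Cm n} {z : Cm n} (hf : ContDiffAt ℂ ω f z) (h0 : f z ≠ 0) :
    (cHess (fun y => Real.log (sq (f y))) z).det = 0 := by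
  have h := (sq_pos h0).ne'
  rw [det_rad hf (Real.contDiffAt_log.2 h) (by rw [Real.deriv_log]; exact inv_ne_zero h),
    Real.deriv_log', deriv_inv, show 1 + -(sq (f z) ^ 2)⁻¹ * sq (f z) / (sq (f z))⁻¹ = 0 by
      field_simp; ring, mul_zero, mul_zero, Complex.ofReal_zero]

/-- a holomorphic map without zeros on the boundary of `C` and with a zero inside covers a ball -/
theorem covers {f : Cm n → Cm n} {C : Set (Cm n)} (hC : IsCompact C) {z₀ : Cm n} (h0 : z₀ ∈ C)
    (hf : ∀ z ∈ C, ContDiffAt ℂ ω f z) (hz : f z₀ = 0) (hb : ∀ z ∈ C, z ∉ interior C → f z ≠ 0) :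
    ∃ ε > 0, (∀ z ∈ C, sq (f z) ≤ ε → z ∈ interior C) ∧
      ∀ w, sq w < ε → ∃ z ∈ interior C, f z = w := by
  have hK : IsCompact (C \ interior C) := hC.diff isOpen_interior
  have hc : ∀ z ∈ C, ContinuousAt (fun q : Cm n × Cm n =>
      sq (f q.2 - q.1) * Real.exp (-sq q.2)) (0, z) := fun z k =>
    ((sq_cd (m := 0)).continuous.continuousAt.comp ((((hf z k).continuousAt.comp_of_eq continuousAt_snd rfl)).sub
      continuousAt_fst)).mul (Real.continuous_exp.comp ((sq_cd (m := 0)).continuous.comp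
        continuous_snd).neg).continuousAt
  have h1 : ∀ᶠ w in 𝓝 (0 : Cm n), ∀ z ∈ C \ interior C,
      sq (f z₀ - w) * Real.exp (-sq z₀) < sq (f z - w) * Real.exp (-sq z) := by
    refine hK.eventually_forall_of_forall_eventually fun z k => ContinuousAt.eventually_lt
      (f := fun q : Cm n × Cm n => sq (f z₀ - q.1) * Real.exp (-sq z₀))
      (((sq_cd (m := 0)).continuous.comp (continuous_const.sub continuous_fst)).mul
        continuous_const).continuousAt (hc z k.1) ?_
    simp only [hz, sub_zero, sq_zero, zero_mul]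
    exact mul_pos (sq_pos (hb z k.1 k.2)) (Real.exp_pos _)
  have h2 : ∀ᶠ t in 𝓝 (0 : ℝ), ∀ z ∈ C \ interior C, t < sq (f z) :=
    hK.eventually_forall_of_forall_eventually fun z k => ContinuousAt.eventually_lt
      continuousAt_fst ((sq_cd (m := 0)).continuous.continuousAt.comp
        ((hf z k.1).continuousAt.comp_of_eq continuousAt_snd rfl)) (sq_pos (hb z k.1 k.2))
  obtain ⟨δ, hδ, h3⟩ := Metric.eventually_nhds_iff.1 h1
  obtain ⟨ε, ⟨h4, h5⟩, hε⟩ := (((h2.and (eventually_lt_nhds (pow_pos hδ 2))).filter_mono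
    nhdsWithin_le_nhds).and (self_mem_nhdsWithin (s := Ioi 0))).exists
  refine ⟨ε, hε, fun z k k2 => by_contra fun k3 => (h4 z ⟨k, k3⟩).not_ge k2, fun w hw => ?_⟩
  have h6 := h3 (y := w) (by
    rw [dist_zero_right, pi_norm_lt_iff hδ]
    exact fun i => lt_of_pow_lt_pow_left₀ 2 hδ.le ((le_sq w i).trans_lt (hw.trans h5)))
  have hg : ∀ z ∈ C, ContDiffAt ℂ ω (fun y => f y - w) z := fun z k => (hf z k).sub contDiffAt_const
  obtain ⟨z, k, hm⟩ := hC.exists_isMinOn (f := fun z => sq (f z - w) * Real.exp (-sq z)) ⟨z₀, h0⟩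
    fun z k => (((sq_cd (m := 0)).continuous.continuousAt.comp (hg z k).continuousAt).mul
      (Real.continuous_exp.comp (sq_cd (m := 0)).continuous.neg).continuousAt).continuousWithinAt
  have k2 : z ∈ interior C := by_contra fun k3 => (h6 z ⟨k, k3⟩).not_ge (hm h0)
  refine ⟨z, k2, by_contra fun k3 => ?_⟩
  have k4 := sub_ne_zero.2 k3
  have hu : ContDiffAt ℝ 2 (fun y => Real.log (sq (f y - w))) z :=
    (sq_cd.contDiffAt.comp z (((hg z k).of_le le_top).restrict_scalars ℝ)).log (sq_pos k4).ne'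
  have hx : IsLocalMax (fun y => sq y - Real.log (sq (f y - w))) z := by
    filter_upwards [mem_interior_iff_mem_nhds.1 k2] with y hy
    have a1 := mul_pos (sq_pos k4) (Real.exp_pos (-sq z))
    have a2 := isMinOn_iff.1 hm y hy
    have a3 := Real.log_le_log a1 a2
    rw [Real.log_mul (sq_pos k4).ne' (Real.exp_pos _).ne', Real.log_mul
      (left_ne_zero_of_mul (a1.trans_le a2).ne') (Real.exp_pos _).ne', Real.log_exp,
      Real.log_exp] at a3
    show sq y - _ ≤ sq z - _
    linarith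
  have h7 := N.neg_cHess_posSemidef (sq_cd.contDiffAt.sub hu) hx
  rw [cHess_sub sq_cd.contDiffAt hu, hess_sq] at h7
  have h8 := (Matrix.PosDef.one.add_posSemidef h7).det_pos
  rw [neg_sub, add_sub_cancel, det_log (hg z k) k4] at h8
  exact lt_irrefl _ h8

/-- the radial weight: linear up to `a`, the logarithm from `b` on -/
theorem ex_chi {a b : ℝ} (ha : 0 < a) (hab : a < b) : ∃ χ : ℝ → ℝ, ContDiff ℝ ∞ χ ∧
    (∀ r, b ≤ r → χ r = Real.log r) ∧
    (∀ r, 0 ≤ r → 0 < deriv χ r ∧ 0 ≤ 1 + deriv (deriv χ) r * r / deriv χ r) ∧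
    ∀ r, r < a → deriv χ r = b⁻¹ ∧ deriv (deriv χ) r = 0 := by
  have hb := ha.trans hab
  have hd := sub_pos.2 hab
  obtain ⟨β, hβ⟩ : ∃ β : ℝ → ℝ, β = fun r => Real.smoothTransition ((r - a) / (b - a)) := ⟨_, rfl⟩
  have b0 : ∀ r, r ≤ a → β r = 0 := fun r h => by
    rw [hβ]
    exact Real.smoothTransition.zero_of_nonpos (div_nonpos_of_nonpos_of_nonneg (by linarith) hd.le)
  have b1 : ∀ r, b ≤ r → β r = 1 := fun r h => by
    rw [hβ]
    exact Real.smoothTransition.one_of_one_le ((one_le_div hd).2 (by linarith))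
  have b2 : ∀ r, 0 ≤ β r ∧ β r ≤ 1 := fun r => by
    rw [hβ]
    exact ⟨Real.smoothTransition.nonneg _, Real.smoothTransition.le_one _⟩
  have b3 : ContDiff ℝ ∞ β := by
    rw [hβ]
    exact Real.smoothTransition.contDiff.comp ((contDiff_id.sub contDiff_const).div_const _)
  have b4 : Monotone β := by
    rw [hβ]
    exact fun r t h => Real.smoothTransition.monotone
      (div_le_div_of_nonneg_right (by linarith) hd.le)
  obtain ⟨k, hk⟩ : ∃ k : ℝ → ℝ, k = fun r => (1 - β r) / b + β r / r := ⟨_, rfl⟩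
  have k0 : ∀ r, r < a → k =ᶠ[𝓝 r] fun _ => b⁻¹ := fun r h =>
    (eventually_lt_nhds h).mono fun t ht => by simp [hk, b0 t ht.le]
  have k1 : ContDiff ℝ ∞ k := contDiff_iff_contDiffAt.2 fun r => by
    rcases lt_or_ge r a with h | h
    · exact contDiffAt_const.congr_of_eventuallyEq (k0 r h)
    · rw [hk]
      exact ((contDiffAt_const.sub b3.contDiffAt).div_const _).add
        (b3.contDiffAt.div contDiffAt_id (ha.trans_le h).ne')
  have c1 : ∀ r, HasDerivAt (fun r => Real.log b + ∫ t in b..r, k t) (k r) r := fun r =>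
    (k1.continuous.integral_hasStrictDerivAt b r).hasDerivAt.const_add _
  have c2 : deriv (fun r => Real.log b + ∫ t in b..r, k t) = k := funext fun r => (c1 r).deriv
  refine ⟨fun r => Real.log b + ∫ t in b..r, k t,
    contDiff_infty_iff_deriv.2 ⟨fun r => (c1 r).differentiableAt, c2.symm ▸ k1⟩, fun r h => ?_,
    fun r h => ?_, fun r h => ?_⟩
  · have e : EqOn k (fun t => t⁻¹) (uIcc b r) := fun t ht => by
      rw [uIcc_of_le h] at ht
      simp [hk, b1 t ht.1]
    show _ + _ = _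
    rw [intervalIntegral.integral_congr e, integral_inv_of_pos hb (hb.trans_le h),
      Real.log_div (hb.trans_le h).ne' hb.ne', add_sub_cancel]
  · rw [c2]
    have p1 : 0 < k r := by
      rcases lt_or_ge r a with h' | h'
      · rw [(k0 r h').eq_of_nhds]
        exact inv_pos.2 hb
      · have hr := ha.trans_le h'
        have := b2 r
        rw [hk]
        show 0 < (1 - β r) / b + β r / r
        rw [div_add_div _ _ hb.ne' hr.ne']
        refine div_pos ?_ (mul_pos hb hr)
        rcases this.1.eq_or_lt with e | e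
        · rw [← e]
          linarith
        · exact add_pos_of_nonneg_of_pos (mul_nonneg (by linarith) hr.le) (mul_pos hb e)
    have e : (fun t => k t * t) = fun t => (1 - β t) * t / b + β t := funext fun t => by
      rcases eq_or_ne t 0 with rfl | ht
      · simp [b0 0 ha.le]
      · rw [hk]
        field_simp
    have d1 := ((b3.differentiable (by simp)) r).hasDerivAt
    have d2 := (((k1.differentiable (by simp)) r).hasDerivAt).fun_mul (hasDerivAt_id' r)
    rw [e] at d2
    have d3 := d2.unique ((((d1.const_sub 1).fun_mul (hasDerivAt_id' r)).div_const b).fun_add d1)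
    have p2 : 0 ≤ deriv β r * (b - r) := by
      rcases le_or_gt r b with h' | h'
      · exact mul_nonneg b4.deriv_nonneg (sub_nonneg.2 h')
      · rw [(show β =ᶠ[𝓝 r] fun _ => 1 from (eventually_gt_nhds h').mono fun t ht =>
          b1 t ht.le).deriv_eq, deriv_const, zero_mul]
    refine ⟨p1, ?_⟩
    rw [one_add_div p1.ne']
    refine div_nonneg ?_ p1.le
    have p3 : k r + deriv k r * r = (1 - β r + deriv β r * (b - r)) / b := by
      rw [mul_one] at d3
      rw [add_comm, d3]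
      field_simp
      ring
    rw [p3]
    exact div_nonneg (add_nonneg (sub_nonneg.2 (b2 r).2) p2) hb.le
  · rw [c2, (k0 r h).deriv_eq, deriv_const]
    exact ⟨(k0 r h).eq_of_nhds, rfl⟩

theorem vol_ball {a : ℝ} (ha : 0 < a) :
    volume {w : Cm n | sq w < a} = ENNReal.ofReal (a ^ n * (Real.pi ^ n / n !)) := by
  cases n with
  | zero => simp [sq, ha, volume_pi]
  | succ m =>
    have h := Complex.volume_sum_rpow_lt (Fin (m + 1)) (p := 2) one_le_two √a
    have e : {w : Cm (m + 1) | sq w < a} =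
        {x : Fin (m + 1) → ℂ | (∑ i, ‖x i‖ ^ (2 : ℝ)) ^ (1 / 2 : ℝ) < √a} := by
      ext w
      simp only [mem_ofPred_eq, Real.rpow_two, ← Real.sqrt_eq_rpow]
      exact (Real.sqrt_lt_sqrt_iff (sq_nonneg' w)).symm
    rw [e, h, Fintype.card_fin, ← ENNReal.ofReal_pow (Real.sqrt_nonneg a), pow_mul,
      Real.sq_sqrt ha.le, ← ENNReal.ofReal_mul (pow_pos ha _).le, div_self two_ne_zero,
      Real.Gamma_add_one one_ne_zero, Real.Gamma_one, mul_one, mul_one, mul_div_cancel_left₀ _ two_ne_zero,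
      Real.Gamma_nat_eq_factorial]

/-- the mass of a map which covers a ball -/
theorem mass {f : Cm n → Cm n} {Ω T : Set (Cm n)} (hΩ : MeasurableSet Ω) (hT : MeasurableSet T)
    (hs : Ω ⊆ T) (hf : ∀ z ∈ Ω, DifferentiableAt ℂ f z) {a c : ℝ} (ha : 0 < a) (hc : 0 ≤ c)
    (hi : {w | sq w < a} ⊆ f '' Ω) {g : Cm n → ℝ} (hg : IntegrableOn g T) (h0 : ∀ z ∈ T, 0 ≤ g z)
    (h1 : ∀ z ∈ Ω, g z = c * ‖(jmat f z).det‖ ^ 2) :
    c * (a ^ n * (Real.pi ^ n / n !)) ≤ ∫ z in T, g z := by
  rw [← ENNReal.ofReal_le_ofReal_iff (setIntegral_nonneg hT h0),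
    ofReal_integral_eq_lintegral_ofReal hg ((ae_restrict_iff' hT).2 (.of_forall h0)),
    ENNReal.ofReal_mul hc, ← vol_ball ha]
  refine le_trans ?_ (lintegral_mono_set hs)
  have h2 := (measure_mono hi).trans (addHaar_image_le_lintegral_abs_det_fderiv volume hΩ
    fun z hz => ((hf z hz).restrictScalars ℝ).hasFDerivAt.hasFDerivWithinAt)
  refine (mul_le_mul_right h2 _).trans_eq ?_
  rw [← lintegral_const_mul' _ _ ENNReal.ofReal_ne_top]
  refine setLIntegral_congr_fun hΩ fun z hz => ?_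
  simp only [h1 z hz, INT.det_fderiv_real (hf z hz), ENNReal.ofReal_mul hc, abs_pow, abs_norm]
  rfl

end Vale.Agent.P280Z.Co.Bez
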