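import Vale.Agent.P280Z.Co.BezA
import Vale.Agent.P280Z.Co.BezB

/-!
# P280Z: the lower bound of Bezout (row BEZ)
-/

open scoped Manifold ContDiff Topology Matrix ComplexOrder Nat
open Set Filter MeasureTheory
open Vale.Agent.P272.K Vale.Agent.P272.K.INT Vale.Agent.P281Z Vale.Agent.P285.H281.FD

noncomputable section

namespace Vale.Agent.P280Z.Co

namespace Bez

variable {n : ℕ} {V : Mf n} {L : Bd V.X} {s : Fin n → L.ι → V.X → ℂ} {a b : L.ι} {x p : V.X}
  {e : Chart n V.X}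

variable (s) in
/-- the coefficients of the sections in the frame `a` -/
def vc (a : L.ι) (x : V.X) : Cm n := fun k => s k a x

theorem vc_hol (hs : ∀ k, IsSec n L (s k)) (he : At e x) (ha : x ∈ L.U a) :
    ContDiffAt ℂ ω (fun z => vc s a (e.symm z)) (e x) :=
  contDiffAt_pi.2 fun k => (hs k).holo a e x he ha

theorem vc_sm (hs : ∀ k, IsSec n L (s k)) (he : At e x) (ha : x ∈ L.U a) :
    ContDiffAt ℝ ∞ (fun z => sq (vc s a (e.symm z))) (e x) :=
  sq_cd.contDiffAt.comp _ (((vc_hol hs he ha).of_le le_top).restrict_scalars ℝ)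

theorem vc_ch (hs : ∀ k, IsSec n L (s k)) (ha : x ∈ L.U a) (hb : x ∈ L.U b) :
    sq (vc s a x) = ‖L.g a b x‖ ^ 2 * sq (vc s b x) := by
  rw [← sq_smul]
  exact congrArg sq (funext fun k => (hs k).change a b x ha hb)

theorem vc_ne (ha : x ∈ L.U a) (h : ¬ ∀ k, ¬ NZ L (s k) x) : vc s a x ≠ 0 :=
  fun q => h fun k hk => hk a ha (congrFun q k)

theorem vc_zero (hL : IsLB n L) (hs : ∀ k, IsSec n L (s k)) (ha : x ∈ L.U a)
    (h : ∀ k, ¬ NZ L (s k) x) : vc s a x = 0 :=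
  funext fun k => by_contra fun q => h k fun b hb => by
    rw [(hs k).change b a x hb ha]
    exact mul_ne_zero (hL.ne_zero b a x hb ha) q

theorem g_self (hL : IsLB n L) (ha : x ∈ L.U a) : L.g a a x = 1 :=
  mul_left_cancel₀ (hL.ne_zero a a x ha ha) (by rw [hL.cocycle a a a x ha ha ha, mul_one])

theorem g_sq (hL : IsLB n L) (ha : x ∈ L.U a) (hb : x ∈ L.U b) : ‖L.g a b x‖ ^ 2 ≠ 0 :=
  pow_ne_zero 2 (norm_ne_zero_iff.2 (hL.ne_zero a b x ha hb))

theorem log_ch (hL : IsLB n L) (hs : ∀ k, IsSec n L (s k)) (ha : x ∈ L.U a) (hb : x ∈ L.U b)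
    (h : sq (vc s b x) ≠ 0) : Real.log (sq (vc s a x)) =
      Real.log (‖L.g a b x‖ ^ 2) + Real.log (sq (vc s b x)) := by
  rw [vc_ch hs ha hb, Real.log_mul (g_sq hL ha hb) h]

variable (s) in
/-- the local data at an isolated common zero -/
structure Loc (p : V.X) (W : Set V.X) where
  a : L.ι
  O : Set V.X
  ε : ℝ
  pos : 0 < ε
  opn : IsOpen O
  mem : p ∈ O
  sub : O ⊆ W
  fr : O ⊆ L.U a
  ch : O ⊆ (chartAt (Cm n) p).source
  cl : IsClosed {x ∈ O | sq (vc s a x) ≤ ε}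
  cov : ∀ w, sq w < ε → ∃ x ∈ O, vc s a x = w

theorem ex_loc (hL : IsLB n L) (hs : ∀ k, IsSec n L (s k)) {W : Set V.X} (hW : IsOpen W)
    (hp : p ∈ W) (h0 : ∀ k, ¬ NZ L (s k) p) (h1 : ∀ x ∈ W, (∀ k, ¬ NZ L (s k) x) → x = p) :
    Nonempty (Loc s p W) := by
  obtain ⟨a, ha⟩ := hL.cover p
  obtain ⟨e, he⟩ : ∃ e, e = chartAt (Cm n) p := ⟨_, rfl⟩
  have hm : e ∈ atlas (Cm n) V.X := he ▸ chart_mem_atlas _ _
  have hp' : p ∈ e.source := he ▸ mem_chart_source _ _
  obtain ⟨C, hC, h2, h3⟩ := exists_compact_subset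
    (e.isOpen_inter_preimage_symm (hW.inter (hL.isOpen a))) (x := e p)
    ⟨e.map_source hp', by rw [mem_preimage, e.left_inv hp']; exact ⟨hp, ha⟩⟩
  have hf : ∀ z ∈ C, ContDiffAt ℂ ω (fun z => vc s a (e.symm z)) z := fun z k => by
    have := vc_hol hs ⟨hm, e.map_target (h3 k).1⟩ (h3 k).2.2
    rwa [e.right_inv (h3 k).1] at this
  obtain ⟨ε, hε, h4, h5⟩ := covers hC (interior_subset h2) hf
    (by rw [e.left_inv hp']; exact vc_zero hL hs ha h0) fun z k k2 => vc_ne (h3 k).2.2 fun k3 =>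
      k2 (by rw [← e.right_inv (h3 k).1, h1 _ (h3 k).2.1 k3]; exact h2)
  have h6 : ∀ x ∈ e.source ∩ e ⁻¹' interior C, x ∈ W ∩ L.U a := fun x k => by
    have := (h3 (interior_subset k.2)).2
    rwa [mem_preimage, e.left_inv k.1] at this
  refine ⟨⟨a, e.source ∩ e ⁻¹' interior C, ε, hε, e.isOpen_inter_preimage isOpen_interior,
    ⟨hp', h2⟩, fun x k => (h6 x k).1, fun x k => (h6 x k).2, fun x k => he ▸ k.1, ?_,
    fun w hw => ?_⟩⟩
  · have h7 : IsClosed (C ∩ (fun z => sq (vc s a (e.symm z))) ⁻¹' Iic ε) :=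
      ContinuousOn.preimage_isClosed_of_isClosed (fun z k => ((sq_cd (m := 0)).continuous.continuousAt.comp
        (hf z k).continuousAt).continuousWithinAt) hC.isClosed isClosed_Iic
    have h8 := ((hC.of_isClosed_subset h7 inter_subset_left).image_of_continuousOn
      (e.continuousOn_symm.mono fun z k => (h3 k.1).1)).isClosed
    refine (congrArg IsClosed (Subset.antisymm ?_ ?_)).mp h8
    · rintro _ ⟨z, k, rfl⟩
      refine ⟨⟨e.map_target (h3 k.1).1, ?_⟩, k.2⟩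
      rw [mem_preimage, e.right_inv (h3 k.1).1]
      exact h4 z k.1 k.2
    · exact fun x k => ⟨e x, ⟨interior_subset k.1.2, by
        rw [mem_preimage, e.left_inv k.1.1]; exact k.2⟩, e.left_inv k.1.1⟩
  · obtain ⟨z, k, k2⟩ := h5 w hw
    have k3 := (h3 (interior_subset k)).1
    exact ⟨e.symm z, ⟨e.map_target k3, by rw [mem_preimage, e.right_inv k3]; exact k⟩, k2⟩

section main
variable {ι : Type} [Finite ι] {q : ι → V.X} {W : ι → Set V.X} (D : ∀ i, Loc s (q i) (W i))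
  (hL : IsLB n L) (hs : ∀ k, IsSec n L (s k)) (hW : Pairwise fun i j => Disjoint (W i) (W j))
  (hq : ∀ x, (∀ k, ¬ NZ L (s k) x) → ∃ i, x = q i)
include D hL hs hW hq

/-- the metric which is radial near the zeros -/
theorem ex_met (χ : ι → ℝ → ℝ) (h1 : ∀ i, ContDiff ℝ ∞ (χ i))
    (h2 : ∀ i r, (D i).ε ≤ r → χ i r = Real.log r) : ∃ ψ, IsMet n L ψ ∧
      (∀ i, ∀ x ∈ (D i).O, ψ (D i).a x = χ i (sq (vc s (D i).a x))) ∧
      ∀ x, (∀ i, x ∉ (D i).O) → ∀ a, x ∈ L.U a → vc s a x ≠ 0 ∧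
        ψ a =ᶠ[𝓝 x] fun y => Real.log (sq (vc s a y)) := by
  have h3 : ∀ a x, ∃ t : ℝ, (∀ i, x ∈ (D i).O →
      t = Real.log (‖L.g a (D i).a x‖ ^ 2) + χ i (sq (vc s (D i).a x))) ∧
      ((∀ i, x ∉ (D i).O) → t = Real.log (sq (vc s a x))) := fun a x => by
    by_cases h : ∃ i, x ∈ (D i).O
    · obtain ⟨i, hi⟩ := h
      refine ⟨Real.log (‖L.g a (D i).a x‖ ^ 2) + χ i (sq (vc s (D i).a x)), fun j hj => ?_,
        fun k => absurd hi (k i)⟩
      obtain rfl : i = j := by_contra fun k =>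
        Set.disjoint_left.1 (hW k) ((D i).sub hi) ((D j).sub hj)
      rfl
    · exact ⟨_, fun i hi => absurd ⟨i, hi⟩ h, fun _ => rfl⟩
  choose ψ h4 h5 using h3
  have h6 : ∀ x, (∀ i, x ∉ (D i).O) → ∀ a, x ∈ L.U a → vc s a x ≠ 0 := fun x h a ha =>
    vc_ne ha fun k => by
      obtain ⟨i, rfl⟩ := hq x k
      exact h i (D i).mem
  have h7 : ∀ x, (∀ i, x ∉ (D i).O) → ∀ a, x ∈ L.U a →
      ψ a =ᶠ[𝓝 x] fun y => Real.log (sq (vc s a y)) := fun x h a ha => by
    filter_upwards [(hL.isOpen a).mem_nhds ha, eventually_all.2 fun i =>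
      (D i).cl.isOpen_compl.mem_nhds fun k => h i k.1] with y hy k
    by_cases h' : ∃ i, y ∈ (D i).O
    · obtain ⟨i, hi⟩ := h'
      have k2 : (D i).ε < sq (vc s (D i).a y) := not_le.1 fun k3 => k i ⟨hi, k3⟩
      rw [h4 a y i hi, h2 i _ k2.le, log_ch hL hs hy ((D i).fr hi) ((D i).pos.trans k2).ne']
    · exact h5 a y (not_exists.1 h')
  refine ⟨ψ, ⟨fun a e x he ha => ?_, fun a b x ha hb => ?_⟩, fun i x hx => ?_,
    fun x h a ha => ⟨h6 x h a ha, h7 x h a ha⟩⟩
  · by_cases h : ∃ i, x ∈ (D i).O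
    · obtain ⟨i, hi⟩ := h
      have k := ((((hL.holo a (D i).a e x he ha ((D i).fr hi)).of_le le_top).restrict_scalars
        ℝ).norm_sq (n := ∞) ℝ).log (by rw [e.left_inv he.2]; exact g_sq hL ha ((D i).fr hi))
      exact (k.add ((h1 i).contDiffAt.comp _ (vc_sm hs he ((D i).fr hi)))).congr_of_eventuallyEq
        ((e.tendsto_symm he.2).eventually (mem_of_superset ((D i).opn.mem_nhds hi)
          fun y hy => h4 a y i hy))
    · have h' := not_exists.1 h
      exact ((vc_sm hs he ha).log (by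
        rw [e.left_inv he.2]; exact (sq_pos (h6 x h' a ha)).ne')).congr_of_eventuallyEq
          ((e.tendsto_symm he.2).eventually (h7 x h' a ha))
  · by_cases h : ∃ i, x ∈ (D i).O
    · obtain ⟨i, hi⟩ := h
      rw [h4 a x i hi, h4 b x i hi, ← hL.cocycle a b _ x ha hb ((D i).fr hi), norm_mul, mul_pow,
        Real.log_mul (g_sq hL ha hb) (g_sq hL hb ((D i).fr hi))]
      ring
    · have h' := not_exists.1 h
      rw [h5 a x h', h5 b x h', log_ch hL hs ha hb (sq_pos (h6 x h' b hb)).ne', add_comm]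
  · rw [h4 _ x i hx, g_self hL ((D i).fr hx), norm_one, one_pow, Real.log_one, zero_add]

theorem main (h : C1E) {θ : ℝ} (h0 : 0 < θ) (h1 : θ < 1) :
    Nat.card ι * θ ^ n ≤ intH V (c1H V L ^ n) := by
  have := Fintype.ofFinite ι
  choose χ c1 c2 c3 c4 using fun i =>
    ex_chi (mul_pos h0 (D i).pos) (mul_lt_of_lt_one_left (D i).pos h1)
  obtain ⟨ψ, hψ, m1, m2⟩ := ex_met D hL hs hW hq χ c1 c2
  obtain ⟨F, hF, f1, f2⟩ := c1_pow h hL hψ
  have hc : (0 : ℝ) < n ! / Real.pi ^ n :=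
    div_pos (Nat.cast_pos.2 n.factorial_pos) (pow_pos Real.pi_pos n)
  have f3 : ∀ i e x, At e x → x ∈ (D i).O → F e (e x) = n ! / Real.pi ^ n *
      (‖(jmat (fun z => vc s (D i).a (e.symm z)) (e x)).det‖ ^ 2 *
        (deriv (χ i) (sq (vc s (D i).a x)) ^ n * (1 + deriv (deriv (χ i)) (sq (vc s (D i).a x)) *
          sq (vc s (D i).a x) / deriv (χ i) (sq (vc s (D i).a x))))) := fun i e x he hx => by
    rw [f2 _ e x he ((D i).fr hx), cHess_congr ((e.tendsto_symm he.2).eventually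
      (mem_of_superset ((D i).opn.mem_nhds hx) (m1 i))), det_rad (vc_hol hs he ((D i).fr hx))
        ((c1 i).contDiffAt.of_le (by norm_cast)) (c3 i _ (sq_nonneg' _)).1.ne', Complex.ofReal_re,
      e.left_inv he.2]
  have f4 : ∀ e x, At e x → 0 ≤ F e (e x) := fun e x he => by
    by_cases k : ∃ i, x ∈ (D i).O
    · obtain ⟨i, hi⟩ := k
      rw [f3 i e x he hi]
      exact mul_nonneg hc.le (mul_nonneg (sq_nonneg _) (mul_nonneg
        (pow_pos (c3 i _ (sq_nonneg' _)).1 n).le (c3 i _ (sq_nonneg' _)).2))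
    · obtain ⟨a, ha⟩ := hL.cover x
      have k2 := m2 x (not_exists.1 k) a ha
      rw [f2 a e x he ha, cHess_congr ((e.tendsto_symm he.2).eventually k2.2),
        det_log (vc_hol hs he ha) (by rw [e.left_inv he.2]; exact k2.1), Complex.zero_re, mul_zero]
  choose β b1 b2 b3 using fun i => exists_tsupport_one_of_isOpen_isClosed (D i).opn
    isClosed_closure.isCompact (D i).cl fun _ k => k.1
  have b4 : ∀ x, ∑ i, β i x ≤ 1 := fun x => by
    by_cases k : ∃ i, x ∈ (D i).O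
    · obtain ⟨i, hi⟩ := k
      rw [Finset.sum_eq_single i (fun j _ hj => image_eq_zero_of_notMem_tsupport fun k =>
        Set.disjoint_left.1 (hW hj) ((D j).sub (b1 j k)) ((D i).sub hi))
        fun k => absurd (Finset.mem_univ i) k]
      exact (b3 i x).2
    · rw [Finset.sum_eq_zero fun i _ => image_eq_zero_of_notMem_tsupport fun k2 => k ⟨i, b1 i k2⟩]
      exact zero_le_one
  have d1 := fun i => hF.smul (β i).continuous
  rw [f1]
  refine le_trans ?_ (intX_mono (IsDensity.sum Finset.univ fun i _ => d1 i) hF fun e x he => ?_)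
  · rw [intX_sum _ fun i _ => d1 i, Nat.card_eq_fintype_card, ← nsmul_eq_mul, ← Finset.card_univ]
    refine Finset.card_nsmul_le_sum _ _ _ fun i _ => ?_
    obtain ⟨e, he⟩ : ∃ e, e = chartAt (Cm n) (q i) := ⟨_, rfl⟩
    have hm : e ∈ atlas (Cm n) V.X := he ▸ chart_mem_atlas _ _
    have ho : (D i).O ⊆ e.source := he ▸ (D i).ch
    have hε := (D i).pos
    have ha : ∀ z ∈ e.target, At e (e.symm z) := fun z k => ⟨hm, e.map_target k⟩
    have hf : ∀ z ∈ e.target ∩ e.symm ⁻¹' (D i).O,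
        ContDiffAt ℂ ω (fun z => vc s (D i).a (e.symm z)) z := fun z k => by
      have := vc_hol hs (ha z k.1) ((D i).fr k.2)
      rwa [e.right_inv k.1] at this
    have hΩ : IsOpen (e.target ∩ e.symm ⁻¹' (D i).O ∩
        (fun z => sq (vc s (D i).a (e.symm z))) ⁻¹' Iio (θ * (D i).ε)) :=
      ContinuousOn.isOpen_inter_preimage (fun z k => ((sq_cd (m := 0)).continuous.continuousAt.comp
        (hf z k).continuousAt).continuousWithinAt) (e.isOpen_inter_preimage_symm (D i).opn)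
        isOpen_Iio
    rw [intX_of_support (d1 i) hm (isClosed_tsupport (β i)) ((b1 i).trans ho) fun e' x k k2 => by
      rw [e'.left_inv k.2, image_eq_zero_of_notMem_tsupport k2, zero_mul]]
    refine le_trans (le_of_eq ?_) (mass (c := n ! / Real.pi ^ n * (D i).ε⁻¹ ^ n) hΩ.measurableSet
      e.open_target.measurableSet (fun z k => k.1.1)
      (fun z k => (hf z k.1).differentiableAt (by simp)) (mul_pos h0 hε)
      (mul_pos hc (pow_pos (inv_pos.2 hε) n)).le (fun w hw => ?_)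
      (integrableOn_dens hF hm (β i).continuous ((b1 i).trans ho)) (fun z k => ?_) fun z k => ?_)
    · have := Real.pi_pos
      have : (0 : ℝ) < n ! := Nat.cast_pos.2 n.factorial_pos
      rw [inv_pow, mul_pow]
      field_simp
    · obtain ⟨x, k, rfl⟩ := (D i).cov w (lt_trans hw (mul_lt_of_lt_one_left hε h1))
      refine ⟨e x, ⟨⟨e.map_source (ho k), ?_⟩, ?_⟩, ?_⟩ <;>
        simp only [mem_preimage, e.left_inv (ho k)]
      exacts [k, hw]
    · have := f4 e _ (ha z k)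
      rw [e.right_inv k] at this
      exact mul_nonneg (b3 i _).1 this
    · have k2 := f3 i e _ (ha z k.1.1) k.1.2
      have k3 := c4 i _ k.2
      rw [e.right_inv k.1.1, k3.1, k3.2] at k2
      rw [k2, b2 i ⟨k.1.2, (lt_trans k.2 (mul_lt_of_lt_one_left hε h1)).le⟩, Pi.one_apply]
      ring
  · rw [← Finset.sum_mul]
    exact mul_le_of_le_one_left (f4 e x he) (b4 _)

end main

end Bez

/-- **row BEZ** -/
theorem bez_of (h : C1E) : ct.BEZ := by
  intro n V L s hL hs hZ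
  obtain ⟨W, h1, h2⟩ := hZ.t2_separation
  have := hZ.to_subtype
  have hW : Pairwise fun i j : {x | ∀ k, ¬ NZ L (s k) x} => Disjoint (W i) (W j) :=
    fun i j k => h2 i.2 j.2 fun q => k (Subtype.ext q)
  have D := fun i : {x | ∀ k, ¬ NZ L (s k) x} => (Bez.ex_loc hL hs (h1 i).2 (h1 i).1 i.2
    fun x hx k => by_contra fun q => Set.disjoint_left.1 (h2 k i.2 q) (h1 x).1 hx).some
  have ht : Tendsto (fun θ : ℝ => Nat.card {x | ∀ k, ¬ NZ L (s k) x} * θ ^ n) (𝓝[<] 1)
      (𝓝 (Nat.card {x | ∀ k, ¬ NZ L (s k) x} * 1 ^ n)) :=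
    ((continuous_const.mul (continuous_pow n)).tendsto 1).mono_left nhdsWithin_le_nhds
  rw [one_pow, mul_one, Nat.card_coe_set_eq] at ht
  refine le_of_tendsto ht ?_
  filter_upwards [Ioo_mem_nhdsLT zero_lt_one] with θ hθ
  rw [← Nat.card_coe_set_eq]
  exact Bez.main D hL hs hW (fun x k => ⟨⟨x, k⟩, rfl⟩) h hθ.1 hθ.2

end Vale.Agent.P280Z.Co
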