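import Vale.Agent.P280Z.Co.ChA
import Vale.Agent.P277Z.Slc.Basic

/-!
# P280Z, row CH (part 2): the Chern character
-/

open scoped Manifold ContDiff Topology Matrix ComplexOrder
open Set Filter
open Vale.Agent.P272.K Vale.Agent.P281Z Vale.Agent.P281Z.Hg Vale.Agent.P285.H281.FD
open Vale.Agent.P277Z.Slc (lin isLB_can)
open Vale.Agent.P231.ChW (GDA Ev ch Idem dM NewtonRec om kr RankOne)

noncomputable section

namespace Vale.Agent.P280Z.Co.ChH

variable {n m N M : ℕ} {V : Mf n} {W : Mf m} {E E' E'' : VB V.X}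

theorem sm_of_hom {χ : V.X → (Fin N → ℂ) →ₗ[ℂ] (Fin M → ℂ)}
    (h : IsHom n (VB.triv V.X N) (VB.triv V.X M) χ) (x : V.X) :
    SmAt n (fun y => LinearMap.toMatrix' (χ y)) x := by
  obtain ⟨_, _, -, -, μ, h1, h2⟩ := h x
  intro e he i j
  refine (h1 e he i j).congr_of_eventuallyEq ?_
  filter_upwards [(e.tendsto_symm he.2).eventually h2] with z hz
  exact (congrFun (LinearMap.congr_fun hz (Pi.single j 1)) i).trans
    (congrFun (Matrix.mulVec_single_one (μ (e.symm z)) j) i)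

theorem fn_ex (r : REP) {χ : V.X → (Fin N → ℂ) →ₗ[ℂ] (Fin M → ℂ)}
    (h : IsHom n (VB.triv V.X N) (VB.triv V.X M) χ) : ∃ X, Fn χ X := by
  choose X hX using fun i j => r.1 V (fun x => χ x (Pi.single j 1) i)
    fun x e he _ _ => sm_of_hom h x e he i j
  exact ⟨Matrix.of X, hX⟩

theorem hom_adj {χ : V.X → (Fin N → ℂ) →ₗ[ℂ] (Fin M → ℂ)}
    (h : IsHom n (VB.triv V.X N) (VB.triv V.X M) χ) : IsHom n (VB.triv V.X M) (VB.triv V.X N)
      fun x => Matrix.toLin' (LinearMap.toMatrix' (χ x))ᴴ := fun x =>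
  ⟨(), (), trivial, trivial, fun y => (LinearMap.toMatrix' (χ y))ᴴ, fun e he i j =>
    Complex.conjCLE.contDiff.contDiffAt.comp _ (sm_of_hom h x e he j i),
    Eventually.of_forall fun _ => rfl⟩

theorem hom_id (hE : IsVB n E) : IsHom n E E fun _ => LinearMap.id := fun x =>
  let ⟨i, hi⟩ := hE.cover x
  ⟨i, i, hi, hi, hE.sm i i x hi hi⟩

theorem hom_congr {φ ψ : ∀ x, E.A x →ₗ[ℂ] E'.A x} (h : IsHom n E E' φ)
    (e : ∀ x w, φ x w = ψ x w) : IsHom n E E' ψ :=
  (funext fun x => LinearMap.ext (e x) : φ = ψ) ▸ h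

theorem hom_sub (v : VBL) (hE : IsVB n E) (hE' : IsVB n E') {φ ψ : ∀ x, E.A x →ₗ[ℂ] E'.A x}
    (h : IsHom n E E' φ) (h' : IsHom n E E' ψ) : IsHom n E E' fun x => φ x - ψ x := fun x => by
  obtain ⟨i, i', hi, hi', μ, h1, h2⟩ := h x
  obtain ⟨μ', h3, h4⟩ := v.all hE hE' h' i i' x hi hi'
  refine ⟨i, i', hi, hi', fun y => μ y - μ' y, fun e he j k => (h1 e he j k).sub (h3 e he j k), ?_⟩
  filter_upwards [h2, h4] with y k1 k2
  rw [LinearMap.sub_comp, k1, k2, map_sub, LinearMap.comp_sub]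

theorem ps_iso (v : VBL) (r : REP) (p : PSE) {φ : ∀ x, E.A x →ₗ[ℂ] E'.A x} (hE : IsVB n E)
    (hE' : IsVB n E') (h : IsHom n E E' φ) (hb : ∀ x, Function.Bijective (φ x)) (k : ℕ) :
    psH V E k = psH V E' k := by
  obtain ⟨N, a, b, P, hP⟩ := rp_ex r hE'
  have e : ∀ x w, φ x ((LinearEquiv.ofBijective (φ x) (hb x)).symm w) = w := fun x w =>
    (LinearEquiv.ofBijective (φ x) (hb x)).apply_symm_apply w
  have hc : IsHom n E' E fun x => (LinearEquiv.ofBijective (φ x) (hb x)).symm.toLinearMap :=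
    v.lift hE hE' h (fun x => (hb x).1) (hom_congr (hom_id hE') fun x w => (e x w).symm)
  have hR : Rp E (fun x => (a x).comp (φ x))
      (fun x => (LinearEquiv.ofBijective (φ x) (hb x)).symm.toLinearMap.comp (b x)) P :=
    ⟨v.comp hE' h hP.ha, v.comp hE' hP.hb hc, fun x w => (hb x).1 ((e x _).trans (hP.ba x _)),
      fun i j => fn_congr (hP.fn i j) fun x => congrArg (fun w => a x w i) (e x _).symm⟩
  exact (hR.rl p hE k).uniq (hP.rl p hE' k)

/-- smooth splittings -/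
theorem split (v : VBL) (r : REP) {φ : ∀ x, E'.A x →ₗ[ℂ] E.A x} {ψ : ∀ x, E.A x →ₗ[ℂ] E''.A x}
    (h : Ses n E' E E'' φ ψ) : ∃ (ρ : ∀ x, E.A x →ₗ[ℂ] E'.A x) (σ : ∀ x, E''.A x →ₗ[ℂ] E.A x),
      IsHom n E E' ρ ∧ IsHom n E'' E σ ∧ (∀ x w, ρ x (φ x w) = w) ∧ (∀ x w, ψ x (σ x w) = w) ∧
      (∀ x w, ρ x (σ x w) = 0) ∧ ∀ x w, φ x (ρ x w) + σ x (ψ x w) = w := by
  obtain ⟨N, a, b, P, hP⟩ := rp_ex r h.v2
  obtain ⟨N', a', b', P', hP'⟩ := rp_ex r h.v1
  set F := fun x => LinearMap.toMatrix' ((a x).comp ((φ x).comp (b' x))) with hF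
  set S := fun x => (b' x).comp ((Matrix.toLin' (F x)ᴴ).comp (a x)) with hS
  have h1 : IsHom n E E' S := v.comp (v.triv V N') (v.comp (v.triv V N) hP.ha
    (hom_adj (v.comp h.v2 (v.comp h.v1 hP'.hb h.h1) hP.ha))) hP'.hb
  have hb : ∀ x, Function.Bijective ((S x).comp (φ x)) := fun x => by
    obtain ⟨i, hi⟩ := h.v1.cover x
    have := Module.Finite.of_surjective (E'.b i x) (h.v1.bij i x hi).2
    have e : ∀ w, F x *ᵥ w = a x (φ x (b' x w)) := fun w => LinearMap.toMatrix'_mulVec _ _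
    have hi : Function.Injective ((S x).comp (φ x)) := (injective_iff_map_eq_zero _).2 fun w k => by
      have k1 : (F x * (F x)ᴴ) *ᵥ a x (φ x w) = 0 := by
        rw [← Matrix.mulVec_mulVec, e, show b' x ((F x)ᴴ *ᵥ a x (φ x w)) = 0 from k, map_zero,
          map_zero]
      rw [Matrix.self_mul_conjTranspose_mulVec_eq_zero, ← hP'.ba x w, ← e, Matrix.mulVec_mulVec,
        Matrix.conjTranspose_mul_self_mulVec_eq_zero, e, hP'.ba] at k1
      exact h.inj x (by rw [← hP.ba x (φ x w), k1, map_zero, map_zero])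
    exact ⟨hi, LinearMap.injective_iff_surjective.1 hi⟩
  set ρ := fun x => (LinearEquiv.ofBijective _ (hb x)).symm.toLinearMap.comp (S x) with hρ
  have h2 : IsHom n E E' ρ := v.lift h.v1 h.v1 (v.comp h.v2 h.h1 h1) (fun x => (hb x).1)
    (hom_congr h1 fun x w => ((LinearEquiv.ofBijective _ (hb x)).apply_symm_apply _).symm)
  have h3 : ∀ x w, ρ x (φ x w) = w := fun x w =>
    (LinearEquiv.ofBijective _ (hb x)).symm_apply_apply w
  choose g hg using fun x =>
    (ψ x).exists_rightInverse_of_surjective (LinearMap.range_eq_top.2 (h.surj x))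
  have hg' : ∀ x w, ψ x (g x w) = w := fun x w => LinearMap.congr_fun (hg x) w
  have h4 : ∀ x w, g x (ψ x w) - φ x (ρ x (g x (ψ x w))) = w - φ x (ρ x w) := fun x w => by
    obtain ⟨u, hu⟩ := (h.ex x (g x (ψ x w) - w)).1 (by rw [map_sub, hg', sub_self])
    rw [eq_sub_iff_add_eq.1 hu |>.symm, map_add, map_add, h3]
    abel
  refine ⟨ρ, fun x => (LinearMap.id - (φ x).comp (ρ x)).comp (g x), h2,
    v.desc h.v2 h.v3 h.h2 h.surj (hom_congr (hom_sub v h.v2 h.v2 (hom_id h.v2)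
      (v.comp h.v1 h2 h.h1)) fun x w => (h4 x w).symm), h3, fun x w => ?_, fun x w => ?_,
    fun x w => ?_⟩
  · show ψ x (g x w - φ x (ρ x (g x w))) = w
    rw [map_sub, hg', (h.ex x).apply_apply_eq_zero, sub_zero]
  · show ρ x (g x w - φ x (ρ x (g x w))) = 0
    rw [map_sub, h3, sub_self]
  · exact (congrArg _ (h4 x w)).trans (add_sub_cancel _ _)

theorem ps_ses (v : VBL) (r : REP) (t : TRG) (p : PSE) {φ : ∀ x, E'.A x →ₗ[ℂ] E.A x}
    {ψ : ∀ x, E.A x →ₗ[ℂ] E''.A x} (h : Ses n E' E E'' φ ψ) (k : ℕ) :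
    psH V E k = psH V E' k + psH V E'' k := by
  obtain ⟨ρ, σ, h1, h2, e1, e2, e3, e4⟩ := split v r h
  obtain ⟨N, a, b, P, hP⟩ := rp_ex r h.v1
  obtain ⟨N', a', b', P', hP'⟩ := rp_ex r h.v3
  set c := LinearEquiv.sumArrowLequivProdArrow (Fin N) (Fin N') ℂ ℂ with hc
  have c1 : ∀ j, c (Pi.single (Sum.inl j) 1) = (Pi.single j 1, 0) := fun j =>
    Prod.ext (funext fun i => by simp [hc, Pi.single_apply]) (funext fun i => by simp [hc])
  have c2 : ∀ j, c (Pi.single (Sum.inr j) 1) = (0, Pi.single j 1) := fun j =>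
    Prod.ext (funext fun i => by simp [hc]) (funext fun i => by simp [hc, Pi.single_apply])
  have c3 : ∀ u i, c.symm u (Sum.inl i) = u.1 i := fun _ _ => rfl
  have c4 : ∀ u i, c.symm u (Sum.inr i) = u.2 i := fun _ _ => rfl
  have e0 := fun x => (h.ex x).apply_apply_eq_zero
  have := gen r t p h.v2
    (fun x => c.symm.toLinearMap.comp (((a x).comp (ρ x)).prod ((a' x).comp (ψ x))))
    (fun x => (((φ x).comp (b x)).coprod ((σ x).comp (b' x))).comp c.toLinearMap)
    (fun x w => by simp [hP.ba, hP'.ba, e4]) (fun K b₀ h₀ => ?_) (fun K a₀ h₀ => ?_)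
    (P := Matrix.fromBlocks P 0 0 P') ?_ k
  · refine this.uniq ?_
    rw [nc, P231.ChW.ch_fromBlocks, smul_add]
    exact (hP.rl p h.v1 k).add (hP'.rl p h.v3 k)
  · obtain ⟨X, hX⟩ := fn_ex r (v.comp h.v1 (v.comp h.v2 h₀ h1) hP.ha)
    obtain ⟨X', hX'⟩ := fn_ex r (v.comp h.v3 (v.comp h.v2 h₀ h.h2) hP'.ha)
    exact ⟨Matrix.fromRows X X', fun i j => by
      cases i with
      | inl i => exact hX i j
      | inr i => exact hX' i j⟩
  · obtain ⟨X, hX⟩ := fn_ex r (v.comp h.v2 (v.comp h.v1 hP.hb h.h1) h₀)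
    obtain ⟨X', hX'⟩ := fn_ex r (v.comp h.v2 (v.comp h.v3 hP'.hb h2) h₀)
    exact ⟨Matrix.fromCols X X', fun i j => by
      cases j with
      | inl j => exact fn_congr (hX i j) fun x => by simp [c1]; rfl
      | inr j => exact fn_congr (hX' i j) fun x => by simp [c2]; rfl⟩
  · rintro (i | i) (j | j)
    · exact fn_congr (hP.fn i j) fun x => by simp [c1, e1, c3]
    · exact fn_congr fn_zero fun x => by simp [c2, e3, c3]
    · exact fn_congr fn_zero fun x => by simp [c1, e0, c4]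
    · exact fn_congr (hP'.fn i j) fun x => by simp [c2, e2, c4]

theorem ps_ln (v : VBL) (l : LN1) {L : Bd V.X} (hL : IsLB n L) : psH V (VB.ln L) 1 = c1H V L :=
  l V (VB.ln L) L Prod.snd (v.tw V _ L (v.triv V 1) hL) hL (fun _ _ h => h.2)
      fun i j x hi hj (μ : Matrix (Fin 1) (Fin 1) ℂ) h => by
    have h0 : ∃ c, x ∈ L.U c := hL.cover x
    have k : cf L j.2 x * 1 = cf L i.2 x * (μ *ᵥ Pi.single 0 1) (0 : Fin 1) :=
      congrFun (LinearMap.congr_fun h (Pi.single (0 : Fin 1) 1)) (0 : Fin 1)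
    simp only [cf, dif_pos h0, Matrix.mulVec_single_one, mul_one] at k
    rw [← hL.cocycle _ _ _ x h0.choose_spec hi.2 hj.2] at k
    exact (Matrix.det_fin_one μ).trans
      (mul_left_cancel₀ (hL.ne_zero _ _ x h0.choose_spec hi.2) k).symm

theorem ps_tw (v : VBL) (r : REP) (t : TRG) (p : PSE) (l : LN1) {L : Bd V.X} (hE : IsVB n E)
    (hL : IsLB n L) (k : ℕ) : psH V (E.tw L) k =
      ∑ j ∈ Finset.range (k + 1), (k.choose j : ℝ) • (psH V E j * c1H V L ^ (k - j)) := by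
  have hl : IsVB n (VB.ln L) := v.tw V _ L (v.triv V 1) hL
  obtain ⟨N, a, b, P, hP⟩ := rp_ex r hE
  obtain ⟨M, a₁, b₁, Q, hQ⟩ : ∃ (M : ℕ) (a₁ : V.X → (Fin 1 → ℂ) →ₗ[ℂ] (Fin M → ℂ))
    (b₁ : V.X → (Fin M → ℂ) →ₗ[ℂ] (Fin 1 → ℂ)) (Q : Matrix (Fin M) (Fin M) (Om V)),
    Rp (VB.ln L) a₁ b₁ Q := rp_ex r hl
  have hq : ∀ i j, IsFn (fun x => a₁ x (Pi.single 0 1) i * b₁ x (Pi.single j 1) 0) (Q i j) :=
    fun i j => fn_congr (hQ.fn i j) fun x => (ap_sum (a₁ x) _ i).trans (Fin.sum_univ_one _)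
  have h1 : RankOne Q := ⟨fun i j k l => fn_ext (fn_mul (hq i j) (hq k l))
    (fn_mul (hq i l) (hq k j)) fun x => by ring, (hQ.trace hl).trans Nat.cast_one⟩
  have h2 : ∀ x, ∑ k, b₁ x (Pi.single k 1) 0 * a₁ x (Pi.single 0 1) k = 1 := fun x =>
    (ap_sum (b₁ x) _ 0).symm.trans (congrFun (hQ.ba x (Pi.single 0 1)) (0 : Fin 1))
  have h3 : ∀ k, IsHom n (E.tw L) E fun x => a₁ x (Pi.single 0 1) k • LinearMap.id := fun k x => by
    obtain ⟨i, hi⟩ := hE.cover x
    obtain ⟨c, _, hc, -, μ, k1, k2⟩ := hQ.ha x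
    refine ⟨(i, c.2), i, ⟨hi, hc.2⟩, hi, fun y => μ y k (0 : Fin 1) • (1 : Matrix (Fin E.r) (Fin E.r) ℂ),
      fun e he j j' => (k1 e he k (0 : Fin 1)).mul contDiffAt_const, ?_⟩
    filter_upwards [k2] with y hy
    have k3 : cf L c.2 y * a₁ y (Pi.single 0 1) k = μ y k (0 : Fin 1) :=
      (congrFun (map_smul (a₁ y) (cf L c.2 y) _) k).symm.trans
        ((congrFun (LinearMap.congr_fun hy (Pi.single (0 : Fin 1) 1)) k).trans
          (congrFun (Matrix.mulVec_single_one (μ y) (0 : Fin 1)) k))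
    refine LinearMap.ext fun w : Fin E.r → ℂ => ?_
    show a₁ y (Pi.single 0 1) k • cf L c.2 y • E.b i y w =
      E.b i y (Matrix.toLin' (_ • (1 : Matrix (Fin E.r) (Fin E.r) ℂ)) w)
    rw [map_smul, Matrix.toLin'_one, LinearMap.smul_apply, map_smul, smul_smul, mul_comm, k3]
    rfl
  have h4 : ∀ k, IsHom n E (E.tw L) fun x => b₁ x (Pi.single k 1) 0 • LinearMap.id := fun k x => by
    obtain ⟨i, hi⟩ := hE.cover x
    obtain ⟨_, c, -, hc, μ, k1, k2⟩ := hQ.hb x
    refine ⟨i, (i, c.2), hi, ⟨hi, hc.2⟩, fun y => μ y (0 : Fin 1) k • (1 : Matrix (Fin E.r) (Fin E.r) ℂ),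
      fun e he j j' => (k1 e he (0 : Fin 1) k).mul contDiffAt_const, ?_⟩
    filter_upwards [k2] with y hy
    have k3 : b₁ y (Pi.single k 1) 0 = cf L c.2 y * μ y (0 : Fin 1) k :=
      (congrFun (LinearMap.congr_fun hy (Pi.single k 1)) (0 : Fin 1)).trans
        (congrArg (cf L c.2 y * ·) (congrFun (Matrix.mulVec_single_one (μ y) k) (0 : Fin 1)))
    refine LinearMap.ext fun w => ?_
    show b₁ y (Pi.single k 1) 0 • E.b i y w = cf L c.2 y • E.b i y (Matrix.toLin' _ w)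
    rw [map_smul, Matrix.toLin'_one, LinearMap.smul_apply, map_smul, smul_smul, k3]
    rfl
  set B : ∀ x, (Fin N × Fin M → ℂ) →ₗ[ℂ] E.A x := fun x => ∑ k, b₁ x (Pi.single k 1) 0 •
    (b x).comp (LinearMap.funLeft ℂ ℂ fun i => (i, k)) with hB
  have h5 : ∀ x i k, B x (Pi.single (i, k) 1) = b₁ x (Pi.single k 1) 0 • b x (Pi.single i 1) :=
    fun x i k => by
      rw [hB, LinearMap.sum_apply, Finset.sum_eq_single k (fun k' _ hk => ?_) (by simp)]
      · exact congrArg (fun w => b₁ x (Pi.single k 1) 0 • b x w)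
          (funext fun j => by simp [Pi.single_apply])
      · exact smul_eq_zero_of_right _ ((congrArg (b x) (funext fun j => by simp [hk])).trans
          (map_zero _))
  have h6 : ∀ x (w : E.A x), B x (fun q => a₁ x (Pi.single 0 1) q.2 * a x w q.1) = w :=
    fun x w => by
      rw [hB, LinearMap.sum_apply]
      refine (Finset.sum_congr rfl fun k _ => ?_).trans
        ((Finset.sum_smul.symm.trans (congrArg (· • w) (h2 x))).trans (one_smul _ _))
      show b₁ x (Pi.single k 1) 0 • b x (a₁ x (Pi.single 0 1) k • a x w) = _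
      rw [map_smul, hP.ba, smul_smul]
  have := gen (E := E.tw L) r t p (v.tw V E L hE hL)
    (fun x => LinearMap.pi fun q : Fin N × Fin M =>
      a₁ x (Pi.single 0 1) q.2 • (LinearMap.proj q.1).comp (a x)) B
    h6 (fun K b₀ h₀ => ?_) (fun K a₀ h₀ => ?_) (P := kr P Q) ?_ k
  · refine this.uniq ?_
    have e : nc k (kr P Q) = ∑ j ∈ Finset.range (k + 1),
        ((k.choose j : ℝ) : ℂ) • (nc j P * nc 1 Q ^ (k - j)) := by
      rw [nc, P231.ChW.ch_kr hP.idem hQ.idem, Finset.smul_sum]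
      refine Finset.sum_congr rfl fun j hj => ?_
      rw [nc, nc, pow_one, smul_pow, smul_mul_smul_comm, ← pow_add, ← P231.ChW.ch_rankOne hQ.idem h1,
        Nat.add_sub_cancel' (Nat.lt_succ_iff.1 (Finset.mem_range.1 hj)), Complex.ofReal_natCast,
        Nat.cast_smul_eq_nsmul, smul_comm]
    rw [e, ← ps_ln v l hL]
    exact rl_sum _ fun j _ => ((hP.rl p hE j).mul ((hQ.rl p hl 1).pow _)).smul _
  · choose X hX using fun k => fn_ex r (v.comp hE (v.comp (v.tw V E L hE hL) h₀ (h3 k)) hP.ha)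
    exact ⟨Matrix.of fun q j => X q.2 q.1 j, fun q j => fn_congr (hX q.2 q.1 j) fun x =>
      congrFun (map_smul (a x) _ _) q.1⟩
  · choose X hX using fun k => fn_ex r (v.comp (v.tw V E L hE hL) (v.comp hE hP.hb (h4 k)) h₀)
    exact ⟨Matrix.of fun j q => X q.2 j q.1, fun j q => fn_congr (hX q.2 j q.1) fun x =>
      congrArg (fun w => a₀ x w j) (h5 x q.1 q.2).symm⟩
  · refine fun q q' => fn_congr (fn_mul (hP.fn q.1 q'.1) (hq q.2 q'.2)) fun x => ?_
    show _ = a₁ x (Pi.single 0 1) q.2 * a x (B x (Pi.single (q'.1, q'.2) 1)) q.1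
    rw [h5, map_smul, Pi.smul_apply, smul_eq_mul, LinearMap.comp_apply]
    ring

theorem lb_lin {α : Type} [Fintype α] {L : α → Bd V.X} (hL : ∀ a, IsLB n (L a)) (a : α → ℤ) :
    IsLB n (lin L a) :=
  ⟨fun u => by
      rw [show (lin L a).U u = ⋂ a, (L a).U (u a) from Set.ext fun _ => mem_iInter.symm]
      exact isOpen_iInter_of_finite fun a => (hL a).isOpen (u a),
    fun x => ⟨fun i => ((hL i).cover x).choose, fun i => ((hL i).cover x).choose_spec⟩,
    fun i j e x he hi hj => (Finset.analyticAt_fun_prod _ fun b _ =>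
      ((hL b).holo _ _ e x he (hi b) (hj b)).analyticAt.fun_zpow (by
        rw [e.left_inv he.2]; exact (hL b).ne_zero _ _ x (hi b) (hj b))).contDiffAt,
    fun i j x hi hj => Finset.prod_ne_zero_iff.2 fun b _ =>
      zpow_ne_zero _ ((hL b).ne_zero _ _ x (hi b) (hj b)), fun i j k x hi hj hk => by
      refine Finset.prod_mul_distrib.symm.trans (Finset.prod_congr rfl fun b _ => ?_)
      rw [← mul_zpow, (hL b).cocycle _ _ _ x (hi b) (hj b) (hk b)]⟩

theorem ps_tan (v : VBL) (l : LN1) (c : ct.C1) (V : Mf n) :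
    psH V (VB.tan n V.X) 1 = -c1H V (Bd.can n V.X) := by
  have e : ∀ (e : Chart n V.X) x, At e x → LinearMap.toMatrix' ((VB.tan n V.X).b e x) =
      jacM e (chartAt (Cm n) x) x := fun e x he => Matrix.ext fun i j =>
    (jmat_apply (transition_differentiableAt he (Pb1H.ca x)) i j).symm
  rw [l V (VB.tan n V.X) (lin (fun _ : Unit => Bd.can n V.X) fun _ => -1) (fun e _ => e) (v.tan V)
    (lb_lin (fun _ => isLB_can) _) (fun _ _ h _ => h)
    fun i j x hi hj (μ : Matrix (Fin n) (Fin n) ℂ) h => ?_]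
  · exact (c.lin V _ _ fun _ => isLB_can).trans (by simp; rfl)
  · have k : jacM j (chartAt (Cm n) x) x = jacM i (chartAt (Cm n) x) x * μ := by
      rw [← e i x hi, ← e j x hj, h]
      exact (LinearMap.toMatrix'_comp _ _).trans (congrArg _ (LinearMap.toMatrix'_toLin' μ))
    have k' := congrArg Matrix.det k
    rw [jacM_comp hi hj (Pb1H.ca x), Matrix.det_mul, Matrix.det_mul, mul_assoc,
      left_eq_mul₀ (jacM_det_ne_zero hj (Pb1H.ca x))] at k'
    exact (eq_inv_of_mul_eq_one_right k').trans (by simp [lin, Bd.can])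

theorem pr_pr (k : ℕ) (a : HH V) : prH V k (prH V k a) = prH V k a := by
  obtain ⟨u, rfl⟩ := mk_surj a
  rw [pr_mk k (v := mkZ _ ((good_dg _).z _ (fm_mem u))) rfl]
  exact pr_mk k (LinearMap.congr_fun (((cx_OK V).dg_mul _ _).trans (if_pos rfl)) _).symm

end ChH

open ChH

/-- **row CH** -/
theorem ch_of (v : VBL) (r : REP) (t : TRG) (p : PSE) (l : LN1) (c : ct.C1) : ct.Ch where
  deg _ _ k := pr_pr k _
  zero V E hE := by
    obtain ⟨N, a, b, P, hP⟩ := rp_ex r hE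
    refine (hP.rl p hE 0).uniq ?_
    rw [nc, ch, pow_zero, pow_zero, one_smul, mul_one, hP.trace hE]
    exact rl_nat _
  triv V N k := by
    have h : Rp (VB.triv V.X N) (fun _ => LinearMap.id) (fun _ => LinearMap.id) 1 :=
      ⟨hom_id (v.triv V N), hom_id (v.triv V N), fun _ _ => rfl, fun i j => by
        by_cases e : i = j
        · subst e
          exact fn_congr (by simpa using fn_const (V := V) 1) fun x =>
            show (1 : ℂ) = (Pi.single i 1 : Fin N → ℂ) i by simp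
        · rw [Matrix.one_apply_ne e]
          exact fn_congr fn_zero fun x =>
            show (0 : ℂ) = (Pi.single j 1 : Fin N → ℂ) i by simp [e]⟩
    refine (h.rl p (v.triv V N) _).uniq ?_
    rw [nc, ch, P231.ChW.dd, P231.ChW.dM_one, mul_zero, zero_pow k.succ_ne_zero, mul_zero,
      Matrix.trace_zero, smul_zero]
    exact rl_zero
  ses _ _ _ _ _ _ h k := ps_ses v r t p h k
  iso _ _ _ _ hE hE' h hb k := ps_iso v r p hE hE' h hb k
  pull {n m V W f} hf E hE k := by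
    obtain ⟨N, a, b, P, hP⟩ := rp_ex r hE
    have h : Rp (E.pull f) (fun x => a (f x)) (fun x => b (f x)) (P.map (pb hf).toRingHom) :=
      ⟨v.hpull hf hP.ha, v.hpull hf hP.hb, fun x => hP.ba _, fun i j => fn_pb hf (hP.fn i j)⟩
    refine (h.rl p (v.pull E hf hE) k).uniq ?_
    rw [nc, ch_map _ (pb_d hf)]
    exact (map_smul (pb hf) _ _) ▸ (hP.rl p hE k).pb hf
  tw _ _ _ hE hL k := ps_tw v r t p l hE hL k
  rank V E hE e he j hj := by
    obtain ⟨N, a, b, P, hP⟩ := rp_ex r hE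
    refine (rl_newton he (nr_scale (nwt_spec fun k => ch k P) _) (hP.rl p hE) j).uniq ?_
    rw [hP.fn.newton hP.ii (fun x => (hP.fac hE x).2) (nwt_spec _) hj, smul_zero]
    exact rl_zero
  det := l
  tan V := ps_tan v l c V

end Vale.Agent.P280Z.Co
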