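import Vale.Agent.P280Z.Co.Sk

/-!
# P280Z, row PL: the regularised metrics and the pointwise formulas
-/

open scoped Manifold ContDiff Topology Matrix
open Set Filter
open Vale.Agent.P272.K Vale.Agent.P272.K.C2 Vale.Agent.P299.IX Vale.Agent.P299.IX.Fock
  Vale.Agent.P281Z Vale.Agent.P281Z.Hg Vale.Agent.P280Z.Pu Vale.Agent.P285.H281.FD

noncomputable section

namespace Vale.Agent.P280Z.Co.PlH

section pt
variable {m : ℕ} {σ : Cm m → ℂ} {ψ : Cm m → ℝ} {z : Cm m} {ε : ℝ}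

theorem nsq_eq (σ : Cm m → ℂ) :
    (fun y => ((‖σ y‖ ^ 2 : ℝ) : ℂ)) = fun y => σ y * starRingEnd ℂ (σ y) :=
  funext fun y => by rw [Complex.mul_conj, Complex.normSq_eq_norm_sq]

theorem dz_nsq (h : DifferentiableAt ℂ σ z) (j : Fin m) :
    dz j (fun y => ((‖σ y‖ ^ 2 : ℝ) : ℂ)) z = dz j σ z * starRingEnd ℂ (σ z) := by
  have hr := h.restrictScalars ℝ
  rw [nsq_eq, dz_mul j hr (differentiableAt_conj hr), dz_conj j hr, INT.dzb_of_holo h, map_zero,
    mul_zero, add_zero]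

theorem dzb_nsq (h : DifferentiableAt ℂ σ z) (j : Fin m) :
    dzb j (fun y => ((‖σ y‖ ^ 2 : ℝ) : ℂ)) z = σ z * starRingEnd ℂ (dz j σ z) := by
  have hr := h.restrictScalars ℝ
  rw [nsq_eq, dzb_mul j hr (differentiableAt_conj hr), dzb_conj j hr, INT.dzb_of_holo h,
    zero_mul, zero_add]

theorem cd_real (h : ContDiffAt ℂ ω σ z) : ContDiffAt ℝ ∞ σ z :=
  (h.restrict_scalars ℝ).of_le le_top

theorem hess_nsq (h : ContDiffAt ℂ ω σ z) (j k : Fin m) :
    cHess (fun y => ‖σ y‖ ^ 2) z j k = dz j σ z * starRingEnd ℂ (dz k σ z) := by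
  have hev : ∀ᶠ y in 𝓝 z, DifferentiableAt ℂ σ y :=
    h.analyticAt.eventually_analyticAt.mono fun _ hy => hy.differentiableAt
  have h2 : ContDiffAt ℝ 2 σ z := (h.restrict_scalars ℝ).of_le le_top
  have hk := differentiableAt_dz k h2
  have h3 : dzb j (dz k σ) z = 0 := by
    rw [← dz_dzb_comm k j h2,
      dz_congr k (g := fun _ => 0) (hev.mono fun _ hy => INT.dzb_of_holo hy j), dz_const]
  rw [cHess_apply, dz_congr j (hev.mono fun _ hy => dzb_nsq hy k),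
    dz_mul j (hev.self_of_nhds.restrictScalars ℝ) (differentiableAt_conj hk), dz_conj j hk, h3,
    map_zero, mul_zero, add_zero]

/-- the covariant derivative of the section -/
def cv (σ : Cm m → ℂ) (ψ : Cm m → ℝ) (z : Cm m) (j : Fin m) : ℂ :=
  dz j σ z - σ z * dz j (fun y => (ψ y : ℂ)) z

/-- the matrix of `i Dσ ∧ conj Dσ` -/
def mv (σ : Cm m → ℂ) (ψ : Cm m → ℝ) (z : Cm m) : Matrix (Fin m) (Fin m) ℂ :=
  Matrix.of fun j k => cv σ ψ z j * starRingEnd ℂ (cv σ ψ z k)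

theorem den_pos (a : ℂ) (b : ℝ) (hε : 0 < ε) : 0 < ‖a‖ ^ 2 + ε * Real.exp b := by positivity

theorem cd_den (h : ContDiffAt ℂ ω σ z) (hψ : ContDiffAt ℝ ∞ ψ z) :
    ContDiffAt ℝ ∞ (fun y => ‖σ y‖ ^ 2 + ε * Real.exp (ψ y)) z :=
  ((cd_real h).norm_sq ℂ).add (contDiffAt_const.mul hψ.exp)

/-- the curvature of the regularised metric -/
theorem hess_reg (h : ContDiffAt ℂ ω σ z) (hψ : ContDiffAt ℝ ∞ ψ z) (hε : 0 < ε) :
    cHess (fun y => Real.log (‖σ y‖ ^ 2 + ε * Real.exp (ψ y))) z =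
      ((ε * Real.exp (ψ z) / (‖σ z‖ ^ 2 + ε * Real.exp (ψ z)) : ℝ) : ℂ) • cHess ψ z +
      ((ε * Real.exp (ψ z) / (‖σ z‖ ^ 2 + ε * Real.exp (ψ z)) ^ 2 : ℝ) : ℂ) • mv σ ψ z := by
  ext j k
  have two : (2 : WithTop ℕ∞) ≤ ∞ := WithTop.coe_le_coe.2 le_top
  have h1 : ContDiffAt ℝ 2 (fun y => ‖σ y‖ ^ 2) z := ((cd_real h).norm_sq ℂ).of_le two
  have h2 : ContDiffAt ℝ 2 ψ z := hψ.of_le two
  have h3 : ContDiffAt ℝ 2 (fun y => Real.exp (ψ y)) z := h2.exp
  have d1 := differentiableAt_ofReal (h1.differentiableAt two_ne_zero)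
  have d2 := h2.differentiableAt two_ne_zero
  have d3 := differentiableAt_ofReal (h3.differentiableAt two_ne_zero)
  have dσ := h.differentiableAt (by simp)
  have e : (fun y => ((‖σ y‖ ^ 2 + ε * Real.exp (ψ y) : ℝ) : ℂ)) =
      fun y => ((‖σ y‖ ^ 2 : ℝ) : ℂ) + (ε : ℂ) * ((Real.exp (ψ y) : ℝ) : ℂ) := funext fun y => by
    rw [Complex.ofReal_add, Complex.ofReal_mul]
  have p := Complex.ofReal_ne_zero.2 (den_pos (σ z) (ψ z) hε).ne'
  have q : ((‖σ z‖ ^ 2 : ℝ) : ℂ) = σ z * starRingEnd ℂ (σ z) := congrFun (nsq_eq σ) z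
  rw [cHess_log ((cd_den h hψ).of_le two) (den_pos _ _ hε), cHess_add h1 (contDiffAt_const.mul h3),
    cHess_const_mul ε h3, e, dz_add j d1 (d3.const_mul _), dzb_add k d1 (d3.const_mul _),
    dz_const_mul j _ d3, dzb_const_mul k _ d3, dz_nsq dσ, dzb_nsq dσ,
    dz_comp_real j (Real.hasDerivAt_exp _) d2, dzb_comp_real k (Real.hasDerivAt_exp _) d2]
  simp only [Matrix.add_apply, Matrix.smul_apply, smul_eq_mul, mv, cv, Matrix.of_apply, map_sub,
    map_mul]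
  rw [hess_nsq h, cHess_comp (ψ := Real.exp) (ψ₁ := Real.exp)
    (.of_forall Real.hasDerivAt_exp) (Real.hasDerivAt_exp _) h2, dzb_real k d2,
    Complex.ofReal_div, Complex.ofReal_div, Complex.ofReal_pow]
  generalize hG : ((‖σ z‖ ^ 2 + ε * Real.exp (ψ z) : ℝ) : ℂ) = G at p ⊢
  rw [Complex.ofReal_add, q] at hG
  rw [Complex.ofReal_mul] at hG ⊢
  field_simp
  rw [← hG]
  ring

theorem Lw_comb (a b : ℂ) (A B : Matrix (Fin m) (Fin m) ℂ) :
    Lw (a • A + b • B) = a • Lw A + b • Lw B := by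
  simp only [Lw, Finset.smul_sum, ← Finset.sum_add_distrib, smul_smul, ← add_smul,
    Matrix.add_apply, Matrix.smul_apply, smul_eq_mul]
  refine Finset.sum_congr rfl fun j _ => Finset.sum_congr rfl fun k _ => ?_
  rw [mul_add, mul_left_comm, mul_left_comm Complex.I b]

theorem mc_mv (h : ContDiffAt ℂ ω σ z) (hψ : ContDiffAt ℝ ∞ ψ z) : MC ∞ (mv σ ψ) z := by
  have k : ∀ j, ContDiffAt ℝ ∞ (fun y => cv σ ψ y j) z := fun j =>
    (INT.smooth_dz (cd_real h)).sub ((cd_real h).mul (INT.smooth_dz (contDiffAt_ofReal hψ)))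
  exact fun j l => (k j).mul (contDiffAt_conj (k l))

theorem mc_hess (hψ : ContDiffAt ℝ ∞ ψ z) : MC ∞ (cHess ψ) z := fun _ _ =>
  INT.smooth_dz (INT.smooth_dzb (contDiffAt_ofReal hψ))

end pt

section met
variable {m : ℕ} {X : Type} [TopologicalSpace X] [ChartedSpace (Cm m) X] {L : Bd X}
  {s : L.ι → X → ℂ} {ψ : L.ι → X → ℝ} {ε : ℝ}

/-- the regularised metric -/
def reg (s : L.ι → X → ℂ) (ψ : L.ι → X → ℝ) (ε : ℝ) (a : L.ι) (x : X) : ℝ :=
  Real.log (‖s a x‖ ^ 2 + ε * Real.exp (ψ a x))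

theorem reg_met (hL : IsLB m L) (hs : IsSec m L s) (hψ : IsMet m L ψ) (hε : 0 < ε) :
    IsMet m L (reg s ψ ε) where
  smooth a e x he hx :=
    (cd_den (hs.holo a e x he hx) (hψ.smooth a e x he hx)).log (den_pos _ _ hε).ne'
  change a b x ha hb := by
    have h : 0 < ‖L.g a b x‖ ^ 2 := pow_pos (norm_pos_iff.2 (hL.ne_zero a b x ha hb)) 2
    rw [reg, reg, hs.change a b x ha hb, hψ.change a b x ha hb, Real.exp_add, Real.exp_log h,
      ← Real.log_mul (den_pos _ _ hε).ne' h.ne', norm_mul]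
    exact congrArg Real.log (by ring)

end met

section alg
open AlgH
variable {p : ℕ}

theorem dft (z : Cm 1) (t : Cm p) : DifferentiableAt ℝ (fun y : Cm p => ap y z) t :=
  DifferentiableAt.comp (g := fun q : Cm p × Cm 1 => ap q.1 q.2) (f := fun y => (y, z)) t
    ((PuF.cd_ap (𝕜 := ℝ) (n := 1)).differentiable one_ne_zero (t, z))
    (differentiableAt_id.prodMk (differentiableAt_const z))

theorem mul_mt {a b c : ℕ} (J : Matrix (Fin c) (Fin a) ℂ) (β : Fin b → Fin a) (r k) :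
    J r (β k) = (J * AlgH.mt β) r k := by
  simp [AlgH.mt, Matrix.mul_apply, Matrix.one_apply]

theorem j1 (z : Cm 1) (t : Cm p) (k) :
    (fun r => jc (fun y : Cm p => ap y z) t r (b1 p 1 k)) = Pi.single k 1 := by
  have h := k1b'.jc_comp (dft z t) (df1 (ap t z))
  simp only [AlgH.p1_ap, k1b'.jc_id, jc1] at h
  funext r
  refine (mul_mt _ _ r k).trans ?_
  rw [← h, Matrix.one_apply, Pi.single_apply]

theorem j2 (z : Cm 1) (t : Cm p) (k) :
    (fun r => jc (fun y : Cm p => ap y z) t r (b2 p 1 k)) = 0 := by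
  have h := k1b'.jc_comp (dft z t) (df2 (ap t z))
  simp only [AlgH.p2_ap, jc2] at h
  funext r
  refine (mul_mt _ _ r k).trans ?_
  rw [← h]
  exact Ka.dr_const _

theorem eps_sq {k : ℕ} (l : Fin k) : eps l * eps l = 0 := by rw [← epsV_single, epsV_sq]

theorem fc_w (t : Cm p) (u : Fo (p + 1)) :
    fc p 1 *ᵥ ((eps (b2 p 1 (hl 0)) * eps (b2 p 1 (ah 0))) *ᵥ u) =
      lr (jc (fun y : Cm p => ap y 0) t) *ᵥ u := by
  induction u using F1aH.fk_ind with
  | h0 =>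
    have e : (eps (hl 0) * eps (ah 0)) *ᵥ (ev ∅ : Fo 1) = ev Finset.univ := by
      rw [← Matrix.mulVec_mulVec, eps_ev_min (by simp), eps_ev_min (by decide)]
      exact congrArg ev (by decide)
    have h := fc_lr (e1 t (0 : Cm 1)) (e2 t 0) (AlgH.mt (b2 p 1)) ((eps (hl 0) * eps (ah 0)) *ᵥ ev ∅)
    rw [Matrix.mulVec_mulVec _ (lr _), ← Matrix.mul_assoc, f1a.lr_eps, Matrix.mul_assoc, f1a.lr_eps,
      mt_col, mt_col, ← Matrix.mul_assoc, ← Matrix.mulVec_mulVec _ _ (lr _), f1a.lr_ev, e2, e] at h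
    rw [h, f1a.lr_ev]
    simp [ev, sn]
  | he l u h =>
    rw [Matrix.mulVec_mulVec u (lr _), f1a.lr_eps, ← Matrix.mulVec_mulVec u _ (lr _), ← h,
      Matrix.mulVec_mulVec u _ (eps l)]
    rcases cover l with ⟨k, rfl⟩ | ⟨k, rfl⟩
    · have h1 := fc_eps (p := p) (d := 1) (Pi.single k 1)
      rw [Matrix.mulVec_single_one, show (AlgH.mt (b1 p 1)).col k = fun r => AlgH.mt (b1 p 1) r k from rfl,
        mt_col] at h1
      rw [j1, Matrix.mulVec_mulVec _ (epsV _), ← h1, Matrix.mul_assoc, eps_eps _ (b1 p 1 k),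
        Matrix.mul_neg, ← Matrix.mul_assoc, eps_eps _ (b1 p 1 k), Matrix.neg_mul, neg_neg]
      simp only [Matrix.mulVec_mulVec, Matrix.mul_assoc]
    · have h1 : eps (b2 p 1 (hl 0)) * eps (b2 p 1 (ah 0)) * eps (b2 p 1 k) = 0 := by
        induction k using idx with
        | h1 j =>
          rw [Subsingleton.elim j 0, eps_eps, Matrix.neg_mul, Matrix.mul_assoc, eps_sq,
            Matrix.mul_zero, neg_zero]
        | h2 j => rw [Subsingleton.elim j 0, Matrix.mul_assoc, eps_sq, Matrix.mul_zero]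
      rw [j2, h1]
      simp [epsV]
  | ha u v h h' => simp only [Matrix.mulVec_add, h, h']
  | hs c u h => simp only [Matrix.mulVec_smul, h]

/-- the last coordinate -/
def lst (p : ℕ) (w : Cm (p + 1)) : ℂ := p2 p 1 w 0

theorem lst_ap (t : Cm p) (z : Cm 1) : lst p (ap t z) = z 0 := congrFun (AlgH.p2_ap t z) 0

theorem lst_cd (w : Cm (p + 1)) : ContDiffAt ℂ ω (lst p) w := contDiffAt_apply ℂ ℂ _ w

theorem Lw_mv (ψ : Cm (p + 1) → ℝ) (t : Cm p) : Lw (mv (lst p) ψ (ap t 0)) =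
    Complex.I • (eps (b2 p 1 (hl 0)) * eps (b2 p 1 (ah 0))) := by
  have h : ∀ j, cv (lst p) ψ (ap t 0) j = if j = Fin.natAdd p 0 then 1 else 0 := fun j => by
    have h1 := congrFun (congrFun (jc2 (p := p) (d := 1) (ap t 0)) (hl j)) (hl 0)
    rw [Kb.jc_hh] at h1
    rw [cv, lst_ap, Pi.zero_apply, zero_mul, sub_zero]
    refine h1.trans ?_
    rw [AlgH.mt, Matrix.submatrix_apply, b2, bs_hl, Matrix.one_apply]
    exact if_congr (Fin.castAdd_injective _ _).eq_iff rfl rfl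
  simp only [Lw, mv, Matrix.of_apply, h, bs_hl, bs_ah]
  rw [Finset.sum_eq_single (Fin.natAdd p 0), Finset.sum_eq_single (Fin.natAdd p 0)] <;>
    simp +contextual

/-- the coefficient of `i dz ∧ dz̄ ∧ u` is the coefficient of the restriction of `u` -/
theorem res_eq (ψ : Cm (p + 1) → ℝ) (t : Cm p) (u : Fo (p + 1)) :
    sn (p + 1) * Bq (Lw (mv (lst p) ψ (ap t 0)) *ᵥ u) (ev ∅) =
      Complex.I * (sn p * Bq (lr (jc (fun y : Cm p => ap y 0) t) *ᵥ u) (ev ∅)) := by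
  rw [← fc_w, dual, f1a.lr_ev, Lw_mv, Matrix.smul_mulVec, G2H.Bq_smul_l, mul_left_comm]

end alg

end Vale.Agent.P280Z.Co.PlH
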