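import Vale.Agent.P280Z.Co.EffB
import Vale.Agent.P280Z.Co.PlA

/-!
# P280Z, row EFF: the curvature of the regularised metrics does not vanish near a zero
-/

open MeasureTheory Metric Filter Set
open scoped Topology ContDiff Matrix ComplexOrder

noncomputable section

namespace Vale.Agent.P280Z.Co.EffH

open Vale.Agent.P272.K Vale.Agent.P301Z.Key.Gb PlH

variable {n : ℕ}

/-- the semipositive part of the curvature -/
def Rm (ε : ℝ) (σ : Cm n → ℂ) (ψ : Cm n → ℝ) (z : Cm n) : Matrix (Fin n) (Fin n) ℂ :=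
  ((ε * Real.exp (ψ z) / (‖σ z‖ ^ 2 + ε * Real.exp (ψ z)) ^ 2 : ℝ) : ℂ) • mv σ ψ z

theorem Rm_psd {ε : ℝ} (hε : 0 < ε) (σ : Cm n → ℂ) (ψ : Cm n → ℝ) (z : Cm n) :
    (Rm ε σ ψ z).PosSemidef :=
  (Matrix.posSemidef_vecMulVec_self_star (cv σ ψ z)).smul (Complex.zero_le_real.2 (by positivity))

theorem wt_mem {ε : ℝ} (hε : 0 < ε) (a : ℂ) (b : ℝ) :
    |ε * Real.exp b / (‖a‖ ^ 2 + ε * Real.exp b)| ≤ 1 := by
  rw [abs_of_nonneg (by positivity), div_le_one (den_pos a b hε)]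
  exact le_add_of_nonneg_left (by positivity)

theorem loc {σ : Cm n → ℂ} {ψ : Cm n → ℝ} {z0 : Cm n} {p : ℝ → Cm n → ℝ} {r : ℝ} (hr : 0 < r)
    (hσ : ∀ z ∈ ball z0 r, ContDiffAt ℂ ω σ z) (hψ : ∀ z ∈ ball z0 r, ContDiffAt ℝ ∞ ψ z)
    (h0 : σ z0 = 0) (h1 : ∀ t, 0 < t → ∃ z ∈ ball z0 t, σ z ≠ 0)
    (hp : ∀ ε, 0 < ε → ContinuousOn (p ε) (ball z0 r))
    (hp0 : ∀ ε, 0 < ε → ∀ z ∈ ball z0 r, 0 ≤ p ε z)
    (hR : ∀ ε, 0 < ε → ∀ z ∈ ball z0 r, ∀ k, (Rm ε σ ψ z k k).re ≤ p ε z)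
    (hl : ∀ K ⊆ ball z0 r, IsCompact K → ∀ δ, 0 < δ → ∀ᶠ ε in 𝓝[>] 0, ∫ z in K, p ε z ≤ δ) :
    False := by
  obtain ⟨s, rfl⟩ : ∃ s, r = 7 * s := ⟨r / 7, by ring⟩
  have hs : 0 < s := by linarith
  have sub : closedBall z0 (4 * s) ⊆ ball z0 (7 * s) := closedBall_subset_ball (by linarith)
  have hK := isCompact_closedBall z0 (4 * s)
  obtain ⟨A, hA⟩ := hK.exists_bound_of_continuousOn (f := fun z k => cHess ψ z k k)
    fun z hz => (continuousAt_pi.2 fun k =>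
      (mc_hess (hψ z (sub hz)) k k).continuousAt).continuousWithinAt
  obtain ⟨B, hB⟩ := hK.exists_bound_of_continuousOn
    (f := fun z => Real.log (‖σ z‖ ^ 2 + 1 * Real.exp (ψ z))) fun z hz =>
      ((cd_den (hσ z (sub hz)) (hψ z (sub hz))).continuousAt.log
        (den_pos _ _ one_pos).ne').continuousWithinAt
  have m0 : z0 ∈ closedBall z0 (4 * s) := mem_closedBall_self (by linarith)
  have A0 : 0 ≤ A := (norm_nonneg _).trans (hA z0 m0)
  have B0 : 0 ≤ B := (norm_nonneg _).trans (hB z0 m0)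
  obtain ⟨z1, hz1, hne⟩ := h1 s hs
  have c1 : ContinuousAt σ z1 := (hσ z1 (ball_subset_ball (by linarith) hz1)).continuousAt
  have c2 : ContinuousAt (fun z => Real.log (‖σ z‖ ^ 2)) z1 :=
    (c1.norm.pow 2).log (pow_ne_zero 2 (norm_ne_zero_iff.2 hne))
  obtain ⟨t1, ht1, hb1⟩ := eventually_nhds_iff_ball.1
    ((c2.eventually (lt_mem_nhds (sub_one_lt _))).and (c1.eventually_ne hne))
  set C := B + (|Real.log (‖σ z1‖ ^ 2)| + 1) with hC
  have v0 := vol_pos z0 hs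
  obtain ⟨M, hM⟩ : ∃ M, volume.real (ball z1 (2 * s)) * (2 * C + A * n * (2 * s) ^ 2) +
      volume.real (ball z0 s) * ((A + 1) * n * s ^ 2) < volume.real (ball z0 s) * M :=
    ((tendsto_id.const_mul_atTop v0).eventually_gt_atTop _).exists
  have j0 : ContinuousAt (fun q : ℝ × Cm n => ‖σ q.2‖ ^ 2 + q.1 * Real.exp (ψ q.2)) (0, z0) :=
    ((((hσ z0 (sub m0)).continuousAt.comp continuousAt_snd).norm.pow 2)).add (continuousAt_fst.mul
      (Real.continuous_exp.continuousAt.comp ((hψ z0 (sub m0)).continuousAt.comp continuousAt_snd)))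
  have j1 := j0.eventually (gt_mem_nhds (a := Real.exp (-M)) (by simp [h0, Real.exp_pos]))
  rw [nhds_prod_eq] at j1
  obtain ⟨pa, ha, pb, hb, hab⟩ := eventually_prod_iff.1 j1
  obtain ⟨t0, ht0, hb0⟩ := eventually_nhds_iff_ball.1 hb
  have ht : 0 < min s (min t0 t1) := lt_min hs (lt_min ht0 ht1)
  obtain ⟨ε, ⟨⟨e1, e2⟩, e3⟩, hε⟩ := ((((hl _ sub hK _ (vol_pos (0 : Cm n) ht)).and
    (ha.filter_mono nhdsWithin_le_nhds)).and
    (nhdsWithin_le_nhds (eventually_le_nhds (zero_lt_one' ℝ)))).and self_mem_nhdsWithin).exists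
  have hε' : 0 < ε := hε
  refine absurd (bound (G := fun z => Real.log (‖σ z‖ ^ 2 + ε * Real.exp (ψ z))) (M := M) hs ht
    (min_le_left _ _) A0 (by positivity) (mem_ball.1 hz1).le
    (fun z hz => (cd_den (hσ z hz) (hψ z hz)).log (den_pos _ _ hε').ne') ((hp ε hε').mono sub)
    (fun z hz => hp0 ε hε' z (sub hz)) e1 (fun z hz k => ?_) (fun z hz => ?_) (fun z hz => ?_)
    fun z hz => ?_) (not_le.2 hM)
  · have a1 : |(cHess ψ z k k).re| ≤ A := (Complex.abs_re_le_norm _).trans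
      ((norm_le_pi_norm (fun k => cHess ψ z k k) k).trans (hA z hz))
    have a2 := mul_le_mul (wt_mem hε' (σ z) (ψ z)) a1 (abs_nonneg _) zero_le_one
    rw [← abs_mul, one_mul, abs_le] at a2
    have a3 := (Complex.le_def.1 ((Rm_psd hε' σ ψ z).diag_nonneg (i := k))).1
    have a4 := hR ε hε' z (sub hz) k
    rw [hess_reg (hσ z (sub hz)) (hψ z (sub hz)) hε', Matrix.add_apply, Complex.add_re,
      Matrix.smul_apply, smul_eq_mul, Complex.re_ofReal_mul]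
    rw [Complex.zero_re] at a3
    exact ⟨a2.1.trans (le_add_of_nonneg_right a3), add_le_add a2.2 a4⟩
  · have a1 := Real.log_le_log (den_pos (σ z) (ψ z) hε') (add_le_add_right
      (mul_le_mul_of_nonneg_right e3 (Real.exp_pos (ψ z)).le) (‖σ z‖ ^ 2))
    have a2 := (le_abs_self _).trans (hB z hz)
    have a3 := abs_nonneg (Real.log (‖σ z1‖ ^ 2))
    linarith
  · obtain ⟨a1, a2⟩ := hb1 z (ball_subset_ball ((min_le_right _ _).trans (min_le_right _ _)) hz)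
    have a3 : Real.log (‖σ z‖ ^ 2) ≤ Real.log (‖σ z‖ ^ 2 + ε * Real.exp (ψ z)) :=
      Real.log_le_log (by positivity) (le_add_of_nonneg_right (by positivity))
    have a4 := neg_abs_le (Real.log (‖σ z1‖ ^ 2))
    linarith
  · exact (Real.log_le_iff_le_exp (den_pos _ _ hε')).2 (hab e2
      (hb0 z (ball_subset_ball ((min_le_right _ _).trans (min_le_left _ _)) hz))).le

end Vale.Agent.P280Z.Co.EffH
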