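import Vale.Agent.P280Z.Co.Defs
import Vale.Agent.P281Z.Mf.Prod

/-!
# P280Z: fibre products
-/

open scoped Manifold ContDiff Topology
open Set Filter Function
open Vale.Agent.P272.K Vale.Agent.P281Z
open Vale.Agent.P277Z (at_chart)

noncomputable section

namespace Vale.Agent.P280Z

namespace Fp

/-- a map with a local section through `z` is a submersion at `z` -/
theorem sbm_of_sec {d l q : ℕ} {V' : Mf d} {M : Mf l} {Y : Mf q} {i : V'.X → M.X} {S : Set M.X}
    (hi : Emb d l i S) {π : M.X → Y.X} (hπ : HolM l q π) (z : V'.X) {s : Y.X → M.X}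
    (hs : HolA q l s (π (i z))) (h0 : s (π (i z)) = i z)
    (h1 : ∀ᶠ y in 𝓝 (π (i z)), s y ∈ S ∧ π (s y) = y) : Sbm d q (fun w => π (i w)) z := by
  classical
  let c : Y.X → V'.X := fun y => if h : ∃ w, i w = s y then h.choose else z
  have hc : ∀ y, s y ∈ S → i (c y) = s y := fun y hy => by
    have h := hi.ex hy
    simp only [c, dif_pos h]
    exact h.choose_spec
  have hz : c (π (i z)) = z := hi.inj ((hc _ h1.self_of_nhds.1).trans h0)
  have hA : HolA q d c (π (i z)) :=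
    hi.lift_at (hs.cng (h1.mono fun y hy => (hc y hy.1).symm))
  have h2 : Sbm q q (fun y => π (i (c y))) (π (i z)) :=
    (sbm_id _).cng (h1.mono fun y hy => by rw [hc y hy.1, hy.2])
  have h3 := Sbm.of_comp (g := fun w => π (i w)) ((hπ.comp hi.hol).at _) hA h2
  rwa [hz] at h3

end Fp

open Fp in
theorem fp : FP := by
  intro n m m' n' V W W' f g hd hf hg
  have hS : SubM (m' + n) n' (P281Z.fp g f ∩ univ) :=
    fp_subM (by omega) hg hf.hol isOpen_univ fun z _ => Or.inr (hf.sbm _)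
  rw [inter_univ] at hS
  have hcl : IsClosed (P281Z.fp g f : Set (W'.prod V).X) :=
    isClosed_eq (hg.cont.comp cont_p1) (hf.hol.cont.comp cont_p2)
  obtain ⟨V', i, hi⟩ := hS.emb hcl.isCompact
  have hm : ∀ z, g (W'.p1 V (i z)) = f (W'.p2 V (i z)) := fun z => hi.mem z
  refine ⟨V', fun z => W'.p1 V (i z), fun z => W'.p2 V (i z), ⟨hd, hf, ⟨hol_p1.comp hi.hol,
    fun z => ?_⟩, hg, hol_p2.comp hi.hol, fun z => (hm z).symm, fun y x h => ?_,
    fun z v h1 h2 => ?_⟩, fun hs z => ?_, fun h1 h2 => hi.kah (h2.prod h1),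
    fun Z a b ha hb h => ?_⟩
  · obtain ⟨σ, s0, s1, s2⟩ := (hf.sbm (W'.p2 V (i z))).sec (hf.hol.at _)
    rw [← hm z] at s0 s1 s2
    refine sbm_of_sec hi hol_p1 z (s := fun y => W'.pair V y (σ (g y)))
      ((holM_id.at _).pair (s1.cmp (hg.at _))) (prod_ext rfl s0) ?_
    exact ((hg.cont.continuousAt).eventually s2).mono fun y hy => ⟨hy.symm, rfl⟩
  · obtain ⟨z, hz⟩ := hi.ex (y := W'.pair V y x) h
    refine ⟨z, ⟨by rw [hz]; rfl, by rw [hz]; rfl⟩, fun z' k => hi.inj ?_⟩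
    rw [hz]
    exact prod_ext k.1 k.2
  · have k : Imm n' (m' + n) (fun z => W'.pair V (W'.p1 V (i z)) (W'.p2 V (i z))) z := hi.imm z
    exact (imm_pair ((hol_p1.comp hi.hol).at z) ((hol_p2.comp hi.hol).at z) (at_chart z)
      (at_chart _) (at_chart _)).1 k v h1 h2
  · obtain ⟨σ, s0, s1, s2⟩ := (hs (W'.p1 V (i z))).sec (hg.at _)
    rw [hm z] at s0 s1 s2
    refine sbm_of_sec hi hol_p2 z (s := fun x => W'.pair V (σ (f x)) x)
      ((s1.cmp (hf.hol.at _)).pair (holM_id.at _)) (prod_ext s0 rfl) ?_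
    exact ((hf.hol.cont.continuousAt).eventually s2).mono fun y hy => ⟨hy, rfl⟩
  · obtain ⟨c, c1, c2⟩ := hi.lift (ha.pair hb) fun z => h z
    exact ⟨c, c1, fun z => ⟨congrArg (W'.p1 V) (c2 z), congrArg (W'.p2 V) (c2 z)⟩⟩

end Vale.Agent.P280Z
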