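import Vale.Agent.P280Z.Co.HoC

/-!
# P280Z, row HO: Hodge theory for the even real de Rham ring
-/

open scoped Manifold ContDiff Topology Matrix ComplexOrder
open Set Filter
open Vale.Agent.P272.K Vale.Agent.P281Z Vale.Agent.P281Z.Hg Vale.Agent.P280Z.Pu

noncomputable section

namespace Vale.Agent.P280Z.Co

namespace HoH

variable {n k j : ℕ} {V : Mf n}

theorem re_mem {y : Om V} (h1 : dO y = 0) (h2 : sgO y = y) : y + cjO y ∈ ZS V := by
  refine ⟨by rw [map_add, ← cj_d, h1, map_zero, add_zero], ?_, by rw [map_add, cj_cj, add_comm]⟩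
  rw [map_add, h2, ← RgH.dgO_sum h2, map_sum, map_sum]
  exact congrArg _ (Finset.sum_congr rfl fun k _ => by rw [cj_dg, sg_of_dg (NeH.dg_dg _ _)])

theorem ex_cj {y : Om V} (h : Ex y) : Ex (cjO y) := by
  obtain ⟨β, rfl⟩ := h
  exact ⟨_, (cj_d β).symm⟩

theorem ex_add {y z : Om V} (h : Ex y) (h' : Ex z) : Ex (y + z) := by
  obtain ⟨β, rfl⟩ := h
  obtain ⟨γ, rfl⟩ := h'
  exact ⟨_, map_add _ _ _⟩

theorem fin_k (hV : V.Kah) (k : ℕ) : FiniteDimensional ℝ (LinearMap.range (prH V k)) := by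
  obtain ⟨w, hw⟩ := id hV
  obtain ⟨-, -, -, -, -, -, hB⟩ := pack hw
  obtain ⟨r, b, hb⟩ := hB (k + k)
  change Fin r → Om V at b
  let T : (Fin r → ℂ) →ₗ[ℂ] Om V := Fintype.linearCombination ℂ b
  have hT : ∀ c, dO (T c) = 0 ∧ dgO (k + k) (T c) = T c := fun c => by
    simp only [T, Fintype.linearCombination_apply, map_sum, map_smul]
    exact ⟨Finset.sum_eq_zero fun i _ => by rw [show dO (b i) = 0 from (hb.cl i).1, smul_zero],
      Finset.sum_congr rfl fun i _ => congrArg _ (hb.cl i).2⟩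
  let φ : (Fin r → ℂ) →ₗ[ℝ] Zc V :=
    { toFun := fun c => mkZ (T c + cjO (T c)) (re_mem (hT c).1 (sg_of_dg (hT c).2))
      map_add' := fun c c' => fm_inj (by
        rw [map_add fm, fm_mkZ, fm_mkZ, fm_mkZ, map_add, map_add, add_add_add_comm])
      map_smul' := fun t c => fm_inj (by
        rw [map_smul fm, fm_mkZ, fm_mkZ, T.map_smul_of_tower, cj_rsmul, smul_add]
        rfl) }
  refine Submodule.finiteDimensional_of_le (S₂ := LinearMap.range (mk.toLinearMap.comp φ)) ?_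
  rintro _ ⟨a, rfl⟩
  obtain ⟨u, hu, e⟩ := RgH.ex_hom (V := V) ((rg.pr_pr V k k a).trans (if_pos rfl))
  obtain ⟨c, hc⟩ := hb.span (fm u) ⟨d_fm u, hu⟩
  have h1 : Ex (fm u - T c) := NeH.nul_ex hV (cx_real V) (k := k + k) (z := fm u - T c)
    ((map_sub (dgO (k + k)) _ _).trans (by rw [hu, (hT c).2])) hc
  have h2 : mk (u + u) = mk (φ c) := mk_eq.2 (by
    have h3 := ex_add h1 (ex_cj h1)
    rwa [map_sub, cj_fm, sub_add_sub_comm, ← map_add] at h3)
  refine ⟨(2 : ℝ)⁻¹ • c, Eq.trans ?_ e⟩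
  rw [map_smul]
  show (2 : ℝ)⁻¹ • mk (φ c) = _
  rw [← h2, map_add]
  module

theorem fin (hV : V.Kah) : Module.Finite ℝ (HH V) := by
  have := fin_k hV
  have h : (⊤ : Submodule ℝ (HH V)) ≤
      (Finset.range (n + 1)).sup fun k => LinearMap.range (prH V k) := fun a _ => by
    rw [← rg.pr_sum V a]
    exact sum_mem fun k hk => Finset.le_sup (f := fun k => LinearMap.range (prH V k)) hk ⟨a, rfl⟩
  have := Submodule.finiteDimensional_of_le h
  exact Module.Finite.equiv Submodule.topEquiv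

theorem pd (hV : V.Kah) (a : HH V) (h : ∀ b, intH V (a * b) = 0) : a = 0 := by
  obtain ⟨u, rfl⟩ := mk_surj a
  have h1 : ∀ y ∈ ZS V, intO (fm u * y) = 0 := fun y hy => by
    have h2 := h (mk (mkZ y hy))
    rw [← map_mul, intH_mk, map_mul, fm_mkZ] at h2
    rw [intO_real (by rw [map_mul, cj_fm, hy.2.2]), h2, Complex.ofReal_zero]
  have h2 : ∀ y, dO y = 0 → sgO y = y → intO (fm u * y) = 0 := fun y hy hs => by
    have a := h1 _ (re_mem hy hs)
    have b := h1 _ (re_mem (y := Complex.I • y) (by rw [map_smul, hy, smul_zero])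
      (by rw [map_smul, hs]))
    rw [mul_add, map_add] at a
    rw [cj_smul, mul_add, map_add, mul_smul_comm, mul_smul_comm, map_smul, map_smul, smul_eq_mul,
      smul_eq_mul, Complex.star_def, Complex.conj_I] at b
    linear_combination 2⁻¹ * a - 2⁻¹ * Complex.I * b + 2⁻¹ *
      (intO (fm u * y) - intO (fm u * cjO y)) * Complex.I_mul_I
  refine mk_eq_zero.2 (ne V hV _ (d_fm u) fun v hv => ?_)
  have a := h2 (v + sgO v) (by rw [map_add, d_sg, hv, map_zero, neg_zero, add_zero])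
    (by rw [map_add, sg_sg, add_comm])
  have b := intO_sg (fm u * v)
  rw [map_mul, sg_fm] at b
  rw [mul_add, map_add, b] at a
  linear_combination 2⁻¹ * a

variable {u v : Zc V} {K : KP (cx V)}

theorem pk_nul (P : Pkg (fm u) K) (h : mk u ^ j * mk v = 0) : (K.L ^ j) (fm v) ∈ (cx V).Nul := by
  rw [← map_pow, ← map_mul, mk_eq_zero, map_mul, map_pow] at h
  rw [P.L]
  exact nul_of_ex h

theorem pk_dg_pow (P : Pkg (fm u) K) (j : ℕ) : ct.Dg V j (mk u ^ j) := by
  induction j with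
  | zero => exact pow_zero (mk u) ▸ rg.dg_one V
  | succ j ih => exact pow_succ (mk u) j ▸ rg.dg_mul V j 1 _ _ ih (pr_mk 1 P.dg.symm)

theorem pk_inj (P : Pkg (fm u) K) (e : k + k + j = n) (a : HH V) (ha : prH V k a = a)
    (h : mk u ^ j * a = 0) : a = 0 := by
  obtain ⟨v, hv, rfl⟩ := RgH.ex_hom ha
  exact mk_eq_zero.2 (NeH.nul_ex P.kah (cx_real V) hv
    (hl_abs P.ok P.hb P.hh ⟨d_fm v, hv⟩ e (pk_nul P h)))

theorem pk_surj (P : Pkg (fm u) K) (e : k + k + j = n) (b : HH V) (hb : prH V (k + j) b = b) :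
    ∃ a, prH V k a = a ∧ mk u ^ j * a = b := by
  have := fin P.kah
  let A : ℕ → Submodule ℝ (HH V) := fun i => LinearMap.eqLocus (prH V i) LinearMap.id
  let f : A k →ₗ[ℝ] A (k + j) := (LinearMap.mulLeft ℝ (mk u ^ j)).restrict fun a ha =>
    add_comm j k ▸ rg.dg_mul V j k _ _ (pk_dg_pow P j) ha
  have hf : Function.Injective f := (injective_iff_map_eq_zero f).2 fun a h =>
    Subtype.ext (pk_inj P e a a.2 (congrArg Subtype.val h))
  let g : A (k + j) →ₗ[ℝ] Module.Dual ℝ (A k) :=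
    ((LinearMap.mul ℝ (HH V)).compr₂ (intH V)).domRestrict₁₂ _ _
  have hg : Function.Injective g := (injective_iff_map_eq_zero g).2 fun b h =>
    Subtype.ext (pd P.kah _ fun c => by
      rw [← show ∑ k ∈ Finset.range (n + 1), prH V k c = c from rg.pr_sum V c, Finset.mul_sum,
        map_sum]
      refine Finset.sum_eq_zero fun i _ => ?_
      have h1 : prH V i (prH V i c) = prH V i c := (rg.pr_pr V i i c).trans (if_pos rfl)
      rcases eq_or_ne i k with rfl | hi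
      · exact LinearMap.congr_fun h ⟨_, h1⟩
      · have h2 : prH V (k + j + i) (b.1 * prH V i c) = b.1 * prH V i c :=
          rg.dg_mul V _ _ _ _ b.2 h1
        refine (rg.int_pr V _).symm.trans ?_
        show intH V (prH V n (b.1 * prH V i c)) = 0
        rw [← h2, show ∀ x, prH V n (prH V (k + j + i) x) = 0 from fun x =>
          (rg.pr_pr V _ _ x).trans (if_neg (by omega)), map_zero])
  obtain ⟨a, ha⟩ := (LinearMap.injective_iff_surjective_of_finrank_eq_finrank (le_antisymm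
    (LinearMap.finrank_le_finrank_of_injective hf)
    ((LinearMap.finrank_le_finrank_of_injective hg).trans_eq Subspace.dual_finrank_eq))).1 hf
      ⟨b, hb⟩
  exact ⟨a, a.2, congrArg Subtype.val ha⟩

theorem pk_hr (P : Pkg (fm u) K) (e : k + k + j = n) (hv : dgO (k + k) (fm v) = fm v)
    (h : mk u ^ (j + 1) * mk v = 0) (h0 : mk v ≠ 0)
    (hr : ∃ y, K.Rep (fm v) y ∧ (∀ s, (cx V).dg (k + k) (y s) = y s) ∧ ∀ s, K.pr k (y s) = y s) :
    0 < (-1) ^ k * intH V (mk v * mk v * mk u ^ j) := by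
  obtain ⟨y, h1, h2, h3⟩ := hr
  have h4 := mul_pos (cc_pos n) (hr_abs P.ok P.hb P.hh h1 h2 h3 e (pk_nul P h) fun hn =>
    h0 (mk_eq_zero.2 (NeH.nul_ex P.kah (cx_real V) hv hn)))
  have h5 := NeH.intO_hom hv (fm u ^ j * fm v)
  have h6 : (cx V).Q (fm u ^ j * fm v : Om V) (fm v) = _ :=
    (congrArg (fun t => (cx V).Q t (fm v)) (P.L j (fm v))).symm.trans (Q_pow P.ok.alg j _ _)
  rw [show (cx V).cj (fm v) = fm v from cj_fm v, P.c, mul_assoc,
    inv_mul_cancel_left₀ (f2bT.cc_ne n)] at h4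
  rw [h6, sn_two] at h5
  have e1 : (-1 : ℂ) ^ n = (-1) ^ k * (-1) ^ k * (-1) ^ j := by rw [← pow_add, ← pow_add, e]
  have h7 : 0 < (((-1) ^ k : ℝ) : ℂ) * intO (fm v * (fm u ^ j * fm v)) := by
    rw [h5]
    refine h4.trans_eq ?_
    rw [e1]
    push_cast
    ring
  rw [mul_assoc, mul_comm (mk v) (mk u ^ j), ← map_pow, ← map_mul, ← map_mul, intH_mk, map_mul fm,
    map_mul fm, map_pow, ← Complex.re_ofReal_mul]
  exact (Complex.pos_iff.1 h7).1

end HoH

open HoH in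
/-- **row HO** -/
theorem ho : ct.Ho where
  fin _ h := fin h
  pd _ h := pd h
  hl := by
    rintro n V _ ⟨u, rfl, hu⟩ k j e
    obtain ⟨K, P⟩ := pkg hu
    exact ⟨pk_inj P e, pk_surj P e⟩
  hr := by
    rintro n V _ ⟨u, rfl, hu⟩ k j e a ha hd h h0
    obtain ⟨K, P⟩ := pkg hu
    obtain ⟨v, rfl, hv⟩ := ty_rep ha
    have e1 : mk v = mk (RgH.dgZ k v) := Eq.trans (Eq.symm hd) (RgH.pr_mk' k v)
    have e2 : dgO (k + k) (fm (RgH.dgZ k v)) = fm (RgH.dgZ k v) := NeH.dg_dg _ _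
    rw [e1] at h h0 ⊢
    exact pk_hr P e e2 h h0 (rep_pure P.ok P.ha P.hb P.hh ⟨d_fm _, e2⟩ ((P.pr k _).trans (hv k)))
  one := by
    rintro n V _ ⟨u, rfl, hu⟩ k j e a hd h h1 h0
    obtain ⟨K, P⟩ := pkg hu
    obtain ⟨v, hv, rfl⟩ := RgH.ex_hom (V := V) hd
    refine pk_hr P e hv h h0 (rep_one P.ok P.hb P.hh ⟨d_fm v, hv⟩ (cj_fm v) (pk_nul P h)
      fun (y : Om V) hy hc hn => ?_)
    have hy' : y ∈ ZS V := ⟨hy.1, sg_of_dg hy.2, hc⟩
    have h2 : dgO ((j + 1) + (j + 1) + (k + k)) (fm u ^ (j + 1) * y) = fm u ^ (j + 1) * y := by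
      refine dg_mul_O ?_ hy.2
      induction j + 1 with
      | zero => exact pow_zero (fm u) ▸ RgH.dgO_one
      | succ i ih =>
        rw [pow_succ, add_add_add_comm]
        exact dg_mul_O ih P.dg
    obtain ⟨c, hc'⟩ := h1 (mk (mkZ y hy')) (pr_mk k (Eq.symm hy.2)) (by
      show mk u ^ (j + 1) * mk (mkZ y hy') = 0
      rw [← map_pow, ← map_mul, mk_eq_zero, map_mul, map_pow]
      exact NeH.nul_ex P.kah (cx_real V) h2 (P.L (j + 1) y ▸ hn))
    exact ⟨c, nul_of_ex (mk_eq.1 (hc'.trans (map_smul mk c v).symm))⟩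

/-- the form asked for by the skeleton -/
theorem ho_of (_ : NE) : ct.Ho := ho

end Vale.Agent.P280Z.Co
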