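import Vale.Agent.P280Z.Co.Ln0

/-!
# P280Z, row LN1: the first power sum is the first Chern class of the determinant
-/

open scoped Manifold ContDiff Topology Matrix
open Set Filter
open Vale.Agent.P272.K Vale.Agent.P272.K.C2 Vale.Agent.P299.IX Vale.Agent.P299.IX.Fock
  Vale.Agent.P281Z Vale.Agent.P281Z.Hg Vale.Agent.P281Z.Hg.G1H Vale.Agent.P281Z.Hg.G2H
  Vale.Agent.P285.H281.FD
open Vale.Agent.P231.ChW (ch)

noncomputable section

namespace Vale.Agent.P280Z.Co

namespace Ln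

variable {n N r : ℕ} {V : Mf n} {e e' : Chart n V.X} {x : V.X}

theorem val_sum {ι : Type} (s : Finset ι) (u : ι → Om V) (z : Cm n) :
    val (∑ i ∈ s, u i) e z = ∑ i ∈ s, val (u i) e z := vl_sum (d := n) (M := V.X) s u e z

theorem val_d_fn {a : V.X → ℂ} {u : Om V} (hu : IsFn a u) (h : At e x)
    (ha : DifferentiableAt ℝ (fun z => a (e.symm z)) (e x)) :
    val (dO u) e (e x) = f1 fun c => dr c (fun z => a (e.symm z)) (e x) := by
  rw [val_d _ h, (k1a f1a f1b).congr (v := fun z => a (e.symm z) • ev ∅)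
    (ev_at h (.of_forall fun y hy => by
      show val u e (e y) = a (e.symm (e y)) • ev ∅
      rw [hu e y hy, e.left_inv hy.2])), dT_fn ha]

/-- the value of the first Chern character form -/
theorem val_ch {p : V.X → Matrix (Fin N) (Fin N) ℂ} {P : Matrix (Fin N) (Fin N) (Om V)}
    (hP : ∀ i j, IsFn (fun x => p x i j) (P i j)) (h : At e x)
    (hp : MD (fun z => p (e.symm z)) (e x)) :
    val (ch 1 P) e (e x) = f2 fun c c' => (p x * Dm c (fun z => p (e.symm z)) (e x) *
      Dm c' (fun z => p (e.symm z)) (e x)).trace := by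
  have h1 : ch 1 P = ∑ i, ∑ j, P i j * ∑ k, dO (P j k) * dO (P k i) := by
    rw [ch, pow_one]
    rfl
  have h2 : (fun c c' => (p x * Dm c (fun z => p (e.symm z)) (e x) *
      Dm c' (fun z => p (e.symm z)) (e x)).trace) = ∑ i, ∑ j, p x i j • ∑ k, fun c c' =>
        dr c (fun z => p (e.symm z) j k) (e x) * dr c' (fun z => p (e.symm z) k i) (e x) := by
    funext c c'
    rw [Matrix.mul_assoc]
    simp only [Matrix.trace, Matrix.diag_apply, Matrix.mul_apply, Finset.sum_apply, Pi.smul_apply,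
      smul_eq_mul, Dm, Matrix.of_apply]
  rw [h1, h2, val_sum, map_sum]
  refine Finset.sum_congr rfl fun i _ => ?_
  rw [val_sum, map_sum]
  refine Finset.sum_congr rfl fun j _ => ?_
  rw [val_mul _ _ h, hP i j e x h, f1a.wg_smul, f1a.wg_ev, Matrix.smul_mulVec, Matrix.one_mulVec,
    map_smul, val_sum, map_sum]
  congr 1
  refine Finset.sum_congr rfl fun k _ => ?_
  rw [val_mul _ _ h, val_d_fn (hP j k) h (hp j k), val_d_fn (hP k i) h (hp k i), wg_f1]

theorem sm_congr {α β : Type} {m m' : V.X → Matrix α β ℂ} (h : SmAt n m x) (k : m' =ᶠ[𝓝 x] m) :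
    SmAt n m' x := fun e he i j =>
  (h e he i j).congr_of_eventuallyEq ((ev_src he k).mono fun _ hz => congrFun (congrFun hz i) j)

/-- local factorisations of an idempotent matrix, with a metric on the determinant -/
structure Dat (V : Mf n) (ι : Type) (U : ι → Set V.X) (p : V.X → Matrix (Fin N) (Fin N) ℂ)
    (A : ι → V.X → Matrix (Fin N) (Fin r) ℂ) (B : ι → V.X → Matrix (Fin r) (Fin N) ℂ)
    (ψ : ι → V.X → ℝ) (g : ι → ι → V.X → ℂ) : Prop where
  opn : ∀ i, IsOpen (U i)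
  cov : ∀ x, ∃ i, x ∈ U i
  sA : ∀ i x, x ∈ U i → SmAt n (A i) x
  sB : ∀ i x, x ∈ U i → SmAt n (B i) x
  sψ : ∀ i (e : Chart n V.X) x, At e x → x ∈ U i → ContDiffAt ℝ ∞ (fun z => ψ i (e.symm z)) (e x)
  sg : ∀ i j (e : Chart n V.X) x, At e x → x ∈ U i → x ∈ U j →
    DifferentiableAt ℂ (fun z => g i j (e.symm z)) (e x)
  ba : ∀ i x, x ∈ U i → B i x * A i x = 1
  ab : ∀ i x, x ∈ U i → p x = A i x * B i x
  det : ∀ i j x, x ∈ U i → x ∈ U j → (B i x * A j x).det = g i j x
  chg : ∀ i j x, x ∈ U i → x ∈ U j → ψ i x = ψ j x + Real.log (‖g i j x‖ ^ 2)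

namespace Dat

variable {ι : Type} {U : ι → Set V.X} {p : V.X → Matrix (Fin N) (Fin N) ℂ}
  {A : ι → V.X → Matrix (Fin N) (Fin r) ℂ} {B : ι → V.X → Matrix (Fin r) (Fin N) ℂ}
  {ψ : ι → V.X → ℝ} {g : ι → ι → V.X → ℂ}

variable (A B ψ) in
/-- the local one-forms -/
def co (i : ι) (e : Chart n V.X) (z : Cm n) : Fin (n + n) → ℂ :=
  cf1 (fun z => A i (e.symm z)) (fun z => B i (e.symm z)) (fun z => ψ i (e.symm z)) z

theorem co_eq (D : Dat V ι U p A B ψ g) {i j : ι} (h : At e x) (hi : x ∈ U i) (hj : x ∈ U j) :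
    co A B ψ j e (e x) = co A B ψ i e (e x) :=
  frame (g := fun z => g i j (e.symm z)) (D.sA i x hi e h) (D.sB i x hi e h) (D.sA j x hj e h)
    (D.sψ j e x h hj) (D.sg i j e x h hi hj)
    (by rw [e.left_inv h.2]; exact D.ba i x hi)
    (ev_src h (P := fun y => B j y * A j y = 1 ∧ A i y * B i y = A j y * B j y ∧
        (B i y * A j y).det = g i j y ∧ ψ i y = ψ j y + Real.log (‖g i j y‖ ^ 2)) (by
      filter_upwards [(D.opn i).mem_nhds hi, (D.opn j).mem_nhds hj] with y a b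
      exact ⟨D.ba j y b, (D.ab i y a).symm.trans (D.ab j y b), D.det i j y a b, D.chg i j y a b⟩))

theorem co_ch (D : Dat V ι U p A B ψ g) {i : ι} (h : At e x) (h' : At e' x) (hi : x ∈ U i) :
    co A B ψ i e (e x) = jt e e' x *ᵥ co A B ψ i e' (e' x) := by
  have h1 := chart (A := fun z => A i (e'.symm z)) (B := fun z => B i (e'.symm z))
    (ψ := fun z => ψ i (e'.symm z)) (τ := fun z => e' (e.symm z)) (z := e x)
    ((INT.transition_contDiffAt h h').differentiableAt (by simp))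
    (by rw [e.left_inv h.2]; exact D.sA i x hi e' h')
    (by rw [e.left_inv h.2]; exact D.sψ i e' x h' hi)
  rw [e.left_inv h.2] at h1
  have h2 := ev_src h (e'.open_source.mem_nhds h'.2)
  refine (cf1_congr (h2.mono fun z hz => ?_) ?_ (h2.mono fun z hz => ?_)).trans h1
  · exact congrArg (A i) (e'.left_inv hz).symm
  · exact congrArg (B i) (e'.left_inv h2.self_of_nhds).symm
  · exact congrArg (ψ i) (e'.left_inv hz).symm

/-- the local one-forms glue -/
theorem glue (D : Dat V ι U p A B ψ g) : ∃ v : Om V, ∀ i e x, At e x → x ∈ U i →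
    val v e =ᶠ[𝓝 (e x)] fun z => f1 (co A B ψ i e z) := by
  choose ix hix using D.cov
  have h1 : ∀ i e x, At e x → x ∈ U i → (fun z => (f1 (co A B ψ (ix (e.symm z)) e z) : Fo n))
      =ᶠ[𝓝 (e x)] fun z => f1 (co A B ψ i e z) := fun i e x h hi =>
    ev_at h (P := fun z => (f1 (co A B ψ (ix (e.symm z)) e z) : Fo n) = f1 (co A B ψ i e z)) (by
      filter_upwards [(D.opn i).mem_nhds hi] with y a hy
      rw [e.left_inv hy.2, D.co_eq hy a (hix y)])
  obtain ⟨v, hv⟩ := (Pu.gg1 n V.X).mkf (fun e z => f1 (co A B ψ (ix (e.symm z)) e z))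
    (fun e x h => (f1_smooth (cf1_smooth (D.sA _ x (hix x) e h) (D.sB _ x (hix x) e h)
      (D.sψ _ e x h (hix x)))).congr_of_eventuallyEq (h1 _ e x h (hix x)))
    fun e e' x h h' => by
      rw [e.left_inv h.2, e'.left_inv h'.2, lam_f1, D.co_ch h h' (hix x)]
  exact ⟨v, fun i e x h hi => (hv e x h).trans (h1 i e x h hi)⟩

/-- the transgression -/
theorem exact (D : Dat V ι U p A B ψ g) {P : Matrix (Fin N) (Fin N) (Om V)}
    (hP : ∀ i j, IsFn (fun x => p x i j) (P i j)) : ∃ v : Om V, ∀ i e x, At e x → x ∈ U i →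
      val (dO v) e (e x) = val (ch 1 P) e (e x) +
        Complex.I • (Lw (cHess (fun z => ψ i (e.symm z)) (e x)) *ᵥ ev ∅) := by
  obtain ⟨v, hv⟩ := D.glue
  refine ⟨v, fun i e x h hi => ?_⟩
  have hA : MC ∞ (fun z => A i (e.symm z)) (e x) := D.sA i x hi e h
  have hB : MC ∞ (fun z => B i (e.symm z)) (e x) := D.sB i x hi e h
  have hU : ∀ᶠ z in 𝓝 (e x), e.symm z ∈ U i := ev_src h ((D.opn i).mem_nhds hi)
  have h1 : (fun z => p (e.symm z)) =ᶠ[𝓝 (e x)] fun z => A i (e.symm z) * B i (e.symm z) :=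
    hU.mono fun z hz => D.ab i _ hz
  have h2 := curv hA hB (D.sψ i e x h hi) (hU.mono fun z hz => D.ba i _ hz) h1
  rw [e.left_inv h.2] at h2
  rw [val_d _ h, (k1a f1a f1b).congr (hv i e x h hi), val_ch hP h fun j k =>
    (md (hA.mul hB) j k).congr_of_eventuallyEq (h1.mono fun _ hz => congrFun (congrFun hz j) k)]
  exact h2

end Dat

theorem exists_B (E : VB V.X) (hE : IsVB n E) (b : ∀ x, (Fin N → ℂ) →ₗ[ℂ] E.A x) :
    ∃ B : E.ι → V.X → Matrix (Fin E.r) (Fin N) ℂ, ∀ i x, x ∈ E.U i →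
      (E.b i x).comp (Matrix.toLin' (B i x)) = b x := by
  have h : ∀ i x, ∃ m : Matrix (Fin E.r) (Fin N) ℂ, x ∈ E.U i →
      (E.b i x).comp (Matrix.toLin' m) = b x := fun i x => by
    by_cases hx : x ∈ E.U i
    · refine ⟨LinearMap.toMatrix' ((LinearEquiv.ofBijective _ (hE.bij i x hx)).symm.toLinearMap.comp
        (b x)), fun _ => ?_⟩
      rw [Matrix.toLin'_toMatrix']
      exact LinearMap.ext fun v => (LinearEquiv.ofBijective _ (hE.bij i x hx)).apply_symm_apply _
    · exact ⟨0, fun h => absurd h hx⟩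
  choose B hB using h
  exact ⟨B, hB⟩

end Ln

open Ln in
/-- row LN1 -/
theorem ln1_of (v : VBL) (c : C1E) (r : REP) (p : PSE) : LN1 := by
  intro n V E L a hE hL hU hdet
  obtain ⟨N, P, hR⟩ := r.2 V E hE
  obtain ⟨u₀, h0, hx0⟩ := p V E N P 1 hE hR
  obtain ⟨⟨ψ, hψ⟩, h1⟩ := c V L hL
  obtain ⟨u₁, hc, h1⟩ := h1 ψ hψ
  obtain ⟨α, β, hα, hβ, hβα, hP⟩ := hR
  obtain ⟨B, hB⟩ := exists_B (N := N) E hE β
  let A : E.ι → V.X → Matrix (Fin N) (Fin E.r) ℂ := fun i x =>
    LinearMap.toMatrix' ((show E.A x →ₗ[ℂ] (Fin N → ℂ) from α x).comp (E.b i x))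
  have hA : ∀ i x w, A i x *ᵥ w = α x (E.b i x w) := fun i x w => LinearMap.toMatrix'_mulVec _ _
  have hB' : ∀ i x, x ∈ E.U i → ∀ w, E.b i x (B i x *ᵥ w) = β x w := fun i x hx w =>
    LinearMap.congr_fun (hB i x hx) w
  have hBA : ∀ i j x, x ∈ E.U i →
      E.b j x = (E.b i x).comp (Matrix.toLin' (B i x * A j x)) := fun i j x hi =>
    LinearMap.ext fun w => by
      rw [LinearMap.comp_apply, Matrix.toLin'_apply, ← Matrix.mulVec_mulVec, hB' i x hi, hA, hβα]
  have D : Dat V E.ι E.U (fun x => Matrix.of fun i j => (α x (β x (Pi.single j 1)) : Fin N → ℂ) i)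
      A B (fun i => ψ (a i)) fun i j => L.g (a i) (a j) :=
    { opn := hE.isOpen
      cov := hE.cover
      sA := fun i x hx => by
        obtain ⟨m, hm, k⟩ := v.all hE (v.triv V N) hα i () x hx (mem_univ x)
        refine sm_congr hm (k.mono fun y hy => ?_)
        exact (congrArg LinearMap.toMatrix' hy).trans (LinearMap.toMatrix'_toLin' _)
      sB := fun i x hx => by
        obtain ⟨m, hm, k⟩ := v.all (v.triv V N) hE hβ () i x (mem_univ x) hx
        refine sm_congr hm ?_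
        filter_upwards [k, (hE.isOpen i).mem_nhds hx] with y hy hi
        refine Matrix.toLin'.injective (LinearMap.ext fun w => (hE.bij i y hi).1 ?_)
        exact (hB' i y hi w).trans (LinearMap.congr_fun hy w)
      sψ := fun i e x h hx => hψ.smooth _ e x h (hU i hx)
      sg := fun i j e x h hi hj =>
        (hL.holo _ _ e x h (hU i hi) (hU j hj)).differentiableAt (by simp)
      ba := fun i x hx => by
        refine Matrix.toLin'.injective (LinearMap.ext fun w => (hE.bij i x hx).1 ?_)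
        rw [Matrix.toLin'_one]
        exact (LinearMap.congr_fun (hBA i i x hx) w).symm
      ab := fun i x hx => by
        ext k l
        rw [Matrix.of_apply, ← hB' i x hx, ← hA, Matrix.mulVec_mulVec, Matrix.mulVec_single_one]
        rfl
      det := fun i j x hi hj => hdet i j x hi hj _ (hBA i j x hi)
      chg := fun i j x hi hj => hψ.change _ _ x (hU i hi) (hU j hj) }
  obtain ⟨w, hw⟩ := D.exact hP
  obtain ⟨t, ht⟩ := hx0
  rw [h0, h1, mk_eq]
  refine ⟨t + (Complex.I / (2 * Real.pi)) • w, ?_⟩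
  rw [map_add, ht, map_smul, pow_one, sub_add, sub_right_inj]
  refine ext fun e x h => ?_
  obtain ⟨i, hi⟩ := hE.cover x
  rw [val_sub, val_smul, val_smul, hw i e x h hi, hc.2 (a i) e x h (hU i hi), smul_add, smul_smul,
    sub_add_cancel_left, ← neg_smul]
  congr 1
  rw [div_mul_eq_mul_div, Complex.I_mul_I, neg_div, neg_neg, one_div]
  push_cast
  rfl

end Vale.Agent.P280Z.Co
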