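import Vale.Agent.P280Z.Co.PlC

/-!
# P280Z, row PL: the formula of Poincaré and Lelong
-/

open scoped Manifold ContDiff Topology Matrix
open Set Filter MeasureTheory
open Vale.Agent.P272.K Vale.Agent.P272.K.C2 Vale.Agent.P299.IX Vale.Agent.P299.IX.Fock
  Vale.Agent.P281Z Vale.Agent.P281Z.Hg Vale.Agent.P280Z.Pu Vale.Agent.P285.H281.FD
open Vale.Agent.P281Z.Hg.Pb1H (ca)

noncomputable section

namespace Vale.Agent.P280Z.Co

namespace PlH

variable {m n : ℕ}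

/-- the top coefficient of `i ∑ w_jk dz_j ∧ dz̄_k ∧ B` -/
def tc (w : Cm m → Matrix (Fin m) (Fin m) ℂ) (B : Cm m → Fo m) (z : Cm m) : ℂ :=
  Bq (Lw (w z) *ᵥ B z) (ev ∅)

theorem tc_zero {w : Cm m → Matrix (Fin m) (Fin m) ℂ} {B : Cm m → Fo m} {z : Cm m} (h : B z = 0) :
    tc w B z = 0 := by rw [tc, h, Matrix.mulVec_zero, G2H.Bq_zero_l]

theorem tc_cont {w : Cm m → Matrix (Fin m) (Fin m) ℂ} {B : Cm m → Fo m} {z : Cm m} (h : MC ∞ w z)
    (h' : ContDiffAt ℝ ∞ B z) : ContinuousAt (tc w B) z :=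
  (G2H.cd_Bq (G1H.cd_mulVec (G1H.mc_Lw h) h') contDiffAt_const).continuousAt

variable {V : Mf m} {L : Bd V.X} {s : L.ι → V.X → ℂ} {ψ : L.ι → V.X → ℝ} {a : L.ι}
  {c : Chart m V.X} {K : Set V.X} {σ : Cm m → ℂ} {β : Om V}

/-- the integral of a form with small support -/
theorem int_loc (hs : IsSec m L s) (hψ : IsMet m L ψ) (hc : c ∈ atlas (Cm m) V.X)
    (hK : IsCompact K) (h1 : K ⊆ c.source) (h2 : K ⊆ L.U a) (hσ : ∀ x ∈ c.source, σ (c x) = s a x)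
    (hβ : ∀ x, x ∉ K → β ∈ ZP (d := m) x) :
    Loc (c '' K) σ (fun z => ψ a (c.symm z)) (tc (cHess fun z => ψ a (c.symm z)) (val β c)) ∧
    Loc (c '' K) σ (fun z => ψ a (c.symm z)) (tc (mv σ fun z => ψ a (c.symm z)) (val β c)) ∧
    ∀ (ε : ℝ) (u : Om V), 0 < ε → IsC1 L (reg s ψ ε) u →
      intO (u * β) = kp ^ m * sn m * ((2 * Real.pi : ℝ) : ℂ)⁻¹ *
        ((∫ z, q1 (σ z) (ψ a (c.symm z)) ε * tc (cHess fun z => ψ a (c.symm z)) (val β c) z) +
        ∫ z, q2 (σ z) (ψ a (c.symm z)) ε * tc (mv σ fun z => ψ a (c.symm z)) (val β c) z) := by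
  obtain ⟨l1, l2, l3, l4⟩ := glob hc hK h1 hβ
  have e1 : ∀ x ∈ K, σ =ᶠ[𝓝 (c x)] fun z => s a (c.symm z) := fun x hx =>
    mem_of_superset (c.open_target.mem_nhds (c.map_source (h1 hx))) fun z hz =>
      (congrArg σ (c.right_inv hz).symm).trans (hσ _ (c.map_target hz))
  have k1 : ∀ x ∈ K, ContDiffAt ℂ ω σ (c x) := fun x hx =>
    (hs.holo a c x ⟨hc, h1 hx⟩ (h2 hx)).congr_of_eventuallyEq (e1 x hx)
  have k2 : ∀ x ∈ K, ContDiffAt ℝ ∞ (fun z => ψ a (c.symm z)) (c x) := fun x hx =>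
    hψ.smooth a c x ⟨hc, h1 hx⟩ (h2 hx)
  have A : Loc (c '' K) σ (fun z => ψ a (c.symm z))
      (tc (cHess fun z => ψ a (c.symm z)) (val β c)) :=
    ⟨l1, forall_mem_image.2 fun x hx => (k1 x hx).continuousAt,
      forall_mem_image.2 fun x hx => (k2 x hx).continuousAt,
      forall_mem_image.2 fun x hx => tc_cont (mc_hess (k2 x hx)) l4.contDiffAt,
      fun z hz => tc_zero (l3 z hz)⟩
  have B : Loc (c '' K) σ (fun z => ψ a (c.symm z))
      (tc (mv σ fun z => ψ a (c.symm z)) (val β c)) :=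
    ⟨l1, A.cσ, A.cψ,
      forall_mem_image.2 fun x hx => tc_cont (mc_mv (k1 x hx) (k2 x hx)) l4.contDiffAt,
      fun z hz => tc_zero (l3 z hz)⟩
  refine ⟨A, B, fun ε u hε hu => ?_⟩
  have z1 : ∀ x, x ∉ K → (u * β : Om V) ∈ ZP (d := m) x := fun x hx e he =>
    (val_mul u β he).trans (by rw [show val β e (e x) = 0 from hβ x hx e he, Matrix.mulVec_zero])
  rw [intO_eq, ← integral_add (A.int1 hε) (B.int2 hε), mul_assoc _ _ (∫ _, _), ← integral_const_mul]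
  refine congrArg _ (Qi_loc hc hK h1 z1 _ (((A.int1 hε).add (B.int2 hε)).const_mul _)
    (fun z hz => ?_) fun z hz => ?_)
  · obtain ⟨x, hx, rfl⟩ : ∃ x ∈ c.source, c x = z := ⟨_, c.map_target hz, c.right_inv hz⟩
    by_cases k : x ∈ K
    · have e2 : cHess (fun z => reg s ψ ε a (c.symm z)) (c x) = _ :=
        (cHess_congr ((e1 x k).mono fun z hz => by simp only [reg, hz])).trans
          (hess_reg (k1 x k) (k2 x k) hε)
      rw [show vl (d := m) (M := V.X) (u * β : Om V) c (c x) = _ from val_mul u β ⟨hc, hx⟩,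
        show vl (d := m) (M := V.X) (1 : Om V) c (c x) = _ from val_one ⟨hc, hx⟩,
        hu.2 a c x ⟨hc, hx⟩ (h2 k), f1a.wg_smul, ← (f2b f1a f1b f2a).L_wg, e2, Lw_comb,
        Matrix.smul_mulVec, G2H.Bq_smul_l, Matrix.add_mulVec, G2H.Bq_add_l, Matrix.smul_mulVec,
        Matrix.smul_mulVec, G2H.Bq_smul_l, G2H.Bq_smul_l]
      rfl
    · have e2 : val β c (c x) = 0 := hβ x k c ⟨hc, hx⟩
      rw [z1 x k c ⟨hc, hx⟩, G2H.Bq_zero_l, tc_zero e2, tc_zero e2]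
      simp
  · have e2 : val β c z = 0 := l3 z fun k => hz (l2 k)
    rw [tc_zero e2, tc_zero e2]
    simp

variable {u : ℝ → Om V}

theorem lim_off (hs : IsSec m L s) (hψ : IsMet m L ψ)
    (hu : ∀ R, 0 < R ^ 2 → IsC1 L (reg s ψ (R ^ 2)) (u R)) (hc : c ∈ atlas (Cm m) V.X)
    (hK : IsCompact K) (h1 : K ⊆ c.source) (h2 : K ⊆ L.U a) (h3 : ∀ x ∈ K, s a x ≠ 0)
    (hβ : ∀ x, x ∉ K → β ∈ ZP (d := m) x) :
    Tendsto (fun R => intO (u R * β)) (𝓝[>] 0) (𝓝 0) := by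
  obtain ⟨A, B, h⟩ := int_loc (σ := fun z => s a (c.symm z)) hs hψ hc hK h1 h2
    (fun x hx => congrArg (s a) (c.left_inv hx)) hβ
  have k : ∀ w ∈ c '' K, s a (c.symm w) ≠ 0 := forall_mem_image.2 fun x hx => by
    rw [c.left_inv (h1 hx)]
    exact h3 x hx
  have := ((A.lim1 (μ := volume) (.of_forall k)).add (B.lim2 (μ := volume) k)).const_mul
    (kp ^ m * sn m * ((2 * Real.pi : ℝ) : ℂ)⁻¹)
  rw [add_zero, mul_zero] at this
  exact this.congr' (sq_pos.mono fun R hR => (h _ _ hR (hu R hR)).symm)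

theorem Loc.sp {K : Set (Cm (n + 1))} {ψ : Cm (n + 1) → ℝ} {A : Cm (n + 1) → ℂ}
    (h : Loc K (lst n) ψ A) : Loc (sph n 1 ⁻¹' K) (fun w => w.2 0) (fun w => ψ (ap w.1 w.2))
      fun w => A (ap w.1 w.2) :=
  ⟨(sph n 1).isCompact_preimage.2 h.cpt, fun _ _ => by fun_prop,
    fun w hw => (h.cψ _ hw).comp (sph n 1).continuous.continuousAt,
    fun w hw => (h.cA _ hw).comp (sph n 1).continuous.continuousAt, fun w hw => h.off _ hw⟩

theorem int_sp (F : Cm (n + 1) → ℂ) :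
    ∫ w, F w = ∫ w : Cm n × Cm 1, F (ap w.1 w.2) ∂(volume.prod volume) := by
  rw [← PuF.sp_mp.integral_comp']
  simp only [PuF.sp_eq]
  rfl

theorem ae_ne : ∀ᵐ w : Cm n × Cm 1 ∂(volume.prod volume), w.2 0 ≠ 0 := by
  refine Measure.quasiMeasurePreserving_snd.ae (p := fun z : Cm 1 => z 0 ≠ 0) ?_
  filter_upwards [compl_mem_ae_iff.2 (measure_singleton (0 : Cm 1))] with z hz h
  exact hz (funext fun i => by rw [Subsingleton.elim i 0, h]; rfl)

theorem lim_on {V : Mf (n + 1)} {Z : Mf n} {L : Bd V.X} {s : L.ι → V.X → ℂ} {i : Z.X → V.X}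
    {ψ : L.ι → V.X → ℝ} {a : L.ι} {c : Chart (n + 1) V.X} {χ : Chart n Z.X} {K : Set V.X}
    {β : Om V} {u : ℝ → Om V} (hs : IsSec (n + 1) L s) (hψ : IsMet (n + 1) L ψ)
    (hu : ∀ R, 0 < R ^ 2 → IsC1 L (reg s ψ (R ^ 2)) (u R)) (hi : HolM n (n + 1) i)
    (hr : ∀ x, ¬ NZ L s x → x ∈ range i) (h : Ad L s i a c χ) (hK : IsCompact K)
    (h1 : K ⊆ c.source) (hβ : ∀ x, x ∉ K → β ∈ ZP (d := n + 1) x) :
    Tendsto (fun R => intO (u R * β)) (𝓝[>] 0) (𝓝 (intO (pb hi β))) := by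
  obtain ⟨A, B, k⟩ := int_loc hs hψ h.m1 hK h1 (h1.trans h.sub) h.sec hβ
  have ci : Continuous i := (hl_of hi).cont
  have i1 : Integrable fun t : Cm n =>
      tc (mv (lst n) fun z => ψ a (c.symm z)) (val β c) (ap t 0) :=
    (B.sp.cont.comp (.prodMk_left 0)).integrable_of_hasCompactSupport
      (.intro (B.sp.cpt.image continuous_fst) fun t ht =>
        B.sp.off (t, 0) fun k => ht ⟨_, k, rfl⟩)
  have e1 : ∀ t : Cm n, Bq (lr (jc (fun y : Cm n => ap y 0) t) *ᵥ val β c (ap t 0)) (ev ∅) =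
      sn (n + 1) / (Complex.I * sn n) *
        tc (mv (lst n) fun z => ψ a (c.symm z)) (val β c) (ap t 0) := fun t => by
    rw [div_mul_eq_mul_div, tc, res_eq, eq_div_iff (mul_ne_zero Complex.I_ne_zero (sn_ne n))]
    ring
  have e2 : Qi (n := n) (M := Z.X) (pb hi β) (1 : Om Z) = _ :=
    Qi_loc h.m2 (hK.isClosed.preimage ci).isCompact (fun y hy => (h.src y).2 (h1 hy))
      (fun y hy => IsPb_zp (pb_is hi) (hβ _ hy)) _ (i1.const_mul (sn (n + 1) / (Complex.I * sn n)))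
      (fun t ht => by
        obtain ⟨y, hy, rfl⟩ : ∃ y ∈ χ.source, χ y = t := ⟨_, χ.map_target ht, χ.right_inv ht⟩
        rw [← e1, pb_is hi β χ c y ⟨h.m2, hy⟩ ⟨h.m1, (h.src y).1 hy⟩, h.eq y hy,
          show vl (d := n) (M := Z.X) (1 : Om Z) χ (χ y) = _ from val_one ⟨h.m2, hy⟩,
          k1b'.jc_congr (ψ := fun t : Cm n => ap t 0) (mem_of_superset (χ.open_target.mem_nhds ht)
            fun t ht => (h.eq _ (χ.map_target ht)).trans (by rw [χ.right_inv ht]))]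
        rfl)
      fun t ht => by
        rw [tc_zero, mul_zero]
        refine (vl_isF (d := n + 1) (M := V.X) β).off c _ fun k => ht ?_
        have k1 := c.map_target k.2
        have k2 := h.sec _ k1
        rw [c.right_inv k.2, lst_ap] at k2
        obtain ⟨y, hy⟩ := hr _ fun k3 => k3 a (h.sub k1) k2.symm
        have k3 := (h.src y).2 (hy ▸ k1)
        have k4 := congrArg (p1 n 1) (h.eq y k3)
        rw [hy, c.right_inv k.2, p1_ap, p1_ap] at k4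
        exact k4 ▸ χ.map_source k3
  have l := ((A.sp.lim1 (ae_ne.mono fun _ k _ => k)).add B.sp.lim3).const_mul
    (kp ^ (n + 1) * sn (n + 1) * ((2 * Real.pi : ℝ) : ℂ)⁻¹)
  have e3 : intO (pb hi β) = kp ^ (n + 1) * sn (n + 1) * ((2 * Real.pi : ℝ) : ℂ)⁻¹ * (0 + Real.pi *
      ∫ t : Cm n, tc (mv (lst n) fun z => ψ a (c.symm z)) (val β c) (ap t 0)) := by
    have p := Complex.ofReal_ne_zero.2 Real.pi_ne_zero
    have q := sn_ne n
    rw [intO_eq, e2, integral_const_mul, pow_succ, Complex.ofReal_mul, Complex.ofReal_ofNat]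
    generalize kp ^ n = y
    rw [kp]
    field_simp
    linear_combination (Real.pi * y * sn (n + 1) * ∫ t : Cm n,
      tc (mv (lst n) fun z => ψ a (c.symm z)) (val β c) (ap t 0)) * Complex.I_mul_I
  rw [e3]
  refine l.congr' (sq_pos.mono fun R hR => ?_)
  simp only [k _ _ hR (hu R hR), int_sp, lst_ap]

theorem lim_all {V : Mf (n + 1)} {Z : Mf n} {L : Bd V.X} {s : L.ι → V.X → ℂ} {i : Z.X → V.X}
    {ψ : L.ι → V.X → ℝ} {u : ℝ → Om V} (hL : IsLB (n + 1) L) (hs : IsSec (n + 1) L s)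
    (hψ : IsMet (n + 1) L ψ) (hu : ∀ R, 0 < R ^ 2 → IsC1 L (reg s ψ (R ^ 2)) (u R))
    (hi : HolM n (n + 1) i) (hr : range i = {x | ¬ NZ L s x})
    (h : ∀ z, ∃ a c χ, Ad L s i a c χ ∧ i z ∈ c.source) (β : Om V) :
    Tendsto (fun R => intO (u R * β)) (𝓝[>] 0) (𝓝 (intO (pb hi β))) := by
  have key : ∀ x, ∃ O : Set V.X, IsOpen O ∧ x ∈ O ∧ ∀ K, IsCompact K → K ⊆ O → ∀ β : Om V,
      (∀ x, x ∉ K → β ∈ ZP (d := n + 1) x) →
      Tendsto (fun R => intO (u R * β)) (𝓝[>] 0) (𝓝 (intO (pb hi β))) := fun x => by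
    by_cases hx : x ∈ range i
    · obtain ⟨z, rfl⟩ := hx
      obtain ⟨a, c, χ, k, k'⟩ := h z
      exact ⟨c.source, c.open_source, k', fun K hK h1 β hβ =>
        lim_on hs hψ hu hi (fun x hx => hr ▸ hx) k hK h1 hβ⟩
    · obtain ⟨a, ha⟩ := hL.cover x
      refine ⟨((chartAt (Cm (n + 1)) x).source ∩ L.U a) ∩ (range i)ᶜ,
        ((chartAt _ x).open_source.inter (hL.isOpen a)).inter
          (isCompact_range (hl_of hi).cont).isClosed.isOpen_compl,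
        ⟨⟨mem_chart_source _ x, ha⟩, hx⟩, fun K hK h1 β hβ => ?_⟩
      rw [show pb hi β = 0 from ext fun e y he =>
        IsPb_zp (pb_is hi) (hβ _ fun k => (h1 k).2 (mem_range_self y)) e he, map_zero]
      refine lim_off hs hψ hu (chart_mem_atlas _ x) hK (fun y k => (h1 k).1.1)
        (fun y k => (h1 k).1.2) (fun y k k' => (h1 k).2 ?_) hβ
      rw [hr]
      exact fun k3 => k3 a (h1 k).1.2 k'
  choose O o1 o2 o3 using key
  obtain ⟨t, R, K, k1, k2, k3, -⟩ := pou' (n := n + 1) O o1 o2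
  obtain ⟨γ, e, k4⟩ : ∃ γ : t → Om V, β = ∑ j, γ j ∧ ∀ j x, x ∉ K j → γ j ∈ ZP (d := n + 1) x :=
    ⟨fun j => R j β, (k2 β).symm, fun j => k3 j β⟩
  simp only [e, Finset.mul_sum, map_sum]
  exact tendsto_finsetSum _ fun j _ => o3 j (K j) (k1 j).1 (k1 j).2 _ (k4 j)

end PlH

open PlH in
/-- **row PL** -/
theorem pl_of (hC : C1E) : ct.PL := by
  intro m n V Z L s i h a
  obtain rfl := h.dim
  obtain ⟨β, rfl⟩ := mk_surj a
  obtain ⟨ψ, hψ⟩ := (hC V L h.lb).1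
  have k : ∀ R : ℝ, ∃ u : Zc V, 0 < R ^ 2 → IsC1 L (reg s ψ (R ^ 2)) (fm u) ∧ c1H V L = mk u :=
    fun R => by
      by_cases hR : 0 < R ^ 2
      · exact ((hC V L h.lb).2 _ (reg_met h.lb h.sec hψ hR)).imp fun _ k _ => k
      · exact ⟨0, fun k => absurd k hR⟩
  choose u hu using k
  have l := lim_all (V := mx V) (Z := mx Z) (u := fun R => pb (hol_ix V) (fm (u R))) (lb_mx h.lb)
    (sec_mx h.sec) (met_mx hψ) (fun R hR => c1_mx hC h.lb (hu R hR).1) (hol_mx h.emb.hol) h.emb.rng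
    (ex_ad h) (pb (hol_ix V) (fm β))
  rw [pb_mx h.emb.hol, intO_mx] at l
  simp only [← map_mul, intO_mx] at l
  refine tendsto_nhds_unique (l := 𝓝[>] (0 : ℝ)) (tendsto_const_nhds.congr' ?_)
    ((Complex.continuous_re.tendsto _).comp l)
  refine sq_pos.mono fun R hR => ?_
  show intH V (c1H V L * mk β) = _
  rw [(hu R hR).2, ← map_mul, intH_mk]
  rfl

end Vale.Agent.P280Z.Co
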