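import Vale.Agent.P280Z.Co.Sk

/-!
# P280Z: the top power of a form of type `(1,1)` and its integral
-/

open scoped Manifold ContDiff Topology Matrix ComplexOrder Nat
open Set Filter
open Vale.Agent.P272.K Vale.Agent.P272.K.INT Vale.Agent.P299.IX Vale.Agent.P299.IX.Fock
  Vale.Agent.P281Z Vale.Agent.P281Z.Hg Vale.Agent.P281Z.Hg.G2H Vale.Agent.P280Z.Pu
  Vale.Agent.P285.H281.FD

noncomputable section

namespace Vale.Agent.P280Z.Co.Bez

variable {d : ℕ}

/-- exterior multiplication by `dz_j ∧ dz̄_j` -/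
def pa (j : Fin d) : Fm d := eps (hl j) * eps (ah j)

theorem eps_pa (l : Fin (d + d)) (j : Fin d) : eps l * pa j = pa j * eps l := by
  rw [pa, ← Matrix.mul_assoc, eps_eps l, Matrix.neg_mul, Matrix.mul_assoc, eps_eps l,
    Matrix.mul_neg, neg_neg, Matrix.mul_assoc]

theorem pa_comm (i j : Fin d) : Commute (pa i) (pa j) := by
  show eps _ * eps _ * pa j = pa j * (eps _ * eps _)
  rw [Matrix.mul_assoc, eps_pa, ← Matrix.mul_assoc, eps_pa, Matrix.mul_assoc]

theorem pa_sq (i : Fin d) : pa i * pa i = 0 := by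
  show eps _ * eps _ * pa i = 0
  rw [Matrix.mul_assoc, eps_pa, ← Matrix.mul_assoc, pa, ← Matrix.mul_assoc, eps_sq,
    Matrix.zero_mul, Matrix.zero_mul]

theorem pow_pair {R : Type} [Ring R] {a P : R} (h : Commute a P) (h2 : a * a = 0) (m : ℕ) :
    (a + P) ^ (m + 1) = P ^ (m + 1) + (m + 1) • (a * P ^ m) := by
  induction m with
  | zero => rw [zero_add, pow_one, pow_one, pow_zero, mul_one, one_smul, add_comm]
  | succ m ih =>
    rw [pow_succ' (a + P), ih, add_mul, mul_add, mul_add, mul_smul_comm, mul_smul_comm,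
      ← mul_assoc, h2, zero_mul, smul_zero, add_zero, ← mul_assoc, ← h.eq, mul_assoc,
      ← pow_succ', ← pow_succ', succ_nsmul _ (m + 1)]
    abel

/-- the multi-index of the pairs in `S` -/
def im (S : Finset (Fin d)) : FI (d + d) := S.image hl ∪ S.image ah

theorem pa_ev {i : Fin d} {T : Finset (Fin d)} (h : ∀ j ∈ T, i < j) :
    pa i *ᵥ ev (im T) = (-1 : ℂ) ^ T.card • ev (im (insert i T)) := by
  have h1 : ah i ∉ im T := by
    simp only [im, Finset.mem_union, Finset.mem_image, not_or, not_exists, not_and]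
    refine ⟨fun j _ e => ?_, fun j hj e => ?_⟩
    · have := congrArg Fin.val e
      simp only [hl, ah, Fin.val_castAdd, Fin.val_natAdd] at this
      omega
    · have := congrArg Fin.val e
      have h3 := Fin.lt_def.1 (h j hj)
      simp only [ah, Fin.val_natAdd] at this
      omega
  have h2 : (im T).filter (· < ah i) = T.image hl := by
    ext l
    simp only [im, Finset.mem_filter, Finset.mem_union, Finset.mem_image]
    constructor
    · rintro ⟨k | ⟨j, hj, rfl⟩, k2⟩
      · exact k
      · have h3 := Fin.lt_def.1 (h j hj)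
        simp only [ah, Fin.lt_def, Fin.val_natAdd] at k2
        omega
    · rintro ⟨j, hj, rfl⟩
      refine ⟨Or.inl ⟨j, hj, rfl⟩, ?_⟩
      simp only [hl, ah, Fin.lt_def, Fin.val_castAdd, Fin.val_natAdd]
      omega
  have h3 : ∀ l ∈ insert (ah i) (im T), hl i < l := by
    intro l hl'
    simp only [im, Finset.mem_insert, Finset.mem_union, Finset.mem_image] at hl'
    rcases hl' with rfl | ⟨j, hj, rfl⟩ | ⟨j, _, rfl⟩
    · simp only [hl, ah, Fin.lt_def, Fin.val_castAdd, Fin.val_natAdd]
      omega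
    · exact h j hj
    · simp only [hl, ah, Fin.lt_def, Fin.val_castAdd, Fin.val_natAdd]
      omega
  rw [pa, ← Matrix.mulVec_mulVec, eps_ev_of_notMem h1, Matrix.mulVec_smul, eps_ev_min h3, sg, h2,
    Finset.card_image_of_injective (f := hl) _ (Fin.castAdd_injective d d)]
  congr 2
  simp only [im, Finset.image_insert, Finset.insert_union, Finset.union_insert]
  exact Finset.insert_comm _ _ _

theorem key (S : Finset (Fin d)) : (∑ j ∈ S, pa j) ^ (S.card + 1) = 0 ∧
    (∑ j ∈ S, pa j) ^ S.card *ᵥ ev ∅ = ((S.card ! : ℂ) * sn S.card) • ev (im S) := by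
  induction S using Finset.induction_on_min with
  | empty => simp [im, sn]
  | insert i T hi ih =>
    have hi' : i ∉ T := fun k => lt_irrefl i (hi i k)
    have hc : Commute (pa i) (∑ j ∈ T, pa j) := Commute.sum_right _ _ _ fun j _ => pa_comm i j
    rw [Finset.sum_insert hi', Finset.card_insert_of_notMem hi', pow_pair hc (pa_sq i),
      pow_pair hc (pa_sq i), pow_succ _ (T.card + 1), ih.1, zero_mul, mul_zero, smul_zero,
      zero_add, zero_add, ← Nat.cast_smul_eq_nsmul ℂ, Matrix.smul_mulVec, ← Matrix.mulVec_mulVec,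
      ih.2, Matrix.mulVec_smul, pa_ev hi, smul_smul, smul_smul, sn, sn, Finset.prod_range_succ,
      Nat.factorial_succ]
    refine ⟨rfl, congrArg (· • _) ?_⟩
    push_cast
    ring

theorem Lw_one : Lw (1 : Matrix (Fin d) (Fin d) ℂ) = Complex.I • ∑ j, pa j := by
  rw [Lw, Finset.smul_sum]
  refine Finset.sum_congr rfl fun j _ => ?_
  rw [Finset.sum_eq_single j (fun k _ hk => by rw [Matrix.one_apply_ne' hk, mul_zero, zero_smul])
    (fun h => absurd (Finset.mem_univ j) h), Matrix.one_apply_eq, mul_one, pa]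

theorem im_univ : im (Finset.univ : Finset (Fin d)) = Finset.univ := by
  refine Finset.eq_univ_of_forall fun l => ?_
  induction l using Fin.addCases with
  | left j => exact Finset.mem_union_left _ (Finset.mem_image_of_mem hl (Finset.mem_univ j))
  | right j => exact Finset.mem_union_right _ (Finset.mem_image_of_mem ah (Finset.mem_univ j))

/-- the top power of a form of type `(1,1)` -/
theorem top_pow (w : Matrix (Fin d) (Fin d) ℂ) :
    Lw w ^ d *ᵥ ev ∅ = (Complex.I ^ d * (d ! * sn d) * w.det) • ev Finset.univ := by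
  have h := F2bH.L_blk f1b w 1 1
  rw [Matrix.transpose_one, Matrix.mul_one, Matrix.mul_one] at h
  have h1 : ∀ k, lam (blk w 1) * Lw 1 ^ k = Lw w ^ k * lam (blk w 1) := fun k =>
    (SemiconjBy.pow_right h k)
  have h2 := (key (Finset.univ : Finset (Fin d))).2
  rw [Finset.card_univ, Fintype.card_fin, im_univ] at h2
  rw [← lam_ev_empty (blk w 1), Matrix.mulVec_mulVec, ← h1, ← Matrix.mulVec_mulVec, Lw_one,
    smul_pow, Matrix.smul_mulVec, h2, smul_smul, Matrix.mulVec_smul, lam_ev_univ, smul_smul,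
    f1b.blk_det, Matrix.det_one, mul_one]

theorem sn_mul (m : ℕ) : sn m * sn m = 1 := by
  rw [sn, ← Finset.prod_mul_distrib]
  exact Finset.prod_eq_one fun i _ => by rw [← mul_pow, neg_mul_neg, one_mul, one_pow]

/-- the density of the top power -/
theorem top_Bq (w : Matrix (Fin d) (Fin d) ℂ) :
    kp ^ d * sn d * Bq (Lw w ^ d *ᵥ ev ∅) (ev ∅) = 2 ^ d * d ! * w.det := by
  have h : kp ^ d * Complex.I ^ d = 2 ^ d := by
    rw [← mul_pow, kp, mul_assoc, Complex.I_mul_I, neg_mul_neg, mul_one]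
  rw [top_pow, Bq_smul_l, Bq, hst_ev_empty, ev, dotProduct_single, Pi.single_eq_same]
  linear_combination (kp ^ d * Complex.I ^ d * d ! * w.det) * sn_mul d + (d ! * w.det) * h

variable {n : ℕ} {V : Mf n}

theorem val_pow {u : Om V} {e : Chart n V.X} {x : V.X} (h : At e x) {c : ℂ}
    {w : Matrix (Fin n) (Fin n) ℂ} (hu : val u e (e x) = c • (Lw w *ᵥ ev ∅)) (k : ℕ) :
    val (u ^ k) e (e x) = c ^ k • (Lw w ^ k *ᵥ ev ∅) := by
  induction k with
  | zero => rw [pow_zero, val_one h, pow_zero, pow_zero, one_smul, Matrix.one_mulVec]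
  | succ k ih =>
    rw [pow_succ', val_mul _ _ h, ih, hu, f1a.wg_smul, ← (f2b f1a f1b f2a).L_wg,
      Matrix.smul_mulVec, Matrix.mulVec_smul, smul_smul, Matrix.mulVec_mulVec, ← pow_succ',
      ← pow_succ']

/-- the density of the component of top degree -/
def den (u : Om V) (e : Chart n V.X) (z : Cm n) : ℝ :=
  (kp ^ n * sn n * Bq (val u e z) (val (1 : Om V) e z)).re

theorem den_is (u : Om V) : IsDensity (den u) := by
  have h := (gg1 n V.X).dens u (1 : Om V)
  exact (h.1.const_mul (kp ^ n * sn n).re).sub (h.2.const_mul (kp ^ n * sn n).im)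

theorem intO_re (u : Om V) : (intO u).re = intX (den u) := by
  rw [intO_eq, show _ * Qi _ _ = _ from (itg_smul _ ((gg1 n V.X).dens u (1 : Om V))).symm, itg]
  simp only [Complex.add_re, Complex.ofReal_re, Complex.mul_re Complex.I, Complex.I_re, Complex.I_im,
    Complex.ofReal_im, zero_mul, mul_zero, sub_zero, add_zero]
  rfl

/-- the top power of the Chern form of a metric -/
theorem c1_pow (h : C1E) {L : Bd V.X} (hL : IsLB n L) {ψ : L.ι → V.X → ℝ} (hψ : IsMet n L ψ) :
    ∃ D : Chart n V.X → Cm n → ℝ, IsDensity D ∧ intH V (c1H V L ^ n) = intX D ∧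
      ∀ a e x, At e x → x ∈ L.U a → D e (e x) =
        n ! / Real.pi ^ n * (cHess (fun z => ψ a (e.symm z)) (e x)).det.re := by
  obtain ⟨u, hu, h1⟩ := (h V L hL).2 ψ hψ
  refine ⟨den (fm u ^ n), den_is _, ?_, fun a e x he ha => ?_⟩
  · rw [h1, ← map_pow, intH_mk, intO_re, map_pow]
  · rw [den, val_pow he (hu.2 a e x he ha), val_one he, Bq_smul_l, mul_left_comm, top_Bq,
      ← mul_assoc, ← Complex.re_ofReal_mul]
    congr 2
    have : (Real.pi : ℂ) ≠ 0 := Complex.ofReal_ne_zero.2 Real.pi_ne_zero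
    push_cast
    rw [inv_pow, mul_pow]
    field_simp

end Vale.Agent.P280Z.Co.Bez
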