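import Vale.Agent.P280Z.Co.Fn

/-!
# P280Z: every idempotent matrix representing a bundle computes its Chern character
-/

open scoped Manifold ContDiff Topology Matrix ComplexOrder
open Set Filter
open Vale.Agent.P272.K Vale.Agent.P272.K.C2 Vale.Agent.P281Z Vale.Agent.P281Z.Hg
open Vale.Agent.P231.ChW (GDA Ev ch Idem)

noncomputable section

namespace Vale.Agent.P280Z.Co

variable {n : ℕ} {V : Mf n} {α β : Type} [Fintype α] [DecidableEq α] [Fintype β] [DecidableEq β]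

theorem Ex.add {u v : Om V} : Ex u → Ex v → Ex (u + v) := fun ⟨a, h⟩ ⟨b, k⟩ =>
  ⟨a + b, by rw [map_add, h, k]⟩

theorem Ex.smul (c : ℂ) {u : Om V} : Ex u → Ex (c • u) := fun ⟨a, h⟩ =>
  ⟨c • a, by rw [map_smul, h]⟩

/-- isomorphic idempotent matrices of functions -/
theorem ex_iso (t : TRG) {a : V.X → Matrix β α ℂ} {b : V.X → Matrix α β ℂ} (ha : ∀ x, SmAt n a x)
    (hb : ∀ x, SmAt n b x) (h1 : ∀ x, a x * b x * a x = a x) (h2 : ∀ x, b x * a x * b x = b x)
    {p : V.X → Matrix α α ℂ} {q : V.X → Matrix β β ℂ} {P : Matrix α α (Om V)}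
    {Q : Matrix β β (Om V)} (hP : IsM p P) (hQ : IsM q Q) (e1 : ∀ x, b x * a x = p x)
    (e2 : ∀ x, a x * b x = q x) (k : ℕ) : Ex (ch k P - ch k Q) := by
  obtain ⟨A, hA⟩ := ex_M a ha
  obtain ⟨B, hB⟩ := ex_M b hb
  rw [← (hB.mul hA).ext hP e1, ← (hA.mul hB).ext hQ e2]
  exact t (Om V) (fun c u => map_smul dO c u) (fun c u => map_smul sgO c u) α β A B hA.ev hB.ev
    (((hA.mul hB).mul hA).ext hA h1) (((hB.mul hA).mul hB).ext hB h2) k

theorem det_ne {p : Matrix α α ℂ} (h : p * p = p) : (p + pᴴ - 1).det ≠ 0 := by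
  have h' : pᴴ * pᴴ = pᴴ := by rw [← Matrix.conjTranspose_mul, h]
  have e : (p + pᴴ - 1) * (p + pᴴ - 1) = 1 + (p - pᴴ)ᴴ * (p - pᴴ) := by
    rw [Matrix.conjTranspose_sub, Matrix.conjTranspose_conjTranspose]
    simp only [mul_sub, sub_mul, mul_add, add_mul, h, h', mul_one, one_mul]
    abel
  have d := (Matrix.PosDef.one.add_posSemidef
    (Matrix.posSemidef_conjTranspose_mul_self (p - pᴴ))).det_pos
  rw [← e, Matrix.det_mul] at d
  exact left_ne_zero_of_mul d.ne'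

/-- an idempotent is isomorphic to its adjoint -/
theorem ex_adj (t : TRG) {p : V.X → Matrix α α ℂ} (hp : ∀ x, SmAt n p x)
    (h : ∀ x, p x * p x = p x) {P : Matrix α α (Om V)} (hP : IsM p P) (k : ℕ) :
    Ex (ch k P - ch k (P.map cjO)ᵀ) := by
  have hT : ∀ x, SmAt n (fun y => p y + (p y)ᴴ - 1) x := fun x e he =>
    (MC.add (hp x e he) (MC.conjTranspose (hp x e he))).sub fun _ _ => contDiffAt_const
  have i1 : ∀ x, (p x + (p x)ᴴ - 1)⁻¹ * (p x + (p x)ᴴ - 1) = 1 := fun x =>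
    Matrix.nonsing_inv_mul _ (det_ne (h x)).isUnit
  have i2 : ∀ x, (p x + (p x)ᴴ - 1) * (p x + (p x)ᴴ - 1)⁻¹ = 1 := fun x =>
    Matrix.mul_nonsing_inv _ (det_ne (h x)).isUnit
  have c : ∀ x, (p x + (p x)ᴴ - 1) * p x = (p x)ᴴ * (p x + (p x)ᴴ - 1) := fun x => by
    have h' : (p x)ᴴ * (p x)ᴴ = (p x)ᴴ := by rw [← Matrix.conjTranspose_mul, h]
    simp only [mul_sub, sub_mul, mul_add, add_mul, h, h', mul_one, one_mul]
    abel
  have e1 : ∀ x, p x * (p x + (p x)ᴴ - 1)⁻¹ * ((p x + (p x)ᴴ - 1) * p x) = p x := fun x => by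
    rw [mul_assoc, ← mul_assoc _ _ (p x), i1, one_mul, h]
  refine ex_iso t (a := fun x => (p x + (p x)ᴴ - 1) * p x)
    (b := fun x => p x * (p x + (p x)ᴴ - 1)⁻¹) (fun x e he => MC.mul (hT x e he) (hp x e he))
    (fun x e he => MC.mul (hp x e he) (MC.inv (hT x e he) ?_)) (fun x => ?_) (fun x => ?_) hP hP.ct
    e1 (fun x => ?_) k
  · simp only [e.left_inv he.2]
    exact det_ne (h x)
  · rw [mul_assoc, e1, mul_assoc, h]
  · rw [e1, ← mul_assoc, h]
  · rw [mul_assoc, ← mul_assoc (p x), h, ← mul_assoc, c, mul_assoc, i2, mul_one]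

/-- matrices of linear maps -/
abbrev tM {N N' : ℕ} (φ : (Fin N → ℂ) →ₗ[ℂ] Fin N' → ℂ) : Matrix (Fin N') (Fin N) ℂ :=
  LinearMap.toMatrix' φ

theorem Rep.fn (v : VBL) {E : VB V.X} (hE : IsVB n E) {N : ℕ} {P : Matrix (Fin N) (Fin N) (Om V)}
    (h : Rep E P) : ∃ p, (∀ x, SmAt n p x) ∧ (∀ x, p x * p x = p x) ∧ IsM p P := by
  obtain ⟨a, b, ha, hb, e, hP⟩ := h
  refine ⟨_, sm_of_hom (v.comp hE hb ha), fun x => ?_, hP⟩
  exact (LinearMap.toMatrix'_comp _ _).symm.trans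
    (congrArg tM (LinearMap.ext fun w => congrArg (a x) (e x _)))

theorem Rep.iso (v : VBL) (t : TRG) {E : VB V.X} (hE : IsVB n E) {N N' : ℕ}
    {P : Matrix (Fin N) (Fin N) (Om V)} {P' : Matrix (Fin N') (Fin N') (Om V)} (h : Rep E P)
    (h' : Rep E P') (k : ℕ) : Ex (ch k P - ch k P') := by
  obtain ⟨a, b, ha, hb, e, hP⟩ := h
  obtain ⟨a', b', ha', hb', e', hP'⟩ := h'
  have e1 := fun x => (LinearMap.toMatrix'_comp ((a x).comp (b' x)) ((a' x).comp (b x))).symm.trans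
    (congrArg tM (LinearMap.ext fun w => congrArg (a x) (e' x _) : _ = (a x).comp (b x)))
  have e2 := fun x => (LinearMap.toMatrix'_comp ((a' x).comp (b x)) ((a x).comp (b' x))).symm.trans
    (congrArg tM (LinearMap.ext fun w => congrArg (a' x) (e x _) : _ = (a' x).comp (b' x)))
  refine ex_iso t (sm_of_hom (v.comp hE hb ha')) (sm_of_hom (v.comp hE hb' ha)) (fun x => ?_)
    (fun x => ?_) (p := fun x => tM ((a x).comp (b x))) (q := fun x => tM ((a' x).comp (b' x)))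
    hP hP' e1 e2 k
  · exact (congrArg (· * _) (e2 x)).trans ((LinearMap.toMatrix'_comp _ _).symm.trans
      (congrArg tM (LinearMap.ext fun w => congrArg (a' x) (e' x _))))
  · exact (congrArg (· * _) (e1 x)).trans ((LinearMap.toMatrix'_comp _ _).symm.trans
      (congrArg tM (LinearMap.ext fun w => congrArg (a x) (e x _))))

theorem pse_of' (v : VBL) (t : TRG) : PSE := by
  intro n V E N P k hE hP
  obtain ⟨p, p1, p2, p3⟩ := hP.fn v hE
  have I := p3.idem p2
  set c : ℂ := (Complex.I / (2 * Real.pi)) ^ k with hc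
  have h : ∃ u : Zc V, IsPs E k (fm u) := by
    have c1 : cjO (c • ch k P) = c • ch k (P.map cjO)ᵀ := by
      have I' : Idem (P.map cjO) := (p3.ct.idem fun x => by
        rw [← Matrix.conjTranspose_mul, p2]).transpose
      have s : star c = (-1) ^ k * c := by
        rw [hc, star_pow, ← mul_pow]
        congr 1
        simp [neg_div]
      rw [cj_smul, cj_ch, P231.ChW.ch_transpose I', s, mul_comm, mul_smul]
      congr 1
      rw [Algebra.smul_def, map_pow, map_neg, map_one]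
    have d0 : dO (c • ch k P) = 0 := by
      rw [map_smul, show dO (ch k P) = 0 from I.d_ch k, smul_zero]
    have s0 : sgO (c • ch k P) = c • ch k P := by
      rw [map_smul, show sgO (ch k P) = _ from P231.ChW.ev_ch I k]
    have s1 : sgO (cjO (c • ch k P)) = cjO (c • ch k P) := by
      rw [c1, map_smul, show sgO (ch k (P.map cjO)ᵀ) = _ from P231.ChW.ev_ch (p3.ct.idem fun x => by
        rw [← Matrix.conjTranspose_mul, p2]) k]
    refine ⟨mkZ ((2⁻¹ : ℂ) • (c • ch k P + cjO (c • ch k P))) ⟨?_, ?_, ?_⟩, N, P, hP, ?_⟩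
    · rw [map_smul, map_add, ← cj_d, d0, map_zero, add_zero, smul_zero]
    · rw [map_smul, map_add, s0, s1]
    · rw [cj_smul, map_add, cj_cj, add_comm]
      simp
    · have := (ex_adj t p1 p2 p3 k).smul (-2⁻¹ * c)
      show Ex ((2⁻¹ : ℂ) • (c • ch k P + cjO (c • ch k P)) - c • ch k P)
      rw [c1]
      refine (congrArg Ex ?_).mp this
      module
  obtain ⟨N', P', hP', ex⟩ := h.choose_spec
  obtain ⟨p', -, -, q3⟩ := hP'.fn v hE
  refine ⟨(good_dg (k + k)).res h.choose, ?_, ?_⟩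
  · rw [psH, dif_pos h]
    exact pr_mk k rfl
  · have e1 := (good_dg (k + k)).b _ ex
    rw [map_sub, map_smul, dgO_ch fun i j => (q3 i j).dg0] at e1
    have e2 := e1.add ((hP'.iso v t hE hP k).smul c)
    rw [smul_sub, ← hc, sub_add_sub_cancel] at e2
    exact e2

theorem pse_of (v : VBL) (_ : REP) (t : TRG) : PSE := pse_of' v t

end Vale.Agent.P280Z.Co
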