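import Vale.Agent.P280Z.Co.Fn

/-!
# P280Z: every bundle is the image of an idempotent matrix
-/

open scoped Manifold ContDiff Topology Matrix
open Set Filter
open Vale.Agent.P272.K Vale.Agent.P272.K.C2 Vale.Agent.P281Z Vale.Agent.P281Z.Hg

noncomputable section

namespace Vale.Agent.P280Z.Co

namespace RepH

variable {n : ℕ} {V : Mf n} {E : VB V.X}

open Classical in
/-- the coordinates in a frame -/
def inv (E : VB V.X) (i : E.ι) (x : V.X) : E.A x →ₗ[ℂ] (Fin E.r → ℂ) :=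
  if h : Function.Bijective (E.b i x) then (LinearEquiv.ofBijective _ h).symm.toLinearMap else 0

theorem inv_b (hE : IsVB n E) {i : E.ι} {x : V.X} (h : x ∈ E.U i) (w : Fin E.r → ℂ) :
    inv E i x (E.b i x w) = w := by
  rw [inv, dif_pos (hE.bij i x h)]
  exact (LinearEquiv.ofBijective _ (hE.bij i x h)).symm_apply_apply w

theorem b_inv (hE : IsVB n E) {i : E.ι} {x : V.X} (h : x ∈ E.U i) (w : E.A x) :
    E.b i x (inv E i x w) = w := by
  rw [inv, dif_pos (hE.bij i x h)]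
  exact (LinearEquiv.ofBijective _ (hE.bij i x h)).apply_symm_apply w

theorem tr (hE : IsVB n E) {i j : E.ι} {x : V.X} (hj : x ∈ E.U j) {ρ : V.X → ℝ}
    (hρ : tsupport ρ ⊆ E.U i) : ∃ m m' : V.X → Matrix (Fin E.r) (Fin E.r) ℂ, SmAt n m x ∧
      SmAt n m' x ∧ ∀ᶠ y in 𝓝 x, ρ y ≠ 0 → (∀ w, E.b j y w = E.b i y (m y *ᵥ w)) ∧
        ∀ w, E.b i y w = E.b j y (m' y *ᵥ w) := by
  by_cases hi : x ∈ E.U i
  · obtain ⟨m, h1, h2⟩ := hE.sm i j x hi hj
    obtain ⟨m', k1, k2⟩ := hE.sm j i x hj hi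
    refine ⟨m, m', h1, k1, ?_⟩
    filter_upwards [h2, k2] with y a b _
    exact ⟨fun w => LinearMap.congr_fun a w, fun w => LinearMap.congr_fun b w⟩
  · refine ⟨0, 0, fun _ _ _ _ => contDiffAt_const, fun _ _ _ _ => contDiffAt_const, ?_⟩
    filter_upwards [(isClosed_tsupport ρ).isOpen_compl.mem_nhds fun c => hi (hρ c)] with y a b
    exact absurd (image_eq_zero_of_notMem_tsupport a) b

theorem pou (hE : IsVB n E) : ∃ (t : Finset E.ι) (ρ τ : t → V.X → ℝ),
    (∀ i, SmoothFn (n := n) (ρ i)) ∧ (∀ i, SmoothFn (n := n) (τ i)) ∧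
    (∀ i, tsupport (ρ i) ⊆ E.U i) ∧ (∀ i x, ρ i x = 0 → τ i x = 0) ∧
    ∀ x, ∑ i, ρ i x * τ i x = 1 := by
  obtain ⟨t, ht⟩ := isCompact_univ.elim_finite_subcover E.U hE.isOpen
    fun x _ => mem_iUnion.2 (hE.cover x)
  have := INT.isManifold_real n V.X
  obtain ⟨f, hf⟩ := SmoothPartitionOfUnity.exists_isSubordinate 𝓘(ℝ, Cm n) isClosed_univ
    (fun i : t => E.U i) (fun i => hE.isOpen i) fun x h => by
      obtain ⟨y, hy, h'⟩ := mem_iUnion₂.1 (ht h)
      exact mem_iUnion.2 ⟨⟨y, hy⟩, h'⟩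
  have s : ∀ i, SmoothFn (n := n) (f i) := fun i => INT.smoothFn_of_contMDiff (f i).contMDiff
  have p : ∀ x, ∑ i, f i x * f i x ≠ 0 := fun x c => by
    have h := f.sum_eq_one (mem_univ x)
    rw [finsum_eq_sum_of_fintype, Finset.sum_eq_zero fun i hi => mul_self_eq_zero.1
      ((Finset.sum_eq_zero_iff_of_nonneg fun i _ => mul_self_nonneg _).1 c i hi)] at h
    exact zero_ne_one h
  refine ⟨t, fun i => f i, fun i x => f i x / ∑ i, f i x * f i x, s, fun i e x he => ?_, hf,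
    fun i x h => by simp only [h, zero_div], fun x => ?_⟩
  · exact (s i e x he).div (ContDiffAt.sum fun j _ => (s j e x he).mul (s j e x he)) (p _)
  · simp only [← mul_div_assoc]
    rw [← Finset.sum_div, div_self (p x)]

end RepH

open RepH in
theorem rep_of (v : VBL) : REP := by
  refine ⟨fun V a h => ex_fn a fun x e he => h x e he () (), fun {n} V E hE => ?_⟩
  obtain ⟨t, ρ, τ, s1, s2, s3, s4, s5⟩ := pou hE
  let q := Fintype.equivFin (t × Fin E.r)
  let a : ∀ x, E.A x →ₗ[ℂ] (Fin (Fintype.card (t × Fin E.r)) → ℂ) := fun x => LinearMap.pi fun l =>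
    (τ (q.symm l).1 x : ℂ) • (LinearMap.proj (q.symm l).2).comp (inv E (q.symm l).1 x)
  let b : ∀ x, (Fin (Fintype.card (t × Fin E.r)) → ℂ) →ₗ[ℂ] E.A x := fun x =>
    ∑ i : t, (ρ i x : ℂ) • (E.b i x).comp (LinearMap.funLeft ℂ ℂ fun s => q (i, s))
  have mem : ∀ (i : t) x, ρ i x ≠ 0 → x ∈ E.U i := fun i x h => s3 i (subset_tsupport _ h)
  have ea : ∀ x w l, a x w l = τ (q.symm l).1 x * inv E (q.symm l).1 x w (q.symm l).2 :=
    fun _ _ _ => rfl
  have eb : ∀ x w, b x w = ∑ i : t, (ρ i x : ℂ) • E.b i x fun s => w (q (i, s)) := fun x w => by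
    simp only [b, LinearMap.sum_apply]
    rfl
  have re : ∀ {f : V.X → ℝ}, SmoothFn (n := n) f → ∀ (e : Chart n V.X) x, At e x →
      ContDiffAt ℝ ∞ (fun z => (f (e.symm z) : ℂ)) (e x) := fun h e x he =>
    Complex.ofRealCLM.contDiff.contDiffAt.comp _ (h e x he)
  have ha : IsHom n E (VB.triv V.X _) a := fun x => by
    obtain ⟨j, hj⟩ := hE.cover x
    choose m m' h1 h2 h3 using fun i : t => tr hE hj (s3 i)
    refine ⟨j, (), hj, mem_univ _, fun y => Matrix.of fun l s =>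
      τ (q.symm l).1 y * m (q.symm l).1 y (q.symm l).2 s,
      fun e he l s => (re (s2 _) e x he).mul (h1 _ e he _ s), ?_⟩
    filter_upwards [eventually_all.2 h3] with y hy
    refine LinearMap.ext fun w => funext fun l => ?_
    show a y (E.b j y w) l = ∑ s, τ (q.symm l).1 y * m (q.symm l).1 y (q.symm l).2 s * w s
    rw [ea]
    by_cases h0 : ρ (q.symm l).1 y = 0
    · simp [s4 _ _ h0]
    · rw [(hy _ h0).1, inv_b hE (mem _ _ h0), Matrix.mulVec, dotProduct, Finset.mul_sum]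
      simp only [mul_assoc]
  have hb : IsHom n (VB.triv V.X _) E b := fun x => by
    obtain ⟨j, hj⟩ := hE.cover x
    choose m m' h1 h2 h3 using fun i : t => tr hE hj (s3 i)
    refine ⟨(), j, mem_univ _, hj, fun y => Matrix.of fun s l =>
      ρ (q.symm l).1 y * m' (q.symm l).1 y s (q.symm l).2,
      fun e he s l => (re (s1 _) e x he).mul (h2 _ e he s _), ?_⟩
    filter_upwards [eventually_all.2 h3] with y hy
    refine LinearMap.ext fun w : Fin (Fintype.card (t × Fin E.r)) → ℂ => ?_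
    show b y w = E.b j y fun s => ∑ l, ρ (q.symm l).1 y * m' (q.symm l).1 y s (q.symm l).2 * w l
    have e : (fun s => ∑ l, ρ (q.symm l).1 y * m' (q.symm l).1 y s (q.symm l).2 * w l) =
        ∑ i : t, (ρ i y : ℂ) • (m' i y *ᵥ fun s => w (q (i, s))) := by
      funext s
      rw [← q.sum_comp, Fintype.sum_prod_type, Finset.sum_apply]
      refine Finset.sum_congr rfl fun i _ => ?_
      simp only [Equiv.symm_apply_apply, Pi.smul_apply, smul_eq_mul, Matrix.mulVec, dotProduct,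
        Finset.mul_sum, mul_assoc]
    refine (eb y w).trans ?_
    rw [e, map_sum]
    refine Finset.sum_congr rfl fun i _ => ?_
    rw [map_smul]
    by_cases h0 : ρ i y = 0
    · simp [h0]
    · rw [(hy _ h0).2]
  obtain ⟨P, hP⟩ := ex_M _ (sm_of_hom (v.comp hE hb ha))
  refine ⟨_, P, a, b, ha, hb, fun x w => ?_, hP⟩
  refine (eb x (a x w)).trans ?_
  refine Eq.trans (Finset.sum_congr rfl fun i _ => ?_ : _ = ∑ i : t, ((ρ i x * τ i x : ℝ) : ℂ) • w) ?_
  · by_cases h0 : ρ i x = 0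
    · simp [h0]
    · have : (fun s => a x w (q (i, s))) = (τ i x : ℂ) • inv E i x w := by
        funext s
        rw [ea, Equiv.symm_apply_apply]
        rfl
      rw [this, map_smul, b_inv hE (mem _ _ h0), smul_smul, Complex.ofReal_mul]
  · rw [← Finset.sum_smul, ← Complex.ofReal_sum, s5, Complex.ofReal_one, one_smul]

end Vale.Agent.P280Z.Co
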