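import Vale.Agent.P231.ChW.Cx

/-!
# P280Z: transgression of Chern character forms (pure algebra)
-/

open Matrix Polynomial
open Vale.Agent.P231.ChW

noncomputable section

namespace Vale.Agent.P280Z.Co.Trg

/-- elements `x + ε y` with `ε` odd of square zero -/
@[ext] structure Cy (B : Type*) where
  /-- the part without `ε` -/
  x : B
  /-- the coefficient of `ε` -/
  y : B

section cy

variable {B : Type*} [Ring B] [GDA B]

instance : Zero (Cy B) := ⟨⟨0, 0⟩⟩
instance : One (Cy B) := ⟨⟨1, 0⟩⟩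
instance : Add (Cy B) := ⟨fun z w => ⟨z.x + w.x, z.y + w.y⟩⟩
instance : Neg (Cy B) := ⟨fun z => ⟨-z.x, -z.y⟩⟩
instance : Mul (Cy B) := ⟨fun z w => ⟨z.x * w.x, GDA.sg z.x * w.y + z.y * w.x⟩⟩

omit [GDA B] in
@[simp] theorem zero_x : (0 : Cy B).x = 0 := rfl
omit [GDA B] in
@[simp] theorem zero_y : (0 : Cy B).y = 0 := rfl
omit [GDA B] in
@[simp] theorem one_x : (1 : Cy B).x = 1 := rfl
omit [GDA B] in
@[simp] theorem one_y : (1 : Cy B).y = 0 := rfl
omit [GDA B] in
@[simp] theorem add_x (z w : Cy B) : (z + w).x = z.x + w.x := rfl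
omit [GDA B] in
@[simp] theorem add_y (z w : Cy B) : (z + w).y = z.y + w.y := rfl
omit [GDA B] in
@[simp] theorem neg_x (z : Cy B) : (-z).x = -z.x := rfl
omit [GDA B] in
@[simp] theorem neg_y (z : Cy B) : (-z).y = -z.y := rfl
@[simp] theorem mul_x (z w : Cy B) : (z * w).x = z.x * w.x := rfl
@[simp] theorem mul_y (z w : Cy B) : (z * w).y = GDA.sg z.x * w.y + z.y * w.x := rfl

instance : Ring (Cy B) := Ring.ofMinimalAxioms
  (fun a b c => by ext <;> simp [add_assoc]) (fun a => by ext <;> simp)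
  (fun a => by ext <;> simp) (fun a b c => by ext <;> simp <;> noncomm_ring)
  (fun a => by ext <;> simp) (fun a => by ext <;> simp)
  (fun a b c => by ext <;> simp <;> noncomm_ring) (fun a b c => by ext <;> simp <;> noncomm_ring)

/-- the differential `d + ε D` -/
@[reducible] def cyG (D : B →+ B) (h1 : ∀ a b, D (a * b) = D a * b + a * D b)
    (h2 : ∀ a, D (GDA.d a) = GDA.d (D a)) (h3 : ∀ a, D (GDA.sg a) = GDA.sg (D a)) :
    GDA (Cy B) where
  d := AddMonoidHom.mk' (fun z => ⟨GDA.d z.x, D z.x - GDA.d z.y⟩) fun z w => by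
    ext
    · simp
    · simp only [add_x, add_y, map_add]
      abel
  sg :=
    { toFun := fun z => ⟨GDA.sg z.x, -GDA.sg z.y⟩
      map_zero' := by ext <;> simp
      map_one' := by ext <;> simp
      map_add' := fun z w => by ext <;> simp [add_comm]
      map_mul' := fun z w => by ext <;> simp [add_comm] }
  sg_sg z := by ext <;> simp [GDA.sg_sg]
  d_mul z w := by
    ext
    · simp [GDA.d_mul]
    · simp only [AddMonoidHom.mk'_apply, mul_x, mul_y, add_y, RingHom.coe_mk, MonoidHom.coe_mk,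
        OneHom.coe_mk, h1, map_add, GDA.d_mul, GDA.d_sg, GDA.sg_sg]
      noncomm_ring
  d_sg z := by
    ext
    · simp [GDA.d_sg]
    · simp [GDA.d_sg, h3]
  d_d z := by
    ext
    · simp [GDA.d_d]
    · simp [GDA.d_d, h2]
  even z w h := by
    have k1 : GDA.sg z.x = z.x := congrArg Cy.x h
    have k2 : -GDA.sg z.y = z.y := congrArg Cy.y h
    ext
    · exact GDA.even _ _ k1
    · rw [mul_y, mul_y, k1, GDA.even _ _ k1, GDA.odd z.y w.x (neg_eq_iff_eq_neg.1 k2), add_comm]
  odd z w h := by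
    have k1 : GDA.sg z.x = -z.x := congrArg Cy.x h
    have k2 : -GDA.sg z.y = -z.y := congrArg Cy.y h
    ext
    · exact GDA.odd _ _ k1
    · simp only [mul_y, RingHom.coe_mk, MonoidHom.coe_mk, OneHom.coe_mk, GDA.sg_sg, k1, neg_mul]
      rw [GDA.odd z.x w.y k1, GDA.even z.y w.x (neg_inj.1 k2), add_comm]

/-- the part without `ε` -/
def cyX : Cy B →+* B where
  toFun := Cy.x
  map_zero' := rfl
  map_one' := rfl
  map_add' _ _ := rfl
  map_mul' _ _ := rfl

/-- the inclusion -/
def cyI : B →+* Cy B where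
  toFun a := ⟨a, 0⟩
  map_zero' := rfl
  map_one' := rfl
  map_add' a b := by ext <;> simp
  map_mul' a b := by ext <;> simp

/-- the variation of a Chern character form is exact -/
theorem der_ch {n : Type*} [Fintype n] [DecidableEq n] (D : B →+ B)
    (h1 : ∀ a b, D (a * b) = D a * b + a * D b) (h2 : ∀ a, D (GDA.d a) = GDA.d (D a))
    (h3 : ∀ a, D (GDA.sg a) = GDA.sg (D a)) {P : Matrix n n B} (hP : Idem P) (k : ℕ) :
    ∃ v, D (ch k P) = GDA.d v := by
  let : GDA (Cy B) := cyG D h1 h2 h3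
  have hQ : Idem (P.map (cyI : B →+* Cy B)) := by
    refine ⟨?_, by rw [← Matrix.map_mul, hP.idem]⟩
    unfold Ev
    ext i j
    · exact hP.ev.apply i j
    · exact (congrArg Neg.neg (map_zero (GDA.sg : B →+* B))).trans neg_zero
  have e1 : (ch k (P.map (cyI : B →+* Cy B))).x = ch k P :=
    map_ch (cyX : Cy B →+* B) (fun _ => rfl) k _
  have e2 : D (ch k (P.map (cyI : B →+* Cy B))).x - GDA.d (ch k (P.map (cyI : B →+* Cy B))).y = 0 :=
    congrArg Cy.y (hQ.d_ch k)
  exact ⟨_, e1 ▸ sub_eq_zero.1 e2⟩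

end cy

section poly

variable {A : Type*} [Ring A] [GDA A]

/-- the differential of a polynomial -/
def dP (p : A[X]) : A[X] := p.sum fun n a => monomial n (GDA.d a)

theorem coeff_dP (p : A[X]) (n : ℕ) : (dP p).coeff n = GDA.d (p.coeff n) := by
  rw [dP, Polynomial.sum_def, finsetSum_coeff]
  simp only [coeff_monomial]
  rw [Finset.sum_ite_eq']
  split_ifs with h
  · rfl
  · rw [notMem_support_iff.1 h, map_zero]

instance : GDA A[X] where
  d := AddMonoidHom.mk' dP fun p q => by
    ext n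
    rw [coeff_add, coeff_dP, coeff_dP, coeff_dP, coeff_add, map_add]
  sg := mapRingHom GDA.sg
  sg_sg p := by
    ext n
    simp [GDA.sg_sg]
  d_mul p q := by
    ext n
    simp only [AddMonoidHom.mk'_apply, coeff_dP, coeff_add, coeff_mul, map_sum, GDA.d_mul,
      coe_mapRingHom, coeff_map, Finset.sum_add_distrib]
  d_sg p := by
    ext n
    simp [coeff_dP, GDA.d_sg]
  d_d p := by
    ext n
    simp [coeff_dP, GDA.d_d]
  even p q h := by
    ext n
    rw [coeff_mul, coeff_mul, ← Finset.Nat.sum_antidiagonal_swap]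
    refine Finset.sum_congr rfl fun x _ => GDA.even _ _ ?_
    simpa using congrArg (fun r : A[X] => r.coeff x.2) h
  odd p q h := by
    ext n
    rw [coeff_mul, coeff_mul, ← Finset.Nat.sum_antidiagonal_swap]
    refine Finset.sum_congr rfl fun x _ => ?_
    rw [coe_mapRingHom, coeff_map]
    refine GDA.odd _ _ ?_
    simpa using congrArg (fun r : A[X] => r.coeff x.2) h

theorem coeff_d (p : A[X]) (n : ℕ) : (GDA.d p).coeff n = GDA.d (p.coeff n) := coeff_dP p n

theorem coeff_sg (p : A[X]) (n : ℕ) : (GDA.sg p).coeff n = GDA.sg (p.coeff n) := coeff_map _ n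

theorem d_nat (a : A) (n : ℕ) : GDA.d (a * (n + 1)) = GDA.d a * (n + 1) := by
  rw [← Nat.cast_succ, ← nsmul_eq_mul', ← nsmul_eq_mul', map_nsmul]

theorem der_d (p : A[X]) : derivative (GDA.d p) = GDA.d (derivative p) := by
  ext n
  rw [coeff_derivative, coeff_d, coeff_d, coeff_derivative, d_nat]

theorem der_sg (p : A[X]) : derivative (GDA.sg p) = GDA.sg (derivative p) := by
  ext n
  rw [coeff_derivative, coeff_sg, coeff_sg, coeff_derivative, map_mul, map_add, map_natCast,
    map_one]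

/-- the value at one -/
def ev1 : A[X] →+* A := eval₂RingHom' (RingHom.id A) 1 fun _ => Commute.one_right _

omit [GDA A] in
theorem ev1_eq (p : A[X]) {N : ℕ} (h : p.natDegree < N) :
    ev1 p = ∑ i ∈ Finset.range N, p.coeff i := by
  have := eval₂_eq_sum_range' (RingHom.id A) h 1
  simp only [RingHom.id_apply, one_pow, mul_one] at this
  exact this

theorem ev1_d (p : A[X]) : ev1 (GDA.d p) = GDA.d (ev1 p) := by
  rw [ev1_eq p (N := max p.natDegree (GDA.d p).natDegree + 1) (by omega),
    ev1_eq _ (N := max p.natDegree (GDA.d p).natDegree + 1) (by omega), map_sum]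
  exact Finset.sum_congr rfl fun i _ => coeff_d p i

variable [Algebra ℂ A] {n m : Type*} [Fintype n] [DecidableEq n] [Fintype m] [DecidableEq m]

/-- homotopy invariance for polynomial families -/
theorem ch_poly (hd : ∀ (c : ℂ) (a : A), GDA.d (c • a) = c • GDA.d a) {P : Matrix n n A[X]}
    (hP : Idem P) (k : ℕ) :
    ∃ t : A, GDA.d t = ch k (P.map ev1) - ch k (P.map constantCoeff) := by
  obtain ⟨v, hv⟩ := der_ch (derivative (R := A)).toAddMonoidHom (fun a b => derivative_mul)
    der_d der_sg hP k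
  have hv' : derivative (ch k P) = GDA.d v := hv
  rw [← map_ch ev1 ev1_d, ← map_ch constantCoeff fun a => coeff_d a 0,
    ev1_eq _ (Nat.lt_succ_self _), Finset.sum_range_succ', constantCoeff_apply, add_sub_cancel_right]
  refine ⟨∑ i ∈ Finset.range (ch k P).natDegree, ((i : ℂ) + 1)⁻¹ • v.coeff i, ?_⟩
  rw [map_sum]
  refine Finset.sum_congr rfl fun i _ => ?_
  have e : ((i : A) + 1) = algebraMap ℂ A ((i : ℂ) + 1) := by
    rw [map_add, map_natCast, map_one]
  rw [hd, ← coeff_d, ← hv', coeff_derivative, e, ← Algebra.commutes, ← Algebra.smul_def, smul_smul,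
    inv_mul_cancel₀ (Nat.cast_add_one_ne_zero i), one_smul]

/-- two idempotents whose difference has square zero -/
theorem ch_lin (hd : ∀ (c : ℂ) (a : A), GDA.d (c • a) = c • GDA.d a) {E F : Matrix n n A}
    (hE : Idem E) (hF : Idem F) (h : E * F + F * E = E + F) (k : ℕ) :
    ∃ t : A, GDA.d t = ch k F - ch k E := by
  have hN : Ev (F - E) := hF.ev.sub hE.ev
  have k1 : E * (F - E) + (F - E) * E = F - E := by
    rw [mul_sub, sub_mul, hE.idem, sub_add_sub_comm, h]
    abel
  have k2 : (F - E) * (F - E) = 0 := by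
    rw [mul_sub, sub_mul, sub_mul, hE.idem, hF.idem, sub_sub, ← add_sub_assoc, h]
    abel
  generalize hN' : F - E = N at hN k1 k2
  have hS : ∀ M : Matrix n n A[X], Matrix.scalar n X * M = M * Matrix.scalar n X := fun M =>
    (Matrix.scalar_commute X (fun r => commute_X r) M).eq
  have hP : Idem (E.map C + N.map C * Matrix.scalar n (X : A[X])) := by
    constructor
    · unfold Ev
      ext i j : 2
      simp only [sM_apply, Matrix.add_apply, Matrix.scalar_apply, Matrix.mul_diagonal,
        Matrix.map_apply, map_add, map_mul]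
      have q : ∀ a : A, GDA.sg (C a : A[X]) = C (GDA.sg a) := fun a => map_C _
      have q' : GDA.sg (X : A[X]) = X := map_X _
      rw [q, q, q', hE.ev.apply, hN.apply]
    · generalize Matrix.scalar n (X : A[X]) = S at hS
      have q1 : E.map (C : A →+* A[X]) * E.map C = E.map C := by
        rw [← Matrix.map_mul, hE.idem]
      have q2 : E.map (C : A →+* A[X]) * N.map C + N.map C * E.map C = N.map C := by
        rw [← Matrix.map_mul, ← Matrix.map_mul, ← Matrix.map_add _ (map_add C), k1]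
      have q3 : N.map (C : A →+* A[X]) * N.map C = 0 := by
        rw [← Matrix.map_mul, k2, Matrix.map_zero _ (map_zero C)]
      rw [add_mul, mul_add, mul_add, q1, mul_assoc _ S, hS, mul_assoc _ S, hS, ← mul_assoc,
        ← mul_assoc, ← mul_assoc, ← mul_assoc, q3, zero_mul, zero_mul, add_zero, add_assoc,
        ← add_mul, q2]
  obtain ⟨t, ht⟩ := ch_poly hd hP k
  refine ⟨t, ht.trans ?_⟩
  have e1 : (E.map C + N.map C * Matrix.scalar n (X : A[X])).map ev1 = F := by
    ext i j
    have := congrFun (congrFun hN' i) j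
    simp [ev1, ← this]
  have e2 : (E.map C + N.map C * Matrix.scalar n (X : A[X])).map constantCoeff = E := by
    ext i j
    simp
  rw [e1, e2]

/-- isomorphic idempotents -/
theorem ch_iso (hd : ∀ (c : ℂ) (a : A), GDA.d (c • a) = c • GDA.d a) {a : Matrix m n A}
    {b : Matrix n m A} (ha : Ev a) (hb : Ev b) (h1 : a * b * a = a) (h2 : b * a * b = b) (k : ℕ) :
    ∃ t : A, GDA.d t = ch k (b * a) - ch k (a * b) := by
  have h1' : a * (b * a) = a := by rw [← Matrix.mul_assoc, h1]
  have h2' : b * (a * b) = b := by rw [← Matrix.mul_assoc, h2]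
  have p1 : b * a * (b * a) = b * a := by rw [Matrix.mul_assoc, h1']
  have p2 : a * b * (a * b) = a * b := by rw [Matrix.mul_assoc, h2']
  have i0 : Idem (fromBlocks (b * a) 0 0 (0 : Matrix m m A)) :=
    ⟨(hb.mul ha).fromBlocks Ev.zero Ev.zero Ev.zero, by simp [fromBlocks_multiply, p1]⟩
  have i1 : Idem (fromBlocks (b * a) 0 a (0 : Matrix m m A)) :=
    ⟨(hb.mul ha).fromBlocks Ev.zero ha Ev.zero, by simp [fromBlocks_multiply, p1, h1']⟩
  have i2 : Idem (fromBlocks (0 : Matrix n n A) b 0 (a * b)) :=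
    ⟨Ev.zero.fromBlocks hb Ev.zero (ha.mul hb), by simp [fromBlocks_multiply, p2, h2']⟩
  have i3 : Idem (fromBlocks (0 : Matrix n n A) 0 0 (a * b)) :=
    ⟨Ev.zero.fromBlocks Ev.zero Ev.zero (ha.mul hb), by simp [fromBlocks_multiply, p2]⟩
  obtain ⟨t1, e1⟩ := ch_lin hd i1 i0 (by simp [fromBlocks_multiply, fromBlocks_add, p1, h1']) k
  obtain ⟨t2, e2⟩ := ch_lin hd i2 i1 (by simp [fromBlocks_multiply, fromBlocks_add, h1, h2]) k
  obtain ⟨t3, e3⟩ := ch_lin hd i3 i2 (by simp [fromBlocks_multiply, fromBlocks_add, p2, h2']) k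
  rw [ch_fromBlocks, ch_zero, add_zero] at e1
  rw [ch_fromBlocks, ch_zero, zero_add] at e3
  refine ⟨t1 + t2 + t3, ?_⟩
  rw [map_add, map_add, e1, e2, e3]
  abel

end poly

end Vale.Agent.P280Z.Co.Trg
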