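import Vale.Agent.P280Z.Co.Sk
import Vale.Agent.P280Z.Co.TrgA

/-!
# P280Z: row TRG
-/

namespace Vale.Agent.P280Z.Co

theorem trg : TRG := fun _ _ _ _ hd _ _ _ _ _ _ _ _ _ ha hb h1 h2 k => Trg.ch_iso hd ha hb h1 h2 k

end Vale.Agent.P280Z.Co
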