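import Vale.Agent.P280Z.Co.Rg
import Vale.Agent.P280Z.Co.Puh
import Vale.Agent.P280Z.Co.C1
import Vale.Agent.P280Z.Co.Pl
import Vale.Agent.P280Z.Co.Eff
import Vale.Agent.P280Z.Co.Bez
import Vale.Agent.P280Z.Co.Ddb
import Vale.Agent.P280Z.Co.PsC
import Vale.Agent.P280Z.Co.Ho
import Vale.Agent.P280Z.Co.Trg
import Vale.Agent.P280Z.Co.Rep
import Vale.Agent.P280Z.Co.Pse
import Vale.Agent.P280Z.Co.Ln1
import Vale.Agent.P280Z.Co.Ch
import Vale.Agent.P280Z.Co.Vbl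
import Vale.Agent.P280Z.Co.Fp

/-!
# P280Z, block Co: the theory satisfies all the requirements
-/

namespace Vale.Agent.P280Z.Co

theorem ct_ok : ct.OK :=
  have r : REP := rep_of vbl
  have p : PSE := pse_of vbl r trg
  ⟨rg, pu, c1_of c1e, pl_of c1e, eff_of c1e, bez_of c1e, kp_of c1e ddb, po_ct, tp_of, ho,
    ch_of vbl r trg p (ln1_of vbl c1e r p) (c1_of c1e)⟩

theorem coh : COH := ⟨ct, ct_ok⟩

end Vale.Agent.P280Z.Co
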