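import Vale.Agent.P280Z.Co.Defs
import Vale.Agent.P281Z.Mf.Api
import Vale.Agent.P272.K.C2.Mat

/-!
# P280Z: the standard bundles (row VBL)
-/

open scoped Manifold ContDiff Topology Matrix
open Set Filter Function
open Vale.Agent.P272.K Vale.Agent.P285.H281.FD Vale.Agent.P281Z
open Vale.Agent.P272.K.C2 (MC)
open Vale.Agent.P277Z (at_chart)

set_option linter.unusedSectionVars false

noncomputable section

namespace Vale.Agent.P280Z

namespace VblH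

section alg

variable {α β γ : Type} [Fintype α] [DecidableEq α] [Fintype β] [DecidableEq β]

theorem ex_left {a : Matrix α β ℂ} (h : Injective (Matrix.toLin' a)) :
    ∃ R : Matrix β α ℂ, R * a = 1 := by
  obtain ⟨g, hg⟩ := (Matrix.toLin' a).exists_leftInverse_of_injective (LinearMap.ker_eq_bot.2 h)
  refine ⟨LinearMap.toMatrix' g, Matrix.toLin'.injective ?_⟩
  rw [Matrix.toLin'_mul, Matrix.toLin'_toMatrix', hg, Matrix.toLin'_one]

theorem ex_right {a : Matrix α β ℂ} (h : Surjective (Matrix.toLin' a)) :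
    ∃ S : Matrix β α ℂ, a * S = 1 := by
  obtain ⟨g, hg⟩ := (Matrix.toLin' a).exists_rightInverse_of_surjective
    (LinearMap.range_eq_top.2 h)
  refine ⟨LinearMap.toMatrix' g, Matrix.toLin'.injective ?_⟩
  rw [Matrix.toLin'_mul, Matrix.toLin'_toMatrix', hg, Matrix.toLin'_one]

theorem ex_ker {p q r : ℕ} {a : Matrix (Fin p) (Fin q) ℂ} (h : Surjective (Matrix.toLin' a))
    (hr : r + p = q) : ∃ K : Matrix (Fin q) (Fin r) ℂ, (∀ w, K *ᵥ w = 0 → w = 0) ∧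
      ∀ v, a *ᵥ v = 0 ↔ ∃ w, K *ᵥ w = v := by
  have h1 := (Matrix.toLin' a).finrank_range_add_finrank_ker
  rw [LinearMap.range_eq_top.2 h, finrank_top, Module.finrank_fin_fun, Module.finrank_fin_fun] at h1
  let T := LinearEquiv.ofFinrankEq (R := ℂ) (Fin r → ℂ) (LinearMap.ker (Matrix.toLin' a))
    (by rw [Module.finrank_fin_fun]; omega)
  have h2 : ∀ w, LinearMap.toMatrix' ((LinearMap.ker (Matrix.toLin' a)).subtype ∘ₗ
      (T : (Fin r → ℂ) →ₗ[ℂ] _)) *ᵥ w = (T w).1 := fun w => by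
    rw [← Matrix.toLin'_apply, Matrix.toLin'_toMatrix']
    rfl
  refine ⟨_, fun w hw => T.map_eq_zero_iff.1 (Subtype.ext ((h2 w).symm.trans hw)),
    fun v => ⟨fun hv => ⟨T.symm ⟨v, hv⟩, ?_⟩, ?_⟩⟩
  · rw [h2, T.apply_symm_apply]
  · rintro ⟨w, rfl⟩
    rw [h2]
    exact (T w).2

/-- a basis of the kernel of `a` -/
def kb [Fintype γ] (S : Matrix β α ℂ) (K : Matrix β γ ℂ) (a : Matrix α β ℂ) : Matrix β γ ℂ :=
  K - S * (a * S)⁻¹ * a * K

theorem kb_spec [Fintype γ] {S : Matrix β α ℂ} {K : Matrix β γ ℂ} {a a₀ : Matrix α β ℂ}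
    (hS : a₀ * S = 1) (h1 : ∀ w, K *ᵥ w = 0 → w = 0) (h2 : ∀ v, a₀ *ᵥ v = 0 ↔ ∃ w, K *ᵥ w = v)
    (h : (a * S).det ≠ 0) : (∀ w, kb S K a *ᵥ w = 0 → w = 0) ∧
      ∀ v, a *ᵥ v = 0 ↔ ∃ w, kb S K a *ᵥ w = v := by
  have k1 := Matrix.mul_nonsing_inv _ (Ne.isUnit h)
  have k2 := Matrix.nonsing_inv_mul _ (Ne.isUnit h)
  have k3 : ∀ w, kb S K a *ᵥ w = K *ᵥ w - S *ᵥ ((a * S)⁻¹ *ᵥ (a *ᵥ (K *ᵥ w))) := fun w => by
    simp only [kb, Matrix.sub_mulVec, Matrix.mulVec_mulVec, Matrix.mul_assoc]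
  have k4 : ∀ u, a₀ *ᵥ (S *ᵥ u) = u := fun u => by
    rw [Matrix.mulVec_mulVec, hS, Matrix.one_mulVec]
  refine ⟨fun w hw => h1 w ?_, fun v => ⟨fun hv => ?_, ?_⟩⟩
  · rw [k3, sub_eq_zero] at hw
    have k5 := (h2 _).2 ⟨w, rfl⟩
    rw [hw, k4] at k5
    rw [hw, k5, Matrix.mulVec_zero]
  · obtain ⟨w, hw⟩ := (h2 (v - S *ᵥ (a₀ *ᵥ v))).1 (by rw [Matrix.mulVec_sub, k4, sub_self])
    refine ⟨w, ?_⟩
    rw [k3, hw, Matrix.mulVec_sub, hv, zero_sub, Matrix.mulVec_mulVec _ a S, Matrix.mulVec_neg,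
      Matrix.mulVec_mulVec _ _ (a * S), k2, Matrix.one_mulVec, Matrix.mulVec_neg, sub_neg_eq_add,
      sub_add_cancel]
  · rintro ⟨w, rfl⟩
    rw [k3, Matrix.mulVec_sub, Matrix.mulVec_mulVec _ a S, Matrix.mulVec_mulVec _ (a * S), k1,
      Matrix.one_mulVec, sub_self]

end alg

variable {n p : ℕ} {X Y : Type} [TopologicalSpace X] [ChartedSpace (Cm n) X] [TopologicalSpace Y]
  [ChartedSpace (Cm p) Y] {x : X} {α β γ : Type}

theorem sm_const (a : Matrix α β ℂ) : SmAt n (fun _ : X => a) x := fun _ _ _ _ => contDiffAt_const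

theorem sm_mul [Fintype β] {a : X → Matrix α β ℂ} {b : X → Matrix β γ ℂ} (ha : SmAt n a x)
    (hb : SmAt n b x) : SmAt n (fun y => a y * b y) x :=
  fun e he => MC.mul (ha e he) (hb e he)

theorem sm_sub {a b : X → Matrix α β ℂ} (ha : SmAt n a x) (hb : SmAt n b x) :
    SmAt n (fun y => a y - b y) x := fun e he => MC.sub (ha e he) (hb e he)

theorem sm_inv [Fintype α] [DecidableEq α] {a : X → Matrix α α ℂ} (ha : SmAt n a x)
    (h : (a x).det ≠ 0) : SmAt n (fun y => (a y)⁻¹) x :=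
  fun e he => MC.inv (ha e he) (by rwa [he.left_inv])

theorem sm_det [Fintype α] [DecidableEq α] {a : X → Matrix α α ℂ} (ha : SmAt n a x)
    (h : (a x).det ≠ 0) : ∀ᶠ y in 𝓝 x, (a y).det ≠ 0 :=
  (P277Z.At.ev (at_chart (n := n) x)).1 ((MC.det (ha _ (at_chart x))).continuousAt.eventually_ne
    (by rwa [(at_chart x).left_inv]))

theorem sm_congr {a b : X → Matrix α β ℂ} (ha : SmAt n a x) (h : ∀ᶠ y in 𝓝 x, b y = a y) :
    SmAt n b x := fun e he i j =>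
  (ha e he i j).congr_of_eventuallyEq ((at_ev he h).mono fun _ k => congrFun (congrFun k i) j)

variable {E E' E'' : VB X} {φ : ∀ x, E.A x →ₗ[ℂ] E'.A x} {ψ : ∀ x, E'.A x →ₗ[ℂ] E''.A x}
  {i : E.ι} {i' : E'.ι} {i'' : E''.ι}

theorem in_comp (h : SmIn n E E' φ i i' x) (h' : SmIn n E' E'' ψ i' i'' x) :
    SmIn n E E'' (fun x => (ψ x).comp (φ x)) i i'' x := by
  obtain ⟨a, h1, h2⟩ := h
  obtain ⟨b, k1, k2⟩ := h'
  refine ⟨_, sm_mul k1 h1, ?_⟩
  filter_upwards [h2, k2] with y h3 k3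
  rw [LinearMap.comp_assoc, h3, ← LinearMap.comp_assoc, k3, Matrix.toLin'_mul,
    LinearMap.comp_assoc]

theorem all (hE : IsVB n E) (hE' : IsVB n E') (h : IsHom n E E' φ) (i i' x) (hi : x ∈ E.U i)
    (hi' : x ∈ E'.U i') : SmIn n E E' φ i i' x :=
  let ⟨j, j', h1, h2, h3⟩ := h x
  in_comp (in_comp (hE.sm j i x h1 hi) h3) (hE'.sm i' j' x hi' h2)

theorem bij_ev (hE : IsVB n E) (hi : x ∈ E.U i) : ∀ᶠ y in 𝓝 x, Bijective (E.b i y) :=
  ((hE.isOpen i).eventually_mem hi).mono fun y => hE.bij i y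

theorem in_lift (h : SmIn n E' E'' ψ i' i'' x)
    (h' : SmIn n E E'' (fun x => (ψ x).comp (φ x)) i i'' x) (hi : Injective (ψ x))
    (hb : ∀ᶠ y in 𝓝 x, Bijective (E'.b i' y)) (hb' : ∀ᶠ y in 𝓝 x, Bijective (E''.b i'' y)) :
    SmIn n E E' φ i i' x := by
  obtain ⟨a, h1, h2⟩ := h
  obtain ⟨b, k1, k2⟩ := h'
  obtain ⟨R, hR⟩ := ex_left (a := a x) fun v w k => hb.self_of_nhds.1 (hi
    ((LinearMap.congr_fun h2.self_of_nhds v).trans ((congrArg _ k).trans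
      (LinearMap.congr_fun h2.self_of_nhds w).symm)))
  have h3 := sm_mul (sm_const R) h1
  have h4 : (R * a x).det ≠ 0 := by simp [hR]
  refine ⟨_, sm_mul (sm_inv h3 h4) (sm_mul (sm_const R) k1), ?_⟩
  filter_upwards [h2, k2, hb, hb', sm_det h3 h4] with y h5 k5 h6 h7 h8
  refine LinearMap.ext fun v => ?_
  obtain ⟨w, hw⟩ := h6.2 (φ y (E.b i y v))
  have h9 : a y *ᵥ w = b y *ᵥ v := h7.1 ((LinearMap.congr_fun h5 w).symm.trans
    ((congrArg (ψ y) hw).trans (LinearMap.congr_fun k5 v)))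
  refine hw.symm.trans (congrArg (E'.b i' y) ?_)
  rw [Matrix.toLin'_apply, ← Matrix.mulVec_mulVec, ← Matrix.mulVec_mulVec, ← h9,
    Matrix.mulVec_mulVec w R, Matrix.mulVec_mulVec, Matrix.nonsing_inv_mul _ (Ne.isUnit h8),
    Matrix.one_mulVec]

theorem surj_mat {a : Matrix (Fin E'.r) (Fin E.r) ℂ}
    (h : (φ x).comp (E.b i x) = (E'.b i' x).comp (Matrix.toLin' a)) (hs : Surjective (φ x))
    (hb : Bijective (E.b i x)) (hb' : Bijective (E'.b i' x)) : Surjective (Matrix.toLin' a) :=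
  fun w => by
    obtain ⟨v, hv⟩ := (hs.comp hb.2) (E'.b i' x w)
    exact ⟨v, hb'.1 ((LinearMap.congr_fun h v).symm.trans hv)⟩

theorem in_desc (h : SmIn n E E' φ i i' x)
    (h' : SmIn n E E'' (fun x => (ψ x).comp (φ x)) i i'' x) (hs : Surjective (φ x))
    (hb : Bijective (E.b i x)) (hb' : Bijective (E'.b i' x)) : SmIn n E' E'' ψ i' i'' x := by
  obtain ⟨a, h1, h2⟩ := h
  obtain ⟨b, k1, k2⟩ := h'
  obtain ⟨S, hS⟩ := ex_right (surj_mat h2.self_of_nhds hs hb hb')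
  have h3 := sm_mul h1 (sm_const S)
  have h4 : (a x * S).det ≠ 0 := by simp [hS]
  refine ⟨_, sm_mul k1 (sm_mul (sm_const S) (sm_inv h3 h4)), ?_⟩
  filter_upwards [h2, k2, sm_det h3 h4] with y h5 k5 h8
  rw [Matrix.toLin'_mul, ← LinearMap.comp_assoc, ← k5, LinearMap.comp_assoc, LinearMap.comp_assoc,
    ← LinearMap.comp_assoc _ _ (φ y), h5, LinearMap.comp_assoc, ← Matrix.toLin'_mul,
    ← Matrix.mul_assoc, Matrix.mul_nonsing_inv _ (Ne.isUnit h8), Matrix.toLin'_one,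
    LinearMap.comp_id]

theorem canon (hE : IsVB n E) (hE' : IsVB n E') (h : IsHom n E E' φ) (i : E.ι) (i' : E'.ι) :
    ∃ a : X → Matrix (Fin E'.r) (Fin E.r) ℂ, ∀ x ∈ E.U i ∩ E'.U i', SmAt n a x ∧
      (φ x).comp (E.b i x) = (E'.b i' x).comp (Matrix.toLin' (a x)) := by
  have h1 : ∀ x, ∃ a, x ∈ E.U i ∩ E'.U i' →
      (φ x).comp (E.b i x) = (E'.b i' x).comp (Matrix.toLin' a) := fun x => by
    by_cases hx : x ∈ E.U i ∩ E'.U i'
    · obtain ⟨a, -, k⟩ := all hE hE' h i i' x hx.1 hx.2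
      exact ⟨a x, fun _ => k.self_of_nhds⟩
    · exact ⟨0, fun k => absurd k hx⟩
  choose a ha using h1
  refine ⟨a, fun x hx => ⟨?_, ha x hx⟩⟩
  obtain ⟨b, k1, k2⟩ := all hE hE' h i i' x hx.1 hx.2
  refine sm_congr k1 ?_
  filter_upwards [k2, ((hE.isOpen i).inter (hE'.isOpen i')).mem_nhds hx] with y k3 hy
  exact Matrix.toLin'.injective (LinearMap.ext fun v => (hE'.bij i' y hy.2).1
    (LinearMap.congr_fun ((ha y hy).symm.trans k3) v))

theorem ker (r : ℕ) (hE : IsVB n E) (hE' : IsVB n E') (h : IsHom n E E' φ)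
    (hs : ∀ x, Surjective (φ x)) (hr : r + E'.r = E.r) :
    ∃ (ι : Type) (U : ι → Set X) (b : ι → ∀ x, (Fin r → ℂ) →ₗ[ℂ] LinearMap.ker (φ x)),
      Ses n ⟨fun x => LinearMap.ker (φ x), r, ι, U, b⟩ E E'
        (fun x => (LinearMap.ker (φ x)).subtype) φ := by
  have h1 : ∀ x₀ : X, ∃ (i : E.ι) (U : Set X) (k : X → Matrix (Fin E.r) (Fin r) ℂ), IsOpen U ∧
      x₀ ∈ U ∧ ∀ x ∈ U, x ∈ E.U i ∧ SmAt n k x ∧ (∀ w, k x *ᵥ w = 0 → w = 0) ∧
        ∀ v, φ x (E.b i x v) = 0 ↔ ∃ w, k x *ᵥ w = v := fun x₀ => by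
    obtain ⟨i, hi⟩ := hE.cover x₀
    obtain ⟨i', hi'⟩ := hE'.cover x₀
    obtain ⟨a, ha⟩ := canon hE hE' h i i'
    have k0 := surj_mat (ha x₀ ⟨hi, hi'⟩).2 (hs x₀) (hE.bij i x₀ hi) (hE'.bij i' x₀ hi')
    obtain ⟨S, hS⟩ := ex_right k0
    obtain ⟨K, k1, k2⟩ := ex_ker k0 hr
    obtain ⟨U, k3, k4, k5⟩ := eventually_nhds_iff.1 ((sm_det (sm_mul (ha x₀ ⟨hi, hi'⟩).1
      (sm_const S)) (by simp [hS])).and (((hE.isOpen i).inter (hE'.isOpen i')).eventually_mem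
      (⟨hi, hi'⟩ : x₀ ∈ E.U i ∩ E'.U i')))
    refine ⟨i, U, fun x => kb S K (a x), k4, k5, fun x hx => ?_⟩
    obtain ⟨k6, k7⟩ := k3 x hx
    obtain ⟨k8, k9⟩ := ha x k7
    refine ⟨k7.1, sm_sub (sm_const K) (sm_mul (sm_mul (sm_mul (sm_const S)
      (sm_inv (sm_mul k8 (sm_const S)) k6)) k8) (sm_const K)), (kb_spec hS k1 k2 k6).1,
      fun v => Iff.trans ?_ ((kb_spec hS k1 k2 k6).2 v)⟩
    rw [show φ x (E.b i x v) = E'.b i' x (a x *ᵥ v) from LinearMap.congr_fun k9 v]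
    exact map_eq_zero_iff _ (hE'.bij i' x k7.2).1
  choose i U k hU hm hk using h1
  have h2 : ∀ x₀ x, ∃ b : (Fin r → ℂ) →ₗ[ℂ] LinearMap.ker (φ x), x ∈ U x₀ →
      ∀ w, (b w).1 = E.b (i x₀) x (k x₀ x *ᵥ w) := fun x₀ x => by
    by_cases hx : x ∈ U x₀
    · exact ⟨((E.b (i x₀) x).comp (Matrix.toLin' (k x₀ x))).codRestrict _
        fun w => ((hk x₀ x hx).2.2.2 _).2 ⟨w, rfl⟩, fun _ _ => rfl⟩
    · exact ⟨0, fun k => absurd k hx⟩
  choose b hb using h2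
  have h3 : ∀ x₀ x, x ∈ U x₀ → Bijective (b x₀ x) := fun x₀ x hx => by
    obtain ⟨k1, -, k2, k3⟩ := hk x₀ x hx
    refine ⟨(injective_iff_map_eq_zero _).2 fun w hw => k2 w ((map_eq_zero_iff _
      (hE.bij _ x k1).1).1 ((hb x₀ x hx w).symm.trans (congrArg Subtype.val hw))), fun u => ?_⟩
    obtain ⟨v, hv⟩ := (hE.bij _ x k1).2 u.1
    obtain ⟨w, hw⟩ := (k3 v).1 (hv ▸ u.2)
    exact ⟨w, Subtype.ext (by rw [hb x₀ x hx, hw, hv])⟩
  have h4 : ∀ x₀ x, x ∈ U x₀ → SmIn n ⟨fun x => LinearMap.ker (φ x), r, X, U, b⟩ E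
      (fun x => (LinearMap.ker (φ x)).subtype) x₀ (i x₀) x := fun x₀ x hx =>
    ⟨k x₀, (hk x₀ x hx).2.1, ((hU x₀).eventually_mem hx).mono fun y hy =>
      LinearMap.ext (hb x₀ y hy)⟩
  refine ⟨X, U, b, ⟨hU, fun x => ⟨x, hm x⟩, h3, fun x₀ x₁ x k0 k1 => ?_⟩, hE, hE',
    fun x => ⟨x, i x, hm x, (hk x x (hm x)).1, h4 x x (hm x)⟩, h, fun x => Subtype.val_injective,
    fun x => LinearMap.exact_subtype_ker_map _, hs⟩
  exact in_lift (h4 x₀ x k0) (in_comp (h4 x₁ x k1)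
    (hE.sm _ _ x (hk x₀ x k0).1 (hk x₁ x k1).1)) Subtype.val_injective
    (((hU x₀).eventually_mem k0).mono fun y => h3 x₀ y) (bij_ev hE (hk x₀ x k0).1)

theorem cf_mul {L : Bd X} (hL : IsLB n L) {a b : L.ι} (ha : x ∈ L.U a) (hb : x ∈ L.U b) :
    cf L a x ≠ 0 ∧ cf L b x = cf L a x * L.g a b x := by
  have h := hL.cover x
  simp only [cf, dif_pos h]
  exact ⟨hL.ne_zero _ _ x h.choose_spec ha, (hL.cocycle _ _ _ x h.choose_spec ha hb).symm⟩

theorem in_tw {L : Bd X} (hL : IsLB n L) {a a' : L.ι} (ha : x ∈ L.U a) (ha' : x ∈ L.U a')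
    (h : SmIn n E E' φ i i' x) : SmIn n (E.tw L) (E'.tw L) φ (i, a) (i', a') x := by
  obtain ⟨m, h1, h2⟩ := h
  refine ⟨fun y => L.g a' a y • m y, fun e he j k =>
    (((hL.holo a' a e x he ha' ha).restrict_scalars ℝ).of_le le_top).mul (h1 e he j k), ?_⟩
  filter_upwards [h2, (hL.isOpen a).mem_nhds ha, (hL.isOpen a').mem_nhds ha'] with y h3 h4 h5
  show (φ y).comp (cf L a y • E.b i y) =
    (cf L a' y • E'.b i' y).comp (Matrix.toLin' (L.g a' a y • m y))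
  rw [LinearMap.comp_smul, h3, map_smul, LinearMap.comp_smul, LinearMap.smul_comp, smul_smul,
    (cf_mul hL h5 h4).2, mul_comm]

variable [IsManifold 𝓘(ℂ, Cm n) ω X] [IsManifold 𝓘(ℂ, Cm p) ω Y] {f : X → Y}

theorem sm_comp (hf : HolA n p f x) {a : Y → Matrix α β ℂ} (ha : SmAt p a (f x)) :
    SmAt n (fun y => a (f y)) x := fun e he i j => by
  have he' := at_chart (n := p) (f x)
  have h1 := ha _ he' i j
  rw [← congrArg (fun y => chartAt (Cm p) (f x) (f y)) he.left_inv] at h1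
  refine (h1.comp (e x) (((hf.an he he').contDiffAt.restrict_scalars ℝ).of_le le_top)
    ).congr_of_eventuallyEq ?_
  filter_upwards [at_map hf.cont he he'] with z hz
  rw [comp_apply, hz.left_inv]

theorem in_pull (hf : HolA n p f x) {G G' : VB Y} {χ : ∀ y, G.A y →ₗ[ℂ] G'.A y} {j j'}
    (h : SmIn p G G' χ j j' (f x)) : SmIn n (G.pull f) (G'.pull f) (fun x => χ (f x)) j j' x :=
  let ⟨_, h1, h2⟩ := h
  ⟨_, sm_comp hf h1, hf.cont.eventually h2⟩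

theorem sm_df (hf : HolA n p f x) {e : Chart n X} {e' : Chart p Y} (he : At e x)
    (he' : At e' (f x)) :
    SmAt n (fun y => LinearMap.toMatrix' (df f e e' y : Cm n →ₗ[ℂ] Cm p)) x := fun c hc i j => by
  have h1 := (hf.an he he').fderiv
  rw [← congrArg e hc.left_inv] at h1
  have h2 : ContDiffAt ℂ ω (fun z => df f e e' (c.symm z) (Pi.single j 1)) (c x) :=
    (h1.comp_of_eq (P277Z.trans_an he hc) rfl).contDiffAt.clm_apply contDiffAt_const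
  exact ((contDiffAt_pi.1 h2 i).restrict_scalars ℝ).of_le le_top

theorem in_df (hf : ∀ᶠ y in 𝓝 x, HolA n p f y) {e : Chart n X} {e' : Chart p Y} (he : At e x)
    (he' : At e' (f x)) : SmIn n (VB.tan n X) ((VB.tan p Y).pull f) (Df n p f) e e' x := by
  refine ⟨_, sm_df hf.self_of_nhds he he', ?_⟩
  filter_upwards [hf, at_near he, hf.self_of_nhds.cont.eventually (at_near he')] with y h1 h2 h3
  refine Eq.trans ?_ (congrArg (LinearMap.comp _) (Matrix.toLin'_toMatrix' _).symm)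
  exact congrArg ContinuousLinearMap.toLinearMap
    ((df_comp (f := fun y => y) h1 (holM_id.at y) h2 (at_chart y) (at_chart _)).symm.trans
      (df_comp (g := fun y => y) (holM_id.at _) h1 h2 h3 (at_chart _)))

theorem tan : IsVB n (VB.tan n X) where
  isOpen e := isOpen_iff_mem_nhds.2 fun _ h => at_near h
  cover x := ⟨_, at_chart x⟩
  bij e x h := ⟨imm_id x e _ h (at_chart x), sbm_id x e _ h (at_chart x)⟩
  sm e e' x h h' := by
    refine ⟨_, sm_df (holM_id.at x) h' h, ?_⟩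
    filter_upwards [at_near h, at_near h'] with y h1 h2
    refine Eq.trans ?_ (congrArg (LinearMap.comp _) (Matrix.toLin'_toMatrix' _).symm)
    exact congrArg ContinuousLinearMap.toLinearMap
      (df_comp (f := fun y => y) (g := fun y => y) (holM_id.at y) (holM_id.at y) h2 h1 (at_chart y))

end VblH

open VblH in
/-- row VBL -/
theorem vbl : VBL where
  triv V r := ⟨fun _ => isOpen_univ, fun _ => ⟨(), trivial⟩, fun _ _ _ => bijective_id,
    fun _ _ _ _ _ => ⟨_, sm_const 1, .of_forall fun _ => by rw [Matrix.toLin'_one]; rfl⟩⟩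
  tan V := VblH.tan
  tw V E L hE hL := ⟨fun i => (hE.isOpen i.1).inter (hL.isOpen i.2), fun x =>
    let ⟨i, hi⟩ := hE.cover x
    let ⟨a, ha⟩ := hL.cover x
    ⟨(i, a), hi, ha⟩, fun i x h => (MulAction.bijective
      (Units.mk0 _ (cf_mul hL h.2 h.2).1)).comp (hE.bij i.1 x h.1),
    fun i j x h h' => in_tw hL h'.2 h.2 (hE.sm i.1 j.1 x h.1 h'.1)⟩
  pull E hf hE := ⟨fun i => (hE.isOpen i).preimage hf.cont, fun _ => hE.cover _,
    fun i _ h => hE.bij i _ h, fun i j x h h' => in_pull (hf.at x) (hE.sm i j _ h h')⟩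
  all := VblH.all
  comp hE h h' x :=
    let ⟨i, i', h1, h2, h3⟩ := h x
    let ⟨j, j', k1, k2, k3⟩ := h' x
    ⟨i, j', h1, k2, in_comp (in_comp h3 (hE.sm j i' x k1 h2)) k3⟩
  hpull hf h x :=
    let ⟨i, i', h1, h2, h3⟩ := h _
    ⟨i, i', h1, h2, in_pull (hf.at x) h3⟩
  htw L hL h x :=
    let ⟨i, i', h1, h2, h3⟩ := h x
    let ⟨a, ha⟩ := hL.cover x
    ⟨(i, a), (i', a), ⟨h1, ha⟩, ⟨h2, ha⟩, in_tw hL ha ha h3⟩
  df hf x := ⟨_, _, at_chart x, at_chart _, in_df (.of_forall hf.at) (at_chart x) (at_chart _)⟩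
  ker := VblH.ker
  lift h1 h2 h3 h4 h5 x :=
    let ⟨j, i, k1, k2, k3⟩ := h5 x
    let ⟨i', k4⟩ := h1.cover x
    ⟨j, i', k1, k4, in_lift (VblH.all h1 h2 h3 i' i x k4 k2) k3 (h4 x) (bij_ev h1 k4)
      (bij_ev h2 k2)⟩
  desc h1 h2 h3 h4 h5 x :=
    let ⟨i, j, k1, k2, k3⟩ := h5 x
    let ⟨i', k4⟩ := h2.cover x
    ⟨i', j, k4, k2, in_desc (VblH.all h1 h2 h3 i i' x k1 k4) k3 (h4 x) (h1.bij i x k1)
      (h2.bij i' x k4)⟩

end Vale.Agent.P280Z
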