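import Vale.Agent.P280Z.Co.Sk

/-!
# P280Z, row CH (part 1): representatives of classes, matrices of functions
-/

open scoped Manifold ContDiff Topology Matrix ComplexOrder
open Set Filter
open Vale.Agent.P272.K Vale.Agent.P299.IX Vale.Agent.P299.IX.Fock Vale.Agent.P281Z
  Vale.Agent.P281Z.Hg Vale.Agent.P285.H281.FD
open Vale.Agent.P231.ChW (GDA Ev ch Idem dM NewtonRec om)

noncomputable section

namespace Vale.Agent.P280Z.Co.ChH

section newton
variable {K : Type} [Field K] [CharZero K] {R R' : Type} [Ring R] [Algebra K R] [Ring R']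
  [Algebra K R']

omit [CharZero K] in
theorem nr_map {s e : ℕ → R} (h : NewtonRec K s e) (φ : R →ₐ[K] R') {s' : ℕ → R'}
    (hs : ∀ i, φ (s (i + 1)) = s' (i + 1)) : NewtonRec K s' fun i => φ (e i) := by
  refine ⟨by simp only [h.1, map_one], fun j => ?_⟩
  simp only
  rw [← map_smul, h.2 j, map_sum]
  exact Finset.sum_congr rfl fun i _ => by rw [map_smul, map_mul, hs]

/-- the solution of the recursion -/
def nwt (K : Type) {R : Type} [Field K] [Ring R] [Algebra K R] (s : ℕ → R) : ℕ → R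
  | 0 => 1
  | (j + 1) => ((j : K) + 1)⁻¹ • ∑ i : Fin (j + 1), (-1 : K) ^ (i : ℕ) • (s (i + 1) *
      nwt K s (j - i))
  decreasing_by exact Nat.lt_succ_of_le (Nat.sub_le _ _)

theorem nwt_spec (s : ℕ → R) : NewtonRec K s (nwt K s) := by
  refine ⟨by rw [nwt], fun j => ?_⟩
  have hj : ((j : K) + 1) ≠ 0 := Nat.cast_add_one_ne_zero j
  rw [nwt, smul_smul, mul_inv_cancel₀ hj, one_smul, ← Fin.sum_univ_eq_sum_range
    (fun i => (-1 : K) ^ i • (s (i + 1) * nwt K s (j - i))) (j + 1)]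

omit [CharZero K] in
theorem nr_scale {s e : ℕ → R} (h : NewtonRec K s e) (a : K) :
    NewtonRec K (fun i => a ^ i • s i) fun i => a ^ i • e i := by
  refine ⟨by simp only [pow_zero, one_smul, h.1], fun j => ?_⟩
  simp only
  rw [smul_comm, h.2 j, Finset.smul_sum]
  refine Finset.sum_congr rfl fun i hi => ?_
  have hi' : i ≤ j := Nat.lt_succ_iff.1 (Finset.mem_range.1 hi)
  rw [smul_comm, smul_mul_smul_comm, ← pow_add, show i + 1 + (j - i) = j + 1 by omega]

theorem ch_map {A B α : Type} [Ring A] [GDA A] [Ring B] [GDA B] [Fintype α] [DecidableEq α]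
    (φ : A →+* B) (h : ∀ a, φ (GDA.d a) = GDA.d (φ a)) (P : Matrix α α A) (k : ℕ) :
    ch k (P.map φ) = φ (ch k P) := by
  have e : dM (P.map φ) = (dM P).map φ := Matrix.ext fun i j => (h _).symm
  rw [ch, ch, AddMonoidHom.map_trace φ, P231.ChW.dd, P231.ChW.dd, e, ← Matrix.map_mul,
    Matrix.map_mul (L := P)]
  exact congrArg (fun X => (P.map φ * X).trace) (map_pow φ.mapMatrix _ k).symm

end newton

variable {n m : ℕ} {V : Mf n} {W : Mf m}

theorem ex_zero : Ex (0 : Om V) := ⟨0, map_zero _⟩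

theorem ex_add {u v : Om V} : Ex u → Ex v → Ex (u + v) := by
  rintro ⟨β, rfl⟩ ⟨γ, rfl⟩
  exact ⟨β + γ, map_add _ _ _⟩

theorem ex_sub {u v : Om V} : Ex u → Ex v → Ex (u - v) := by
  rintro ⟨β, rfl⟩ ⟨γ, rfl⟩
  exact ⟨β - γ, map_sub _ _ _⟩

theorem ex_smul (c : ℂ) {u : Om V} : Ex u → Ex (c • u) := by
  rintro ⟨β, rfl⟩
  exact ⟨c • β, map_smul _ _ _⟩

/-- the closed even form `w` represents the class `a` -/
structure Rl (a : HH V) (w : Om V) : Prop where
  d : dO w = 0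
  sg : sgO w = w
  ex : ∃ u : Zc V, a = mk u ∧ Ex (fm u - w)

section rl
variable {a a' : HH V} {w w' : Om V}

theorem Rl.uniq (h : Rl a w) (h' : Rl a' w) : a = a' := by
  obtain ⟨u, rfl, k⟩ := h.ex
  obtain ⟨u', rfl, k'⟩ := h'.ex
  exact mk_eq.2 (by simpa using ex_sub k k')

theorem Rl.of_ex (h : Rl a w) (hd : dO w' = 0) (hs : sgO w' = w') (e : Ex (w - w')) : Rl a w' := by
  obtain ⟨u, rfl, k⟩ := h.ex
  exact ⟨hd, hs, u, rfl, by simpa using ex_add k e⟩

theorem rl_mk (u : Zc V) : Rl (mk u) (fm u) :=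
  ⟨d_fm u, sg_fm u, u, rfl, by rw [sub_self]; exact ex_zero⟩

theorem rl_zero : Rl (0 : HH V) 0 := by simpa using rl_mk (0 : Zc V)

theorem rl_one : Rl (1 : HH V) 1 := by simpa using rl_mk (1 : Zc V)

theorem rl_nat (r : ℕ) : Rl (r : HH V) r := by simpa using rl_mk (r : Zc V)

theorem Rl.add (h : Rl a w) (h' : Rl a' w') : Rl (a + a') (w + w') := by
  obtain ⟨u, rfl, k⟩ := h.ex
  obtain ⟨u', rfl, k'⟩ := h'.ex
  exact ⟨by rw [map_add, h.d, h'.d, add_zero], by rw [map_add, h.sg, h'.sg], u + u',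
    (map_add _ _ _).symm, by rw [map_add, add_sub_add_comm]; exact ex_add k k'⟩

theorem Rl.smul (h : Rl a w) (c : ℝ) : Rl (c • a) ((c : ℂ) • w) := by
  obtain ⟨u, rfl, k⟩ := h.ex
  exact ⟨by rw [map_smul, h.d, smul_zero], by rw [map_smul, h.sg], c • u,
    (map_smul _ _ _).symm, by rw [map_smul, rsmul, ← smul_sub]; exact ex_smul _ k⟩

theorem Rl.mul (h : Rl a w) (h' : Rl a' w') : Rl (a * a') (w * w') := by
  obtain ⟨u, rfl, β, k⟩ := h.ex
  obtain ⟨u', rfl, γ, k'⟩ := h'.ex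
  refine ⟨by rw [d_mul, h.d, h'.d, zero_mul, mul_zero, add_zero], by rw [map_mul, h.sg, h'.sg],
    u * u', (map_mul _ _ _).symm, β * fm u' + w * γ, ?_⟩
  rw [map_add, d_mul, d_mul, d_fm, h.d, h.sg, k, k', map_mul, mul_zero, zero_mul, add_zero,
    zero_add, sub_mul, mul_sub, sub_add_sub_cancel]

theorem Rl.pow (h : Rl a w) (k : ℕ) : Rl (a ^ k) (w ^ k) := by
  induction k with
  | zero => rw [pow_zero, pow_zero]; exact rl_one
  | succ k ih => rw [pow_succ, pow_succ]; exact ih.mul h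

theorem rl_sum {ι : Type} (s : Finset ι) {a : ι → HH V} {w : ι → Om V}
    (h : ∀ i ∈ s, Rl (a i) (w i)) : Rl (∑ i ∈ s, a i) (∑ i ∈ s, w i) := by
  classical
  induction s using Finset.induction_on with
  | empty => exact rl_zero
  | insert i s hi ih =>
    rw [Finset.sum_insert hi, Finset.sum_insert hi]
    exact (h i (Finset.mem_insert_self _ _)).add (ih fun j hj => h j (Finset.mem_insert_of_mem hj))

theorem Rl.pb {f : V.X → W.X} (hf : HolM n m f) {a : HH W} {w : Om W} (h : Rl a w) :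
    Rl (pullH hf a) (pb hf w) := by
  obtain ⟨u, rfl, β, k⟩ := h.ex
  exact ⟨by rw [← pb_d, h.d, map_zero], by rw [← pb_sg, h.sg], pbZ hf u, rfl, Co.pb hf β,
    by rw [← pb_d, k, map_sub, fm_pbZ]⟩

theorem rl_newton {s e : ℕ → HH V} {s' e' : ℕ → Om V} (h : NewtonRec ℝ s e)
    (h' : NewtonRec ℂ s' e') (hs : ∀ i, Rl (s i) (s' i)) (j : ℕ) : Rl (e j) (e' j) := by
  induction j using Nat.strong_induction_on with
  | _ j ih =>
    cases j with
    | zero => rw [h.1, h'.1]; exact rl_one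
    | succ j =>
      have k := (rl_sum (Finset.range (j + 1)) fun i _ => ((hs (i + 1)).mul
        (ih (j - i) (by omega))).smul ((-1) ^ i)).smul ((j : ℝ) + 1)⁻¹
      push_cast at k
      rwa [← h.2, ← h'.2, inv_smul_smul₀ (Nat.cast_add_one_ne_zero j),
        inv_smul_smul₀ (Nat.cast_add_one_ne_zero j)] at k

end rl

section fn
variable {a a' : V.X → ℂ} {u u' : Om V}

theorem fn_mul (h : IsFn a u) (h' : IsFn a' u') : IsFn (fun x => a x * a' x) (u * u') :=
  fun e x he => by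
    rw [val_mul _ _ he, h e x he, h' e x he, f1a.wg_smul, f1a.wg_ev, Matrix.smul_mulVec,
      Matrix.one_mulVec, smul_smul]

theorem fn_sum {ι : Type} [Fintype ι] {a : ι → V.X → ℂ} {u : ι → Om V} (h : ∀ i, IsFn (a i) (u i)) :
    IsFn (fun x => ∑ i, a i x) (∑ i, u i) := fun e x he => by
  rw [Finset.sum_smul, ← Finset.sum_congr rfl fun i _ => h i e x he]
  exact map_sum (⟨⟨fun u => val u e (e x), rfl⟩, fun _ _ => rfl⟩ : Om V →+ Fo n) u Finset.univ

theorem fn_ext (h : IsFn a u) (h' : IsFn a' u') (e : ∀ x, a x = a' x) : u = u' :=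
  ext fun c x hc => by rw [h c x hc, h' c x hc, e]

theorem fn_congr (h : IsFn a u) (e : ∀ x, a x = a' x) : IsFn a' u := funext e ▸ h

theorem fn_zero : IsFn (fun _ => 0) (0 : Om V) := fun e x he => by rw [val_zero, zero_smul]

theorem fn_const (c : ℂ) : IsFn (fun _ => c) (c • 1 : Om V) := fun e x he => by
  rw [val_smul, val_one he]

theorem fn_ev (h : IsFn a u) : sgO u = u := ext fun e x he => by
  rw [val_sg _ he, h e x he, Matrix.mulVec_smul, par_ev]

theorem fn_pb {f : V.X → W.X} (hf : HolM n m f) {a : W.X → ℂ} {u : Om W} (h : IsFn a u) :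
    IsFn (fun x => a (f x)) (pb hf u) := fun e x he => by
  have h' := Pb1H.ca (d := m) (f x)
  refine (pb_is hf u e _ x he h').trans ?_
  rw [show vl (d := m) (M := W.X) u _ _ = _ from h _ _ h', Matrix.mulVec_smul, f1a.lr_ev]

end fn

variable {α β γ : Type} [DecidableEq α] [DecidableEq β] [DecidableEq γ] [Fintype α] [Fintype β]

/-- the matrix of forms `X` consists of the entries of `χ` -/
def Fn {α β : Type} [DecidableEq β] (χ : V.X → (β → ℂ) →ₗ[ℂ] (α → ℂ)) (X : Matrix α β (Om V)) :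
    Prop := ∀ i j, IsFn (fun x => χ x (Pi.single j 1) i) (X i j)

omit [DecidableEq α] [Fintype α] in
theorem ap_sum (χ : (β → ℂ) →ₗ[ℂ] (α → ℂ)) (w : β → ℂ) (i : α) :
    χ w i = ∑ j, χ (Pi.single j 1) i * w j := by
  rw [← Finset.univ_sum_single w, map_sum, Finset.sum_apply, Finset.univ_sum_single]
  refine Finset.sum_congr rfl fun j _ => ?_
  rw [← mul_one (w j), ← smul_eq_mul, Pi.single_smul', map_smul, smul_eq_mul, mul_one, mul_comm]
  rfl

omit [DecidableEq α] [Fintype α] in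
theorem Fn.comp {χ : V.X → (β → ℂ) →ₗ[ℂ] (α → ℂ)} {χ' : V.X → (γ → ℂ) →ₗ[ℂ] (β → ℂ)}
    {X : Matrix α β (Om V)} {X' : Matrix β γ (Om V)} (h : Fn χ X) (h' : Fn χ' X') :
    Fn (fun x => (χ x).comp (χ' x)) (X * X') := fun i k => by
  refine fn_congr ?_ fun x => (ap_sum (χ x) _ i).symm
  exact fn_sum fun j => fn_mul (h i j) (h' j k)

omit [DecidableEq α] [Fintype α] [Fintype β] in
theorem Fn.uniq {χ χ' : V.X → (β → ℂ) →ₗ[ℂ] (α → ℂ)} {X X' : Matrix α β (Om V)} (h : Fn χ X)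
    (h' : Fn χ' X') (e : ∀ x v, χ x v = χ' x v) : X = X' :=
  Matrix.ext fun i j => fn_ext (h i j) (h' i j) fun x => by rw [e]

omit [DecidableEq α] [Fintype α] [Fintype β] in
theorem Fn.ev {χ : V.X → (β → ℂ) →ₗ[ℂ] (α → ℂ)} {X : Matrix α β (Om V)} (h : Fn χ X) : Ev X :=
  Matrix.ext fun i j => fn_ev (h i j)

theorem Fn.idem {χ : V.X → (α → ℂ) →ₗ[ℂ] (α → ℂ)} {X : Matrix α α (Om V)} (h : Fn χ X)
    (e : ∀ x v, χ x (χ x v) = χ x v) : Idem X := ⟨h.ev, (h.comp h).uniq h e⟩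

theorem Fn.trace {χ : V.X → (α → ℂ) →ₗ[ℂ] (α → ℂ)} {X : Matrix α α (Om V)} (h : Fn χ X) {r : ℕ}
    (e : ∀ x, (LinearMap.toMatrix' (χ x)).trace = r) : X.trace = r :=
  (fn_ext (fn_sum fun i => h i i) (fn_const r) e).trans (by rw [Nat.cast_smul_eq_nsmul, nsmul_one])

/-- the value at a point -/
def evA {e : Chart n V.X} {x : V.X} (h : At e x) : Om V →ₐ[ℂ] Fm n :=
  AlgHom.ofLinearMap
    { toFun := fun u => wg (val u e (e x))
      map_add' := fun _ _ => f1a.wg_add _ _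
      map_smul' := fun _ _ => f1a.wg_smul _ _ }
    ((congrArg wg (val_one h)).trans f1a.wg_ev)
    fun a b => (congrArg wg (val_mul a b h)).trans (wg_wg _ _)

theorem Fn.newton {χ : V.X → (α → ℂ) →ₗ[ℂ] (α → ℂ)} {P : Matrix α α (Om V)} (h : Fn χ P)
    (hi : ∀ x v, χ x (χ x v) = χ x v) {r : ℕ} (hr : ∀ x, (LinearMap.toMatrix' (χ x)).rank ≤ r)
    {s : ℕ → Om V} (hs : NewtonRec ℂ (fun k => ch k P) s) {j : ℕ} (hj : r < j) : s j = 0 := by
  have hI := h.idem hi
  refine ext fun e x he => ?_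
  set φ := (evA he).rangeRestrict with hφ
  have hp : P.map φ = (LinearMap.toMatrix' (χ x)).map (algebraMap ℂ _) :=
    Matrix.ext fun i j => Subtype.ext (by
      show wg (val (P i j) e (e x)) = algebraMap ℂ (Fm n) _
      rw [h i j e x he, f1a.wg_smul, f1a.wg_ev, Algebra.algebraMap_eq_smul_one]
      rfl)
  have h2 : NewtonRec ℂ (fun i => (((om P).map φ) ^ i).trace) fun i => φ (s i) :=
    nr_map hs φ fun i => by
      rw [hI.ch_succ, AddMonoidHom.map_trace φ]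
      exact congrArg Matrix.trace (map_pow φ.toRingHom.mapMatrix (om P) (i + 1))
  have h3 := P231.ChW.newton_rank (P := LinearMap.toMatrix' (χ x))
    (by rw [← LinearMap.toMatrix'_comp]; exact congrArg _ (LinearMap.ext (hi x)))
    (fun i j => Subalgebra.mem_center_iff.2 fun b => by
      obtain ⟨v, rfl⟩ := (evA he).rangeRestrict_surjective b
      rw [Matrix.map_apply, ← map_mul, ← map_mul, hI.ev_om.comm])
    (by rw [← hp, ← Matrix.map_mul, hI.mul_om]) (by rw [← hp, ← Matrix.map_mul, hI.om_mul]) h2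
    ((hr x).trans_lt hj)
  rw [← f1a.wg_one (val (s j) e (e x)), show wg (val (s j) e (e x)) = 0 from congrArg Subtype.val h3,
    Matrix.zero_mulVec, val_zero]

/-- the normalised Chern character form -/
def nc (k : ℕ) (P : Matrix α α (Om V)) : Om V := (Complex.I / (2 * Real.pi)) ^ k • ch k P

theorem nc_d {P : Matrix α α (Om V)} (h : Idem P) (k : ℕ) : dO (nc k P) = 0 := by
  rw [nc, map_smul, show dO (ch k P) = 0 from h.d_ch k, smul_zero]

theorem nc_sg {P : Matrix α α (Om V)} (h : Idem P) (k : ℕ) : sgO (nc k P) = nc k P := by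
  rw [nc, map_smul, show sgO (ch k P) = ch k P from P231.ChW.ev_ch h k]

/-- the data of a representation by an idempotent matrix -/
structure Rp (E : VB V.X) {N : ℕ} (a : ∀ x, E.A x →ₗ[ℂ] (Fin N → ℂ))
    (b : ∀ x, (Fin N → ℂ) →ₗ[ℂ] E.A x) (P : Matrix (Fin N) (Fin N) (Om V)) : Prop where
  ha : IsHom n E (VB.triv V.X N) a
  hb : IsHom n (VB.triv V.X N) E b
  ba : ∀ x v, b x (a x v) = v
  fn : Fn (fun x => (a x).comp (b x)) P

variable {E : VB V.X} {N : ℕ} {a : ∀ x, E.A x →ₗ[ℂ] (Fin N → ℂ)}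
  {b : ∀ x, (Fin N → ℂ) →ₗ[ℂ] E.A x} {P : Matrix (Fin N) (Fin N) (Om V)}

theorem rp_ex (r : REP) (hE : IsVB n E) : ∃ (N : ℕ) (a : ∀ x, E.A x →ₗ[ℂ] (Fin N → ℂ))
    (b : ∀ x, (Fin N → ℂ) →ₗ[ℂ] E.A x) (P : Matrix (Fin N) (Fin N) (Om V)), Rp E a b P := by
  obtain ⟨N, P, a, b, h1, h2, h3, h4⟩ := r.2 V E hE
  exact ⟨N, a, b, P, h1, h2, h3, h4⟩

theorem Rp.ii (h : Rp E a b P) (x : V.X) (v : Fin N → ℂ) :
    (a x).comp (b x) ((a x).comp (b x) v) = (a x).comp (b x) v := congrArg (a x) (h.ba x _)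

theorem Rp.idem (h : Rp E a b P) : Idem P := h.fn.idem h.ii

theorem Rp.rl (h : Rp E a b P) (p : PSE) (hE : IsVB n E) (k : ℕ) : Rl (psH V E k) (nc k P) :=
  ⟨nc_d h.idem k, nc_sg h.idem k, p V E N P k hE ⟨a, b, h.ha, h.hb, h.ba, h.fn⟩⟩

theorem Rp.fac (h : Rp E a b P) (hE : IsVB n E) (x : V.X) :
    (LinearMap.toMatrix' ((a x).comp (b x))).trace = E.r ∧
      (LinearMap.toMatrix' ((a x).comp (b x))).rank ≤ E.r := by
  obtain ⟨i, hi⟩ := hE.cover x
  set c := LinearEquiv.ofBijective (E.b i x) (hE.bij i x hi)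
  have e : (a x).comp (b x) = ((a x).comp c.toLinearMap).comp (c.symm.toLinearMap.comp (b x)) :=
    LinearMap.ext fun v => by simp
  have e' : (c.symm.toLinearMap.comp (b x)).comp ((a x).comp c.toLinearMap) = LinearMap.id :=
    LinearMap.ext fun v => by simp [h.ba]
  rw [e, LinearMap.toMatrix'_comp]
  refine ⟨?_, (Matrix.rank_mul_le_left _ _).trans (Matrix.rank_le_width _)⟩
  rw [Matrix.trace_mul_comm, ← LinearMap.toMatrix'_comp, e', LinearMap.toMatrix'_id,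
    Matrix.trace_one, Fintype.card_fin]

theorem Rp.trace (h : Rp E a b P) (hE : IsVB n E) : P.trace = E.r :=
  h.fn.trace fun x => (h.fac hE x).1

/-- representations with an arbitrary index set -/
theorem gen (r : REP) (t : TRG) (p : PSE) (hE : IsVB n E) (a : ∀ x, E.A x →ₗ[ℂ] (α → ℂ))
    (b : ∀ x, (α → ℂ) →ₗ[ℂ] E.A x) (hab : ∀ x v, b x (a x v) = v)
    (ha : ∀ (N : ℕ) (b₀ : ∀ x, (Fin N → ℂ) →ₗ[ℂ] E.A x), IsHom n (VB.triv V.X N) E b₀ →
      ∃ X, Fn (fun x => (a x).comp (b₀ x)) X)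
    (hb : ∀ (N : ℕ) (a₀ : ∀ x, E.A x →ₗ[ℂ] (Fin N → ℂ)), IsHom n E (VB.triv V.X N) a₀ →
      ∃ X, Fn (fun x => (a₀ x).comp (b x)) X)
    {P : Matrix α α (Om V)} (hP : Fn (fun x => (a x).comp (b x)) P) (k : ℕ) :
    Rl (psH V E k) (nc k P) := by
  obtain ⟨N, a₀, b₀, P₀, h₀⟩ := rp_ex r hE
  obtain ⟨A, hA⟩ := ha N b₀ h₀.hb
  obtain ⟨B, hB⟩ := hb N a₀ h₀.ha
  have hI : Idem P := hP.idem fun x v => congrArg (a x) (hab x _)
  obtain ⟨s, hs⟩ := t (Om V) (fun c u => map_smul dO c u) (fun c u => map_smul sgO c u) (Fin N) α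
    A B hA.ev hB.ev (((hA.comp hB).comp hA).uniq hA fun x v => by simp [hab, h₀.ba])
    (((hB.comp hA).comp hB).uniq hB fun x v => by simp [hab, h₀.ba]) k
  rw [(hB.comp hA).uniq h₀.fn fun x v => by simp [hab],
    (hA.comp hB).uniq hP fun x v => by simp [h₀.ba]] at hs
  refine (h₀.rl p hE k).of_ex (nc_d hI k) (nc_sg hI k) ?_
  rw [nc, nc, ← smul_sub]
  exact ex_smul _ ⟨s, hs⟩

end Vale.Agent.P280Z.Co.ChH
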