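import Vale.Agent.P280Z.Co.BezA
import Mathlib.Analysis.InnerProductSpace.Positive

/-!
# P280Z, row EFF: the mixed discriminant of semipositive forms
-/

open scoped Matrix ComplexOrder
open Vale.Agent.P272.K Vale.Agent.P299.IX Vale.Agent.P299.IX.Fock Vale.Agent.P281Z.Hg
  Vale.Agent.P280Z.Pu Vale.Agent.P281Z

noncomputable section

namespace Vale.Agent.P280Z.Co.EffH

variable {m : ℕ}

/-- square matrices -/
abbrev Mq (m : ℕ) : Type := Matrix (Fin m) (Fin m) ℂ

/-- `Lw` as a linear map -/
def LL (m : ℕ) : Mq m →ₗ[ℂ] Fm m where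
  toFun := Lw
  map_add' a b := by simp [Lw, mul_add, add_smul, Finset.sum_add_distrib]
  map_smul' c a := by simp [Lw, Finset.smul_sum, smul_smul, mul_left_comm]

/-- the normalised top coefficient of `A 1` -/
def topL (m : ℕ) : Fm m →ₗ[ℂ] ℂ where
  toFun A := kp ^ m * sn m * A Finset.univ ∅
  map_add' a b := by simp [mul_add]
  map_smul' c a := by simp [mul_left_comm]

/-- the mixed discriminant -/
def tau (m : ℕ) : MultilinearMap ℂ (fun _ : Fin m => Mq m) ℂ :=
  (topL m).compMultilinearMap
    ((MultilinearMap.mkPiAlgebraFin ℂ m (Fm m)).compLinearMap fun _ => LL m)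

theorem tau_apply (A : Fin m → Mq m) :
    tau m A = kp ^ m * sn m * (List.ofFn fun k => Lw (A k)).prod Finset.univ ∅ := rfl

theorem Lw_single (k : Fin m) :
    Lw (Matrix.single k k (1 : ℂ)) = Complex.I • (eps (hl k) * eps (ah k)) := by
  rw [Lw, Finset.sum_eq_single k, Finset.sum_eq_single k]
  · simp
  · intro j _ hj
    simp [hj.symm]
  · simp
  · intro j _ hj
    simp [hj.symm]
  · simp

theorem prod_ev (l : List (Fin m)) (h : l.Pairwise (· < ·)) :
    (l.map fun k => eps (hl k) * eps (ah k)).prod *ᵥ ev ∅ =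
      sn l.length • ev (l.toFinset.image hl ∪ l.toFinset.image ah) := by
  induction l with
  | nil => simp [sn]
  | cons i l ih =>
    obtain ⟨h1, h2⟩ := List.pairwise_cons.1 h
    have hn : l.Nodup := h2.imp fun e => e.ne
    have a1 : ah i ∉ l.toFinset.image hl ∪ l.toFinset.image ah := by
      simp only [Finset.mem_union, Finset.mem_image, List.mem_toFinset, not_or, not_exists, not_and]
      refine ⟨fun j _ e => ?_, fun j hj e => ?_⟩
      · have := congrArg Fin.val e
        simp only [hl, ah, Fin.val_castAdd, Fin.val_natAdd] at this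
        omega
      · exact (h1 j hj).ne' (Fin.natAdd_injective _ _ e)
    have a2 : (l.toFinset.image hl ∪ l.toFinset.image ah).filter (· < ah i) =
        l.toFinset.image hl := by
      ext p
      simp only [Finset.mem_filter, Finset.mem_union, Finset.mem_image, List.mem_toFinset]
      constructor
      · rintro ⟨h3 | ⟨j, hj, rfl⟩, h4⟩
        · exact h3
        · have := h1 j hj
          simp only [ah, Fin.lt_def, Fin.val_natAdd] at h4 this
          omega
      · rintro ⟨j, hj, rfl⟩
        refine ⟨Or.inl ⟨j, hj, rfl⟩, ?_⟩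
        simp only [hl, ah, Fin.lt_def, Fin.val_natAdd, Fin.val_castAdd]
        omega
    have a3 : ∀ p ∈ insert (ah i) (l.toFinset.image hl ∪ l.toFinset.image ah), hl i < p := by
      intro p hp
      simp only [Finset.mem_insert, Finset.mem_union, Finset.mem_image, List.mem_toFinset] at hp
      rcases hp with rfl | ⟨j, hj, rfl⟩ | ⟨j, hj, rfl⟩
      · simp only [hl, ah, Fin.lt_def, Fin.val_natAdd, Fin.val_castAdd]
        omega
      · exact h1 j hj
      · simp only [hl, ah, Fin.lt_def, Fin.val_natAdd, Fin.val_castAdd]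
        omega
    rw [List.map_cons, List.prod_cons, ← Matrix.mulVec_mulVec, ih h2, Matrix.mulVec_smul,
      ← Matrix.mulVec_mulVec, eps_ev_of_notMem a1, Matrix.mulVec_smul, eps_ev_min a3, sg, a2,
      Finset.card_image_of_injective _ (f := hl) (Fin.castAdd_injective _ _),
      List.toFinset_card_of_nodup hn,
      smul_smul, List.length_cons, List.toFinset_cons, Finset.image_insert, Finset.image_insert,
      Finset.insert_union, Finset.union_insert]
    rw [show sn (l.length + 1) = sn l.length * (-1) ^ l.length from Finset.prod_range_succ _ _]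

theorem tau_std : tau m (fun k => Matrix.single k k 1) = 2 ^ m := by
  have h := prod_ev (List.finRange m) (List.pairwise_lt_finRange m)
  have e : (List.finRange m).toFinset.image hl ∪ (List.finRange m).toFinset.image ah =
      Finset.univ := by
    refine Finset.eq_univ_of_forall fun p => ?_
    induction p using AlgH.idx with
    | h1 j => exact Finset.mem_union_left _ (Finset.mem_image_of_mem _ (by simp))
    | h2 j => exact Finset.mem_union_right _ (Finset.mem_image_of_mem _ (by simp))
  have h2 := congrFun h Finset.univ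
  rw [mulVec_ev, e, List.length_finRange, Pi.smul_apply, ev, Pi.single_eq_same, smul_eq_mul,
    mul_one] at h2
  have h3 : ∀ l : List (Fin m), (l.map fun k => Complex.I • (eps (hl k) * eps (ah k))).prod =
      Complex.I ^ l.length • (l.map fun k => eps (hl k) * eps (ah k)).prod := fun l => by
    induction l with
    | nil => simp
    | cons i l ih =>
      rw [List.map_cons, List.prod_cons, ih, List.map_cons, List.prod_cons, smul_mul_smul_comm,
        List.length_cons, pow_succ']
  rw [tau_apply, List.ofFn_eq_map]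
  simp only [Lw_single]
  rw [h3, List.length_finRange, Matrix.smul_apply, h2, smul_eq_mul]
  have h4 : kp ^ m * Complex.I ^ m = 2 ^ m := by
    rw [← mul_pow, kp, mul_assoc, Complex.I_mul_I]
    norm_num
  linear_combination (sn m * sn m) * h4 + 2 ^ m * AlgH.sn_sq m

theorem tau_conj (B : Mq m) (A : Fin m → Mq m) :
    tau m (fun k => B * A k * Bᴴ) = ((‖B.det‖ ^ 2 : ℝ) : ℂ) * tau m A := by
  have h : ∀ l : List (Fin m), lam (blk B (B.map star)) * (l.map fun k => Lw (A k)).prod =
      (l.map fun k => Lw (B * A k * Bᴴ)).prod * lam (blk B (B.map star)) := fun l => by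
    induction l with
    | nil => simp
    | cons i l ih =>
      rw [List.map_cons, List.prod_cons, List.map_cons, List.prod_cons, ← Matrix.mul_assoc,
        (f2b f1a f1b f2a).L_blk, Matrix.mul_assoc, ih, ← Matrix.mul_assoc]
  have h1 := congrArg (fun M => (M *ᵥ ev ∅) Finset.univ) (h (List.finRange m))
  beta_reduce at h1
  rw [← Matrix.mulVec_mulVec, ← Matrix.mulVec_mulVec, lam_ev_empty, mulVec_ev,
    show lam (blk B (B.map star)) = lr (blk B (B.map star)) from rfl, AlgH.lr_top _ _ (by simp),
    show lr (blk B (B.map star)) Finset.univ Finset.univ = _ from lam_top _, mulVec_ev,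
    f1b.blk_det] at h1
  have h2 : (B.map star).det = star B.det := (RingHom.map_det (starRingEnd ℂ) B).symm
  rw [tau_apply, tau_apply, List.ofFn_eq_map, List.ofFn_eq_map, ← h1, h2, Complex.star_def,
    Complex.mul_conj, Complex.normSq_eq_norm_sq]
  ring

theorem tau_rank (a : Fin m → Fin m → ℂ) :
    tau m (fun k => Matrix.vecMulVec (a k) (star (a k))) =
      ((‖(Matrix.of a).det‖ ^ 2 * 2 ^ m : ℝ) : ℂ) := by
  have h := tau_conj (Matrix.of a)ᵀ fun k => Matrix.single k k 1
  rw [tau_std, Matrix.det_transpose] at h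
  rw [Complex.ofReal_mul, Complex.ofReal_pow (2 : ℝ), Complex.ofReal_ofNat, ← h]
  refine congrArg (tau m) (funext fun k => ?_)
  ext i j
  simp [Matrix.mul_apply, Matrix.single, Matrix.vecMulVec_apply, ite_and]

/-- the mixed discriminant of semipositive matrices is nonnegative -/
theorem tau_nonneg {A : Fin m → Mq m} (h : ∀ k, (A k).PosSemidef) : 0 ≤ tau m A := by
  choose r b hb using fun k => Matrix.posSemidef_iff_eq_sum_vecMulVec.1 (h k)
  rw [show A = fun k => ∑ i, Matrix.vecMulVec (b k i) (star (b k i)) from funext hb,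
    MultilinearMap.map_sum]
  refine Finset.sum_nonneg fun r _ => ?_
  rw [tau_rank fun k => b k (r k)]
  exact Complex.zero_le_real.2 (by positivity)

/-- monotonicity -/
theorem tau_mono {A B : Fin m → Mq m} (hA : ∀ k, (A k).PosSemidef)
    (hB : ∀ k, (B k - A k).PosSemidef) : tau m A ≤ tau m B := by
  have e : B = (fun k => B k - A k) + A := by
    funext k
    simp
  rw [e, MultilinearMap.map_add_univ,
    ← Finset.add_sum_erase _ _ (Finset.mem_univ (∅ : Finset (Fin m))), Finset.piecewise_empty]
  refine le_add_of_nonneg_right (Finset.sum_nonneg fun s _ => tau_nonneg fun k => ?_)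
  by_cases hk : k ∈ s
  · rw [Finset.piecewise_eq_of_mem _ _ _ hk]
    exact hB k
  · rw [Finset.piecewise_eq_of_notMem _ _ _ hk]
    exact hA k

/-- a lower bound by a diagonal entry -/
theorem tau_diag {n : ℕ} {R : Mq (n + 1)} (hR : R.PosSemidef) (j : Fin (n + 1)) :
    tau (n + 1) (Fin.cons R fun k => Matrix.single (Equiv.swap 0 j k.succ)
      (Equiv.swap 0 j k.succ) 1) = 2 ^ (n + 1) * R j j := by
  obtain ⟨r, b, rfl⟩ := Matrix.posSemidef_iff_eq_sum_vecMulVec.1 hR
  have h : ∀ v : Fin (n + 1) → ℂ, tau (n + 1) (Fin.cons (Matrix.vecMulVec v (star v))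
      fun k => Matrix.single (Equiv.swap 0 j k.succ) (Equiv.swap 0 j k.succ) 1) =
      2 ^ (n + 1) * (v j * star (v j)) := fun v => by
    have h1 := tau_rank (Fin.cons v fun k => Pi.single (Equiv.swap 0 j k.succ) 1)
    have h2 : Matrix.of (Fin.cons v fun k => Pi.single (Equiv.swap 0 j k.succ) (1 : ℂ) :
        Fin (n + 1) → Fin (n + 1) → ℂ) =
        ((1 : Mq (n + 1)).updateRow j v).submatrix (Equiv.swap 0 j) id := by
      ext p q
      induction p using Fin.cases with
      | zero => simp
      | succ p =>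
        have : Equiv.swap 0 j p.succ ≠ j := fun e =>
          p.succ_ne_zero ((Equiv.swap 0 j).injective (e.trans (Equiv.swap_apply_left 0 j).symm))
        simp [Matrix.updateRow_ne this, Matrix.one_apply, Pi.single_apply, eq_comm]
    have h3 : ((1 : Mq (n + 1)).updateRow j v).det = v j := by
      rw [← Matrix.cramer_transpose_apply, Matrix.transpose_one, Matrix.cramer_one]
      rfl
    have h4 : ‖((Equiv.Perm.sign (Equiv.swap 0 j) : ℤ) : ℂ)‖ = 1 := by
      rcases Int.units_eq_one_or (Equiv.Perm.sign (Equiv.swap 0 j)) with e | e <;> simp [e]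
    rw [h2, Matrix.det_permute, h3, norm_mul, h4, one_mul] at h1
    rw [Complex.star_def, Complex.mul_conj, Complex.normSq_eq_norm_sq, mul_comm]
    refine Eq.trans (congrArg (tau (n + 1)) (funext fun k => ?_)) (h1.trans (by push_cast; rfl))
    induction k using Fin.cases with
    | zero => rfl
    | succ k =>
      ext p q
      simp [Matrix.single, Matrix.vecMulVec_apply, Pi.single_apply, ← ite_and, eq_comm, and_comm]
  rw [← MultilinearMap.curryLeft_apply, map_sum, _root_.sum_apply, Matrix.sum_apply,
    Finset.mul_sum]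
  exact Finset.sum_congr rfl fun i _ => h (b i)

theorem tau_lower {n : ℕ} {R : Mq (n + 1)} {W : Fin n → Mq (n + 1)} {c : ℝ} (hc : 0 ≤ c)
    (hR : R.PosSemidef) (hW : ∀ k, (W k - (c : ℂ) • (1 : Mq (n + 1))).PosSemidef)
    (j : Fin (n + 1)) : c ^ n * 2 ^ (n + 1) * (R j j).re ≤ (tau (n + 1) (Fin.cons R W)).re := by
  have hE : ∀ i : Fin (n + 1), (Matrix.single i i (1 : ℂ)).PosSemidef ∧
      ((1 : Mq (n + 1)) - Matrix.single i i 1).PosSemidef := fun i => by
    rw [← Matrix.diagonal_single, ← Matrix.diagonal_one, Matrix.diagonal_sub]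
    refine ⟨Matrix.PosSemidef.diagonal fun p => ?_, Matrix.PosSemidef.diagonal fun p => ?_⟩
    · by_cases h : p = i <;> simp [h]
    · by_cases h : p = i <;> simp [h]
  have hc' : (0 : ℂ) ≤ c := Complex.zero_le_real.2 hc
  have h := tau_mono (A := Fin.cons R fun k => (c : ℂ) • Matrix.single (Equiv.swap 0 j k.succ)
    (Equiv.swap 0 j k.succ) 1) (B := Fin.cons R W)
    (Fin.cases hR fun k => (hE _).1.smul hc') (Fin.cases (by simpa using .zero) fun k => by
      have := (hW k).add ((hE (Equiv.swap 0 j k.succ)).2.smul hc')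
      rwa [smul_sub, sub_add_sub_cancel] at this)
  rw [← MultilinearMap.curryLeft_apply, MultilinearMap.map_smul_univ,
    MultilinearMap.curryLeft_apply, tau_diag hR, Finset.prod_const, Finset.card_univ,
    Fintype.card_fin, smul_eq_mul, ← mul_assoc] at h
  have h2 := (Complex.le_def.1 h).1
  rwa [show (c : ℂ) ^ n * 2 ^ (n + 1) = ((c ^ n * 2 ^ (n + 1) : ℝ) : ℂ) by push_cast; rfl,
    Complex.re_ofReal_mul] at h2

/-- the entries of the matrix are coefficients of the form -/
theorem Lw_entry (w : Mq m) (j k : Fin m) : (Lw w *ᵥ ev ∅) {hl j, ah k} = Complex.I * w j k := by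
  have h : ∀ a b : Fin m, ((eps (hl a) * eps (ah b)) *ᵥ ev ∅) {hl j, ah k} =
      if a = j ∧ b = k then 1 else 0 := fun a b => by
    have lt : ∀ p q : Fin m, hl p < ah q := fun p q => by
      simp only [hl, ah, Fin.lt_def, Fin.val_natAdd, Fin.val_castAdd]
      omega
    rw [← Matrix.mulVec_mulVec, eps_ev_min (by simp), eps_ev_min (by simpa using lt a b), ev,
      Pi.single_apply]
    refine if_congr ⟨fun e => ⟨?_, ?_⟩, ?_⟩ rfl rfl
    · have : hl j ∈ (insert (hl a) (insert (ah b) ∅) : FI (m + m)) := e ▸ by simp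
      rcases Finset.mem_insert.1 this with e | e
      · exact (Fin.castAdd_injective _ _ e).symm
      · exact absurd (by simpa using e) (lt j b).ne
    · have : ah k ∈ (insert (hl a) (insert (ah b) ∅) : FI (m + m)) := e ▸ by simp
      rcases Finset.mem_insert.1 this with e | e
      · exact absurd e (lt a k).ne'
      · exact (Fin.natAdd_injective _ _ (show ah k = ah b by simpa using e)).symm
    · rintro ⟨rfl, rfl⟩
      rfl
  simp only [Lw, Matrix.sum_mulVec, Matrix.smul_mulVec, Finset.sum_apply, Pi.smul_apply, h,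
    smul_eq_mul, ite_and, mul_ite, mul_one, mul_zero, Finset.sum_ite_eq', Finset.mem_univ, if_true,
    Finset.sum_ite_irrel, Finset.sum_const_zero]

/-- the density of a product of forms of type `(1,1)` -/
theorem den_prod {V : Mf m} (U : Fin m → Zc V) {e : Chart m V.X} {x : V.X} (h : At e x)
    {A : Fin m → Mq m} (hU : ∀ k, val (fm (U k)) e (e x) = Lw (A k) *ᵥ ev ∅) :
    Bez.den (fm (∏ k, U k)) e (e x) = (tau m A).re := by
  have h1 : ∀ l : List (Fin m), val (fm (l.map U).prod) e (e x) =
      (l.map fun k => Lw (A k)).prod *ᵥ ev ∅ := fun l => by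
    induction l with
    | nil => rw [List.map_nil, List.prod_nil, map_one, val_one h, List.map_nil, List.prod_nil,
        Matrix.one_mulVec]
    | cons i l ih =>
      rw [List.map_cons, List.prod_cons, map_mul, val_mul _ _ h, ih, hU,
        ← (f2b f1a f1b f2a).L_wg, List.map_cons, List.prod_cons, Matrix.mulVec_mulVec]
  rw [Bez.den, ← List.prod_ofFn, List.ofFn_eq_map, h1, val_one h, AlgH.Bq_ev, tau_apply,
    List.ofFn_eq_map, Finset.compl_empty, mulVec_ev, AlgH.sI, Finset.prod_empty, mul_one]

end Vale.Agent.P280Z.Co.EffH
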