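import Vale.Agent.P301Z.Key.Gb1

/-!
# P280Z, row EFF: a function with small complex Hessian in the mean has no deep well
-/

open MeasureTheory Metric Filter Set
open scoped Topology ContDiff

noncomputable section

namespace Vale.Agent.P280Z.Co.EffH

open Vale.Agent.P272.K Vale.Agent.P301Z.Key.Gb

variable {n : ℕ}

theorem cut {G : Cm n → ℝ} {z0 : Cm n} {s : ℝ} (hs : 0 < s)
    (hG : ∀ z ∈ ball z0 (7 * s), ContDiffAt ℝ ∞ G z) :
    ∃ g : Cm n → ℝ, ContDiff ℝ ∞ g ∧ HasCompactSupport g ∧ ∀ z ∈ ball z0 (5 * s), g z = G z := by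
  obtain ⟨g, h1, h2, h3⟩ := exists_cut (G := fun z => G (z + z0)) (ρ := 7 * s) hs (by linarith)
    fun z hz => (hG _ (by simpa [dist_eq_norm] using hz)).comp z (contDiffAt_id.add contDiffAt_const)
  refine ⟨fun z => g (z - z0), h1.comp (contDiff_id.sub contDiff_const),
    h2.comp_homeomorph (Homeomorph.subRight z0), fun z hz => ?_⟩
  have := h3 (z - z0) (by simpa [dist_eq_norm] using hz)
  rwa [sub_add_cancel] at this

theorem int_le_const {φ : Cm n → ℝ} (hφ : Continuous φ) {c : Cm n} {t a : ℝ}
    (h : ∀ z ∈ ball c t, φ z ≤ a) : ∫ z in ball c t, φ z ≤ volume.real (ball c t) * a := by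
  rw [← smul_eq_mul, ← setIntegral_const]
  exact setIntegral_mono_on (intOn fun _ _ => hφ.continuousAt)
    (intOn fun _ _ => continuousAt_const) measurableSet_ball h

theorem const_le_int {φ : Cm n → ℝ} (hφ : Continuous φ) {c : Cm n} {t a : ℝ}
    (h : ∀ z ∈ ball c t, a ≤ φ z) : volume.real (ball c t) * a ≤ ∫ z in ball c t, φ z := by
  rw [← smul_eq_mul, ← setIntegral_const]
  exact setIntegral_mono_on (intOn fun _ _ => continuousAt_const)
    (intOn fun _ _ => hφ.continuousAt) measurableSet_ball h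

theorem bound {G p : Cm n → ℝ} {z0 z1 : Cm n} {s t A C M : ℝ} (hs : 0 < s) (ht : 0 < t)
    (hts : t ≤ s) (hA : 0 ≤ A) (hC : 0 ≤ C) (h1 : dist z1 z0 ≤ s)
    (hG : ∀ z ∈ ball z0 (7 * s), ContDiffAt ℝ ∞ G z)
    (hp : ContinuousOn p (closedBall z0 (4 * s))) (hp0 : ∀ z ∈ closedBall z0 (4 * s), 0 ≤ p z)
    (hI : ∫ z in closedBall z0 (4 * s), p z ≤ volume.real (ball (0 : Cm n) t))
    (hL : ∀ z ∈ closedBall z0 (4 * s), ∀ k,
      -A ≤ (cHess G z k k).re ∧ (cHess G z k k).re ≤ A + p z)
    (hU : ∀ z ∈ closedBall z0 (4 * s), G z ≤ C) (hz1 : ∀ z ∈ ball z1 t, -C ≤ G z)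
    (hz0 : ∀ z ∈ ball z0 t, G z ≤ -M) :
    volume.real (ball z0 s) * M ≤ volume.real (ball z1 (2 * s)) * (2 * C + A * n * (2 * s) ^ 2) +
      volume.real (ball z0 s) * ((A + 1) * n * s ^ 2) := by
  obtain ⟨g, g1, g2, g3⟩ := cut hs hG
  have : IsFiniteMeasure (volume.restrict (ball (0 : Cm n) t)) :=
    isFiniteMeasure_restrict.2 measure_ball_lt_top.ne
  have hτ := vol_pos (0 : Cm n) ht
  set τ := volume.real (ball (0 : Cm n) t) with hτ'
  set F : Cm n → ℝ := fun h => ∫ c in ball (0 : Cm n) t, g (c + h) with hF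
  have F2 : ContDiff ℝ 2 F := par_contDiff _ 2 g1 g2
  have mem : ∀ h ∈ closedBall z0 (3 * s), ∀ c ∈ ball (0 : Cm n) t,
      c + h ∈ closedBall z0 (4 * s) := fun h hh c hc => by
    have a1 : dist (c + h) h < t := by simpa [dist_eq_norm] using hc
    have a2 := dist_triangle (c + h) h z0
    have a3 := mem_closedBall.1 hh
    exact mem_closedBall.2 (by linarith)
  have sub : closedBall z0 (4 * s) ⊆ ball z0 (5 * s) := closedBall_subset_ball (by linarith)
  have ev : ∀ z ∈ closedBall z0 (4 * s), cHess g z = cHess G z := fun z hz =>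
    C2.cHess_congr (eventually_of_mem (isOpen_ball.mem_nhds (sub hz)) g3)
  have gc : ∀ h, Continuous fun c => g (c + h) := fun h =>
    g1.continuous.comp (continuous_id.add continuous_const)
  have dc : ∀ h k, Continuous fun c => (cHess g (c + h) k k).re := fun h k =>
    Complex.continuous_re.comp ((continuous_iff_continuousAt.2 fun z =>
      (C2.contDiffAt_cHess (m := 0) g1.contDiffAt (by norm_cast) k k).continuousAt).comp
      (continuous_id.add continuous_const))
  have lo : ∀ h ∈ closedBall z0 (3 * s), ∀ k, -(τ * A) ≤ (cHess F h k k).re := fun h hh k => by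
    rw [hF, par_diag g1 g2, ← mul_neg]
    refine const_le_int (dc h k) fun c hc => ?_
    rw [ev _ (mem h hh c hc)]
    exact (hL _ (mem h hh c hc) k).1
  have hi : ∀ h ∈ closedBall z0 (3 * s), ∀ k, (cHess F h k k).re ≤ τ * (A + 1) := fun h hh k => by
    have mp := measurePreserving_add_right (volume : Measure (Cm n)) h
    have me := measurableEmbedding_addRight h
    have i1 : IntegrableOn (fun c => p (c + h)) ((· + h) ⁻¹' closedBall z0 (4 * s)) :=
      (mp.integrableOn_comp_preimage me).2 (hp.integrableOn_compact (isCompact_closedBall _ _))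
    have i2 : ∫ c in ball (0 : Cm n) t, p (c + h) ≤ τ := by
      refine le_trans ?_ ((mp.setIntegral_preimage_emb me p _).trans_le hI)
      refine setIntegral_mono_set i1 ?_ (LE.le.eventuallyLE (mem h hh))
      exact (ae_restrict_iff' (me.measurable measurableSet_closedBall)).2
        (Eventually.of_forall fun c hc => hp0 _ hc)
    have i3 : IntegrableOn (fun _ : Cm n => A) (ball 0 t) := intOn fun _ _ => continuousAt_const
    rw [hF, par_diag g1 g2]
    refine (setIntegral_mono_on (g := fun c => A + p (c + h))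
      (intOn fun _ _ => (dc h k).continuousAt) (i3.add (i1.mono_set (mem h hh)))
      measurableSet_ball fun c hc => ?_).trans ?_
    · rw [ev _ (mem h hh c hc)]
      exact (hL _ (mem h hh c hc) k).2
    · rw [integral_add i3 (i1.mono_set (mem h hh)), setIntegral_const, smul_eq_mul]
      linarith
  have up : ∀ h ∈ closedBall z0 (3 * s), F h ≤ τ * C := fun h hh =>
    int_le_const (gc h) fun c hc => by
      rw [g3 _ (sub (mem h hh c hc))]
      exact hU _ (mem h hh c hc)
  have s1 : closedBall z1 (2 * s) ⊆ closedBall z0 (3 * s) :=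
    closedBall_subset_closedBall' (by linarith)
  have s0 : closedBall z0 s ⊆ closedBall z0 (3 * s) := closedBall_subset_closedBall (by linarith)
  have f1 : τ * -C ≤ F z1 := const_le_int (gc z1) fun c hc => by
    rw [g3 _ (sub (mem z1 (s1 (mem_closedBall_self (by linarith))) c hc))]
    exact hz1 _ (by simpa [dist_eq_norm] using hc)
  have f0 : F z0 ≤ τ * -M := int_le_const (gc z0) fun c hc => by
    rw [g3 _ (sub (mem z0 (mem_closedBall_self (by linarith)) c hc))]
    exact hz0 _ (by simpa [dist_eq_norm] using hc)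
  have m1 := submean (f := F) (c := z1) (s := 2 * s) (A := τ * A) (by linarith) (by positivity)
    (fun _ _ => F2.contDiffAt) fun z hz k => lo z (s1 hz) k
  have m0 := submean (f := fun z => -F z) (c := z0) (A := τ * (A + 1)) hs (by positivity)
    (fun _ _ => F2.contDiffAt.neg) fun z hz k => by
      rw [C2.cHess_neg F2.contDiffAt, Matrix.neg_apply, Complex.neg_re, neg_le_neg_iff]
      exact hi z (s0 hz) k
  have iF : ∀ c r, IntegrableOn F (ball c r) := fun c r =>
    intOn fun _ _ => F2.continuous.continuousAt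
  have ic : ∀ c r, IntegrableOn (fun _ : Cm n => τ * C) (ball c r) := fun c r =>
    intOn fun _ _ => continuousAt_const
  have cmp : ∫ z in ball z0 s, (τ * C - F z) ≤ ∫ z in ball z1 (2 * s), (τ * C - F z) := by
    refine setIntegral_mono_set ((ic _ _).sub (iF _ _)) ?_
      (LE.le.eventuallyLE (ball_subset_ball' (by rw [dist_comm]; linarith)))
    exact (ae_restrict_iff' measurableSet_ball).2 (Eventually.of_forall fun z hz =>
      sub_nonneg.2 (up z (s1 (ball_subset_closedBall hz))))
  rw [integral_sub (ic _ _) (iF _ _), integral_sub (ic _ _) (iF _ _), setIntegral_const,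
    setIntegral_const, smul_eq_mul, smul_eq_mul] at cmp
  rw [integral_neg] at m0
  have v0 := vol_pos z0 hs
  have v1 := vol_pos z1 (s := 2 * s) (by linarith)
  have b1 := mul_le_mul_of_nonneg_left f1 v1.le
  have b0 := mul_le_mul_of_nonneg_left f0 v0.le
  have b2 : 0 ≤ volume.real (ball z0 s) * (τ * C) := by positivity
  refine le_of_mul_le_mul_left ?_ hτ
  linarith

end Vale.Agent.P280Z.Co.EffH
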