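import Vale.Agent.P280Z.Co.Sk

/-!
# P280Z: functions and matrices of functions as forms
-/

open scoped Manifold ContDiff Topology Matrix
open Set Filter
open Vale.Agent.P272.K Vale.Agent.P272.K.C2 Vale.Agent.P299.IX Vale.Agent.P299.IX.Fock
  Vale.Agent.P281Z Vale.Agent.P281Z.Hg Vale.Agent.P280Z.Pu
open Vale.Agent.P231.ChW (GDA Ev ch Idem)

noncomputable section

namespace Vale.Agent.P280Z.Co

theorem dg_wg_dg {k : ℕ} (a b : Fk k) (q : ℕ) : ∀ p : ℕ,
    dg (p + q) *ᵥ (wg (dg p *ᵥ a) *ᵥ (dg q *ᵥ b)) = wg (dg p *ᵥ a) *ᵥ (dg q *ᵥ b) := by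
  induction a using F1aH.fk_ind with
  | h0 =>
    intro p
    rw [dg, dg, dgl_ev]
    cases p with
    | zero =>
      simp only [Finset.card_empty, if_true, one_smul, f1a.wg_ev, Matrix.one_mulVec, zero_add]
      rw [← dg, Matrix.mulVec_mulVec, f1a.dg_mul, if_pos rfl]
    | succ p => simp [F1aH.wg_zero]
  | he l u h =>
    intro p
    cases p with
    | zero => simp [Matrix.mulVec_mulVec, dg_zero_eps, F1aH.wg_zero]
    | succ p =>
      rw [Matrix.mulVec_mulVec u, dg_eps, ← Matrix.mulVec_mulVec, f1a.wg_eps,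
        ← Matrix.mulVec_mulVec, Matrix.mulVec_mulVec _ (dg _), Nat.add_right_comm, dg_eps,
        ← Matrix.mulVec_mulVec, h]
  | ha u v h h' =>
    intro p
    rw [Matrix.mulVec_add, f1a.wg_add, Matrix.add_mulVec, Matrix.mulVec_add, h, h']
  | hs c u h =>
    intro p
    rw [Matrix.mulVec_smul, f1a.wg_smul, Matrix.smul_mulVec, Matrix.mulVec_smul, h]

variable {n m : ℕ} {V : Mf n} {W : Mf m}

theorem dgO_mul {p q : ℕ} {u v : Om V} (hu : dgO p u = u) (hv : dgO q v = v) :
    dgO (p + q) (u * v) = u * v := ext fun e x h => by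
  rw [val_dg _ _ h, val_mul _ _ h, ← hu, ← hv, val_dg _ _ h, val_dg _ _ h, dg_wg_dg]

namespace IsFn
variable {a b : V.X → ℂ} {u v : Om V}

theorem ext (h : IsFn a u) (k : IsFn a v) : u = v :=
  Co.ext fun e x he => (h e x he).trans (k e x he).symm

theorem congr (h : IsFn a u) (k : ∀ x, a x = b x) : IsFn b u := fun e x he => k x ▸ h e x he

theorem one : IsFn (fun _ => 1) (1 : Om V) := fun e x he => by rw [val_one he, one_smul]

theorem zero : IsFn (fun _ => 0) (0 : Om V) := fun e x _ => by rw [val_zero, zero_smul]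

theorem add (h : IsFn a u) (k : IsFn b v) : IsFn (fun x => a x + b x) (u + v) := fun e x he => by
  rw [val_add, h e x he, k e x he, add_smul]

theorem sub (h : IsFn a u) (k : IsFn b v) : IsFn (fun x => a x - b x) (u - v) := fun e x he => by
  rw [val_sub, h e x he, k e x he, sub_smul]

theorem smul (c : ℂ) (h : IsFn a u) : IsFn (fun x => c * a x) (c • u) := fun e x he => by
  rw [val_smul, h e x he, mul_smul]

theorem val_mul (h : IsFn a u) (v : Om V) {e : Chart n V.X} {x : V.X} (he : At e x) :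
    val (u * v) e (e x) = a x • val v e (e x) := by
  rw [Co.val_mul _ _ he, h e x he, f1a.wg_smul, f1a.wg_ev, Matrix.smul_mulVec, Matrix.one_mulVec]

theorem mul (h : IsFn a u) (k : IsFn b v) : IsFn (fun x => a x * b x) (u * v) := fun e x he => by
  rw [h.val_mul v he, k e x he, mul_smul]

theorem sum {ι : Type} (s : Finset ι) {a : ι → V.X → ℂ} {u : ι → Om V}
    (h : ∀ i ∈ s, IsFn (a i) (u i)) : IsFn (fun x => ∑ i ∈ s, a i x) (∑ i ∈ s, u i) := by
  classical
  induction s using Finset.induction_on with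
  | empty => simpa using zero
  | insert i s hi ih =>
    simp only [Finset.sum_insert hi]
    exact (h i (Finset.mem_insert_self _ _)).add (ih fun j hj => h j (Finset.mem_insert_of_mem hj))

theorem cj (h : IsFn a u) : IsFn (fun x => star (a x)) (cjO u) := fun e x he => by
  rw [val_cj _ he, h e x he, f1b.cjv_smul, f1b.cjv_ev]

theorem sg (h : IsFn a u) : sgO u = u := Co.ext fun e x he => by
  rw [val_sg _ he, h e x he, Matrix.mulVec_smul, par_ev]

theorem dg0 (h : IsFn a u) : dgO 0 u = u := Co.ext fun e x he => by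
  rw [val_dg _ _ he, h e x he, Matrix.mulVec_smul, dg, dgl_ev]
  simp

theorem pb {a : W.X → ℂ} {u : Om W} (h : IsFn a u) {f : V.X → W.X} (hf : HolM n m f) :
    IsFn (fun x => a (f x)) (pb hf u) := fun e x he => by
  have h' := Pb1H.ca (d := m) (f x)
  rw [show val (Co.pb hf u) e (e x) = _ from pb_is hf u e _ x he h',
    show vl (d := m) (M := W.X) u _ _ = _ from h _ _ h', Matrix.mulVec_smul, f1a.lr_ev]

end IsFn

theorem ex_fn (a : V.X → ℂ)
    (h : ∀ x (e : Chart n V.X), At e x → ContDiffAt ℝ ∞ (fun z => a (e.symm z)) (e x)) : ∃ u : Om V, IsFn a u := by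
  obtain ⟨u, hu⟩ := (gg1 n V.X).mkf (fun e z => a (e.symm z) • ev ∅)
    (fun e x he => (h x e he).smul_const _) fun e e' x he he' => by
      simp only [e.left_inv he.2, e'.left_inv he'.2, Matrix.mulVec_smul, lam_ev_empty]
  exact ⟨u, fun e x he => (hu e x he).self_of_nhds.trans (by simp only [e.left_inv he.2])⟩

variable {α β γ : Type}

/-- `M` is the matrix of functions `a` -/
def IsM (a : V.X → Matrix α β ℂ) (M : Matrix α β (Om V)) : Prop :=
  ∀ i j, IsFn (fun x => a x i j) (M i j)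

theorem ex_M (a : V.X → Matrix α β ℂ) (h : ∀ x, SmAt n a x) : ∃ M, IsM a M := by
  choose M hM using fun i j => ex_fn (fun x => a x i j) fun x e he => h x e he i j
  exact ⟨Matrix.of M, hM⟩

namespace IsM
variable {a a' : V.X → Matrix α β ℂ} {M M' : Matrix α β (Om V)}

theorem ext (h : IsM a M) (k : IsM a' M') (e : ∀ x, a x = a' x) : M = M' :=
  Matrix.ext fun i j => ((h i j).congr fun x => by rw [e x]).ext (k i j)

theorem mul [Fintype β] {b : V.X → Matrix β γ ℂ} {N : Matrix β γ (Om V)} (h : IsM a M)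
    (k : IsM b N) : IsM (fun x => a x * b x) (M * N) := fun i j =>
  IsFn.sum _ fun l _ => (h i l).mul (k l j)

theorem ev (h : IsM a M) : Ev M := Matrix.ext fun i j => (h i j).sg

theorem ct (h : IsM a M) : IsM (fun x => (a x)ᴴ) (M.map cjO)ᵀ := fun i j => (h j i).cj

theorem idem [Fintype α] [DecidableEq α] {a : V.X → Matrix α α ℂ} {M : Matrix α α (Om V)}
    (h : IsM a M) (k : ∀ x, a x * a x = a x) : Idem M := ⟨h.ev, (h.mul h).ext h k⟩

end IsM

theorem dgO_ch [Fintype α] [DecidableEq α] {P : Matrix α α (Om V)} (h : ∀ i j, dgO 0 (P i j) = P i j)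
    (k : ℕ) : dgO (k + k) (ch k P) = ch k P := by
  have mul : ∀ (p q : ℕ) (A B : Matrix α α (Om V)), (∀ i j, dgO p (A i j) = A i j) →
      (∀ i j, dgO q (B i j) = B i j) → ∀ i j, dgO (p + q) ((A * B) i j) = (A * B) i j :=
    fun p q A B hA hB i j => by
      rw [Matrix.mul_apply, map_sum]
      exact Finset.sum_congr rfl fun l _ => dgO_mul (hA i l) (hB l j)
  have h1 : ∀ i j, dgO 1 (P231.ChW.dM P i j) = P231.ChW.dM P i j := fun i j =>
    (dg_d 0 (P i j)).trans (congrArg dO (h i j))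
  have h2 := mul 1 1 _ _ h1 h1
  have h3 : ∀ k : ℕ, ∀ i j, dgO (k + k) ((P231.ChW.dd P ^ k) i j) = (P231.ChW.dd P ^ k) i j := by
    intro k
    induction k with
    | zero =>
      intro i j
      rw [pow_zero, Matrix.one_apply]
      split_ifs
      · exact IsFn.one.dg0
      · exact map_zero _
    | succ k ih =>
      rw [pow_succ, show k + 1 + (k + 1) = k + k + (1 + 1) by ring]
      exact mul _ _ _ _ ih h2
  have h4 := mul 0 _ _ _ h (h3 k)
  rw [zero_add] at h4
  rw [ch, Matrix.trace, map_sum]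
  exact Finset.sum_congr rfl fun i _ => h4 i i

theorem cj_ch [Fintype α] [DecidableEq α] (P : Matrix α α (Om V)) (k : ℕ) :
    cjO (ch k P) = ch k (P.map cjO) := by
  have h : P231.ChW.dM (P.map cjO) = (P231.ChW.dM P).map cjO :=
    Matrix.ext fun i j => (cj_d (P i j)).symm
  rw [ch, ch, P231.ChW.dd, P231.ChW.dd, h, ← Matrix.map_mul, ← Matrix.map_pow, ← Matrix.map_mul,
    Matrix.trace, map_sum]
  rfl

theorem SmAt.congr {a b : V.X → Matrix α β ℂ} {x : V.X} (h : SmAt n a x)
    (k : ∀ᶠ y in 𝓝 x, b y = a y) : SmAt n b x := fun e he i j =>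
  (h e he i j).congr_of_eventuallyEq ((G1H.ev_src he k).mono fun _ t => by simp only [t])

/-- homomorphisms of trivial bundles are smooth matrices -/
theorem sm_of_hom {N N' : ℕ} {φ : ∀ x, (VB.triv V.X N).A x →ₗ[ℂ] (VB.triv V.X N').A x}
    (h : IsHom n (VB.triv V.X N) (VB.triv V.X N') φ) (x : V.X) :
    SmAt n (fun y => LinearMap.toMatrix' (show (Fin N → ℂ) →ₗ[ℂ] Fin N' → ℂ from φ y)) x := by
  obtain ⟨_, _, -, -, a, h1, h2⟩ := h x
  refine SmAt.congr h1 (h2.mono fun y t => ?_)
  have t' : (show (Fin N → ℂ) →ₗ[ℂ] Fin N' → ℂ from φ y) = Matrix.toLin' (a y) := t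
  rw [t']
  exact LinearMap.toMatrix'_toLin' _

end Vale.Agent.P280Z.Co
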