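import Vale.Agent.P281Z.Hg.F2a

/-!
# P280Z, row HO: `sl_2` triples modulo a stable subspace
-/

open Vale.Agent.P281Z.Hg Finset

noncomputable section

namespace Vale.Agent.P280Z.Co.HoH

variable {R : Type} [Ring R] [Algebra ℂ R] {D : ℕ} {L Lm H : R} {N : Submodule ℂ R}

theorem H_pow (S : SL2 D L Lm H) (a : ℕ) : H * L ^ a = L ^ a * H + (2 * a : ℂ) • L ^ a := by
  induction a with
  | zero => simp
  | succ a ih =>
    rw [pow_succ', ← mul_assoc, eq_add_of_sub_eq' S.HL, add_mul, mul_assoc, ih, mul_add,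
      smul_mul_assoc, mul_smul_comm, ← mul_assoc, add_assoc, ← add_smul]
    push_cast
    rw [mul_add, mul_one]

theorem Lm_pow (S : SL2 D L Lm H) (a : ℕ) :
    Lm * L ^ (a + 1) = L ^ (a + 1) * Lm - (a + 1 : ℂ) • (L ^ a * H) - ((a + 1) * a : ℂ) • L ^ a := by
  have e : Lm * L = L * Lm - H := by rw [← S.br, sub_sub_cancel]
  induction a with
  | zero => simp [e]
  | succ a ih =>
    rw [pow_succ' L (a + 1), ← mul_assoc, e, sub_mul, mul_assoc, ih, H_pow S, mul_sub, mul_sub,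
      mul_smul_comm, mul_smul_comm, ← mul_assoc, ← mul_assoc, ← pow_succ' L a]
    push_cast
    module

theorem pow_mem {A : R} (h : ∀ x ∈ N, A * x ∈ N) (k : ℕ) {x : R} (hx : x ∈ N) : A ^ k * x ∈ N := by
  induction k with
  | zero => simpa using hx
  | succ k ih =>
    rw [pow_succ', mul_assoc]
    exact h _ ih

theorem ex_mem {A : R} (h : ∀ x ∈ N, A * x ∈ N) (k : ℕ) {x : R} (hx : x ∈ N) : ex k A * x ∈ N := by
  rw [ex, sum_mul]
  exact N.sum_mem fun i _ => by
    rw [smul_mul_assoc]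
    exact N.smul_mem _ (pow_mem h i hx)

variable (S : SL2 D L Lm H) (hL : ∀ x ∈ N, L * x ∈ N) (hm : ∀ x ∈ N, Lm * x ∈ N)
include S hL

/-- the commutation rule on a vector of weight `-j` -/
theorem step {y : R} {j : ℕ} (h : H * y + (j : ℂ) • y ∈ N) (a : ℕ) :
    Lm * (L ^ (a + 1) * y) - L ^ (a + 1) * (Lm * y) - ((a + 1) * (j - a) : ℂ) • (L ^ a * y) ∈ N := by
  have h1 := N.smul_mem (-(a + 1 : ℂ)) (pow_mem hL a h)
  rw [← mul_assoc, Lm_pow S, sub_mul, sub_mul, smul_mul_assoc, smul_mul_assoc, mul_assoc,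
    mul_assoc]
  rw [mul_add, mul_smul_comm] at h1
  refine (congrArg (· ∈ N) ?_).mp h1
  module

include hm

omit hL in
theorem wt_Lm {y : R} {j : ℕ} (h : H * y + (j : ℂ) • y ∈ N) :
    H * (Lm * y) + ((j + 2 : ℕ) : ℂ) • (Lm * y) ∈ N := by
  have h1 := hm _ h
  rw [← mul_assoc, eq_add_of_sub_eq' S.HLm, add_mul, neg_mul, smul_mul_assoc, mul_assoc]
  rw [mul_add, mul_smul_comm] at h1
  refine (congrArg (· ∈ N) ?_).mp h1
  push_cast
  module

theorem pow_Lm {y : R} {j : ℕ} (h : H * y + (j : ℂ) • y ∈ N) (h1 : L ^ (j + 1) * y ∈ N) :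
    L ^ (j + 2) * (Lm * y) ∈ N := by
  have h2 := step S hL h j
  rw [sub_self, mul_zero, zero_smul, sub_zero] at h2
  have h3 := hL _ (N.sub_mem (hm _ h1) h2)
  rwa [sub_sub_cancel, ← mul_assoc, ← pow_succ'] at h3

theorem down {y : R} {j : ℕ} (h : H * y + (j : ℂ) • y ∈ N) (h1 : Lm * y ∈ N) (i : ℕ) (hi : i ≤ j)
    (h2 : L ^ i * y ∈ N) : y ∈ N := by
  induction i with
  | zero => simpa using h2
  | succ a ih =>
    have h3 := N.sub_mem (N.sub_mem (hm _ h2) (pow_mem hL (a + 1) h1)) (step S hL h a)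
    rw [sub_sub_cancel] at h3
    have h4 : ((a + 1) * (j - a) : ℂ) ≠ 0 := mul_ne_zero (Nat.cast_add_one_ne_zero a)
      (sub_ne_zero.2 (Nat.cast_injective.ne (by omega)))
    exact ih (by omega) ((N.smul_mem_iff h4).1 h3)

/-- hard Lefschetz -/
theorem inj {y : R} {j : ℕ} (h : H * y + (j : ℂ) • y ∈ N) (h1 : L ^ j * y ∈ N) : y ∈ N := by
  have k : ∀ (m : ℕ) (y : R) (j : ℕ), Lm ^ m * y ∈ N → H * y + (j : ℂ) • y ∈ N →
      L ^ j * y ∈ N → y ∈ N := by
    intro m
    induction m with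
    | zero => exact fun y j h _ _ => by simpa using h
    | succ m ih =>
      intro y j h0 h h1
      have h2 : L ^ (j + 1) * y ∈ N := by
        rw [pow_succ', mul_assoc]
        exact hL _ h1
      exact down S hL hm h (ih _ (j + 2) (by rwa [← mul_assoc, ← pow_succ]) (wt_Lm S hm h)
        (pow_Lm S hL hm h h2)) j le_rfl h1
  exact k (D + D + 1) y j (by rw [S.nLm, zero_mul]; exact N.zero_mem) h h1

/-- primitive vectors -/
theorem prim {y : R} {j : ℕ} (h : H * y + (j : ℂ) • y ∈ N) (h1 : L ^ (j + 1) * y ∈ N) :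
    Lm * y ∈ N := inj S hL hm (wt_Lm S hm h) (pow_Lm S hL hm h h1)

/-- the Weyl element on primitive vectors -/
theorem weyl {j : ℕ} (hj : j ≤ D) (h : H * 1 + (j : ℂ) • 1 ∈ N) (h1 : L ^ (j + 1) * 1 ∈ N) :
    wy D L Lm - (j.factorial : ℂ)⁻¹ • L ^ j ∈ N := by
  have h2 := prim S hL hm h h1
  have nz : ∀ a : ℕ, (a.factorial : ℂ) ≠ 0 := fun a => Nat.cast_ne_zero.2 a.factorial_ne_zero
  obtain ⟨t, ht⟩ : ∃ t : ℕ → R, ∀ a, t a = (a.factorial : ℂ)⁻¹ • L ^ a := ⟨_, fun _ => rfl⟩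
  have a1 : ∀ a, Lm * t (a + 1) - (j - a : ℂ) • t a ∈ N := fun a => by
    have h3 := N.smul_mem ((a + 1).factorial : ℂ)⁻¹ (N.add_mem (step S hL h a)
      (pow_mem hL (a + 1) h2))
    simp only [mul_one] at h3
    refine (congrArg (· ∈ N) ?_).mp h3
    rw [ht, ht, mul_smul_comm, Nat.factorial_succ]
    have := nz a
    have := Nat.cast_add_one_ne_zero (R := ℂ) a
    push_cast
    match_scalars
    · rfl
    · ring
    · field_simp
  have a2 : ∀ b a, a + b = j → (b.factorial : ℂ)⁻¹ • Lm ^ b * t j - t a ∈ N := by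
    intro b
    induction b with
    | zero =>
      rintro a rfl
      simp
    | succ b ih =>
      intro a e
      have h3 := N.smul_mem (b + 1 : ℂ)⁻¹ (N.add_mem (hm _ (ih (a + 1) (by omega))) (a1 a))
      refine (congrArg (· ∈ N) ?_).mp h3
      rw [← e, mul_sub, smul_mul_assoc, smul_mul_assoc, mul_smul_comm, ← mul_assoc, ← pow_succ',
        Nat.factorial_succ]
      have := nz b
      have := Nat.cast_add_one_ne_zero (R := ℂ) b
      push_cast
      match_scalars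
      · field_simp
      · ring
      · field_simp
        ring
  have a3 : ∀ b, Lm ^ (j + 1 + b) * t j ∈ N := fun b => by
    have h3 := N.add_mem (hm _ (a2 j 0 (zero_add j))) h2
    rw [ht 0, mul_sub, smul_mul_assoc, mul_smul_comm] at h3
    simp only [Nat.factorial_zero, Nat.cast_one, inv_one, pow_zero, one_smul, sub_add_cancel] at h3
    rw [add_comm (j + 1), pow_add, pow_succ', mul_assoc, mul_assoc]
    exact pow_mem hm b ((N.smul_mem_iff (inv_ne_zero (nz j))).1 h3)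
  have a4 : ∀ b, L ^ (j + 1 + b) ∈ N := fun b => by
    rw [add_comm (j + 1), pow_add]
    simpa using pow_mem hL b h1
  obtain ⟨r, hr⟩ : ∃ r, D + D + 2 = j + 1 + r := ⟨D + D + 1 - j, by omega⟩
  have a5 : ex (D + D + 2) Lm * t j - ex (D + D + 2) L ∈ N := by
    rw [hr, ex, ex, sum_range_add _ (j + 1) r, sum_range_add _ (j + 1) r, add_mul, add_sub_add_comm,
      sum_mul, sum_mul, ← sum_range_reflect (fun k => (k.factorial : ℂ)⁻¹ • L ^ k),
      ← sum_sub_distrib]
    refine N.add_mem (N.sum_mem fun b hb => ?_) (N.sub_mem (N.sum_mem fun b _ => ?_)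
      (N.sum_mem fun b _ => N.smul_mem _ (a4 b)))
    · rw [← ht]
      have := mem_range.1 hb
      exact a2 b _ (by omega)
    · rw [smul_mul_assoc]
      exact N.smul_mem _ (a3 b)
  have a6 : ex (D + D + 2) L * t j - t j ∈ N := by
    rw [ex, sum_range_succ', add_mul, sum_mul]
    simp only [Nat.factorial_zero, Nat.cast_one, inv_one, pow_zero, one_smul, one_mul,
      add_sub_cancel_right]
    refine N.sum_mem fun b _ => ?_
    rw [ht, smul_mul_smul_comm, ← pow_add, show b + 1 + j = j + 1 + b by omega]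
    exact N.smul_mem _ (a4 b)
  have a7 := ex_mem hL (D + D + 2) (ex_mem (A := -Lm) (fun x hx => by
    rw [neg_mul]; exact N.neg_mem (hm x hx)) (D + D + 2) a5)
  have a8 := F2aH.ex_inv (F2aH.nLm' S) (Nat.le_succ (D + D + 1))
  rw [neg_neg] at a8
  rw [mul_sub, ← mul_assoc, a8, one_mul, mul_sub, ← mul_assoc] at a7
  have a9 := N.sub_mem a6 a7
  rwa [sub_sub_sub_cancel_left, ht] at a9

end Vale.Agent.P280Z.Co.HoH
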