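import Vale.Agent.P280Z.Co.HoA
import Vale.Agent.P281Z.Hg.Ab0a
import Vale.Agent.P281Z.Hg.Ab1

/-!
# P280Z, row HO: hard Lefschetz and Hodge-Riemann for an abstract Kähler package
-/

open scoped Topology ComplexOrder
open Vale.Agent.P281Z.Hg Filter

noncomputable section

namespace Vale.Agent.P280Z.Co.HoH

variable {S : Type} [AddCommGroup S] [Module ℂ S] {D : ℕ} {X : Cx S D} {K : KP X} {z : S}
  {v : ℕ → S} {j k m : ℕ}

/-- the operators which send `v` to a null sequence -/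
def Nv (hb : K.KIb) (v : ℕ → S) : Submodule ℂ (Module.End ℂ S) where
  carrier := {T | K.Null fun s => T (v s)}
  add_mem' := fun h h' => hb.nf_add h h'
  zero_mem' := hb.nf_zero fun _ => rfl
  smul_mem' := fun c _ h => hb.nf_smul c h

theorem Nv_mul (hb : K.KIb) {T : Module.End ℂ S} (hT : K.Bdd T) :
    ∀ x ∈ Nv hb v, T * x ∈ Nv hb v := fun x hx => hb.nf_map (u := fun s => x (v s)) hT hx

theorem rep_pow (hh : K.KH) (h : K.Rep z v) (j : ℕ) :
    K.Rep ((K.L ^ j) z) fun s => (K.L ^ j) (v s) := by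
  induction j with
  | zero => exact h
  | succ j ih =>
    rw [pow_succ']
    exact hh.rL ih

theorem wt_mem (hX : X.OK) (hb : K.KIb) (hv : ∀ s, X.dg m (v s) = v s) (e : m + j = D) :
    (X.Nd - (D : ℂ) • 1) * 1 + (j : ℂ) • 1 ∈ Nv hb v := hb.nf_zero fun s => by
  have h : X.Nd (X.dg m (v s)) = (m : ℂ) • X.dg m (v s) :=
    LinearMap.congr_fun (hX.zgd.wt_mul (fun m => (m : ℂ)) m) (v s)
  have e' : (D : ℂ) = m + j := by rw [← e, Nat.cast_add]
  rw [hv] at h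
  simp only [mul_one, LinearMap.add_apply, LinearMap.sub_apply, LinearMap.smul_apply,
    Module.End.one_apply, h, e']
  module

theorem dg_idem (hX : X.OK) (m : ℕ) (a : S) : X.dg m (X.dg m a) = X.dg m a :=
  LinearMap.congr_fun (hX.zgd.idem m) a

theorem nul_cj (hX : X.OK) (h : z ∈ X.Nul) : X.cj z ∈ X.Nul :=
  ⟨by rw [← hX.cjd, h.1, map_zero], fun y hy => by
    rw [← hX.cjcj y, hX.Qcj, h.2 _ (by rw [← hX.cjd, hy, map_zero]), star_zero, mul_zero]⟩

theorem Q_pow (h : K.Alg) (j : ℕ) (a b : S) :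
    X.Q ((K.L ^ j) a) b = (-1) ^ j * X.Q a ((K.L ^ j) b) := by
  induction j generalizing b with
  | zero => simp
  | succ j ih =>
    rw [pow_succ' K.L, Module.End.mul_apply, h.QL, ih, ← Module.End.mul_apply, ← pow_succ,
      ← pow_succ', pow_succ]
    ring

theorem cj_pow (h : K.Alg) (j : ℕ) (a : S) : X.cj ((K.L ^ j) a) = (K.L ^ j) (X.cj a) := by
  induction j with
  | zero => rfl
  | succ j ih => rw [pow_succ', Module.End.mul_apply, h.cjL, ih, Module.End.mul_apply]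

theorem pr_pow (h : K.Alg) (j p : ℕ) (a : S) :
    (K.L ^ j) (K.pr p a) = K.pr (p + j) ((K.L ^ j) a) := by
  induction j with
  | zero => rfl
  | succ j ih =>
    rw [pow_succ', Module.End.mul_apply, ih, Module.End.mul_apply]
    exact (KP.app (h.prL _) _).symm

variable (h : K.OK) (ha : K.KIa) (hb : K.KIb) (hh : K.KH)
include h hb hh

/-- hard Lefschetz -/
theorem hl_abs (hz : X.Cl m z) (e : m + j = D) (h1 : (K.L ^ j) z ∈ X.Nul) : z ∈ X.Nul := by
  obtain ⟨u, hu⟩ := hh.ex z hz.1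
  have hv := hh.rdg m hu
  rw [hz.2] at hv
  exact (hh.nul hv).2 (inj (N := Nv hb _) (h.alg.zsl h.cx) (Nv_mul hb h.alg.bL)
    (Nv_mul hb h.alg.bLm) (wt_mem h.cx hb (fun s => dg_idem h.cx m _) e)
    ((hh.nul (rep_pow hh hv j)).1 h1))

/-- the Hodge-Riemann relation -/
theorem hr_abs (hv : K.Rep z v) (h1 : ∀ s, X.dg (k + k) (v s) = v s)
    (h2 : ∀ s, K.pr k (v s) = v s) (e : k + k + j = D) (h3 : (K.L ^ (j + 1)) z ∈ X.Nul)
    (h4 : z ∉ X.Nul) : 0 < K.c * X.Q (X.cj z) ((K.L ^ j) z) := by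
  have hw : K.Null fun s => (K.W - (j.factorial : ℂ)⁻¹ • K.L ^ j) (v s) :=
    weyl (N := Nv hb v) (h.alg.zsl h.cx) (Nv_mul hb h.alg.bL) (Nv_mul hb h.alg.bLm) (by omega)
      (wt_mem h.cx hb h1 e) ((hh.nul (rep_pow hh hv (j + 1))).1 h3)
  have hC : ∀ s, K.C (v s) = v s := fun s => by
    have a1 := LinearMap.congr_fun (h.alg.zgd.wt_mul (fun m => (-1 : ℂ) ^ m) k) (v s)
    have a2 := LinearMap.congr_fun (h.cx.zgd.wt_mul (fun m => Complex.I ^ m) (k + k)) (v s)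
    rw [Module.End.mul_apply, LinearMap.smul_apply] at a1 a2
    rw [h2] at a1
    rw [h1] at a2
    rw [KP.zC_eq, Module.End.mul_apply, a1, map_smul, a2, smul_smul, pow_add, ← mul_pow, ← mul_pow,
      Complex.I_mul_I, neg_mul_neg, one_mul, one_pow, one_smul]
  obtain ⟨C, hC0, hQ⟩ := hb.bQ
  have t1 := hb.tz hC0 hQ (hb.cau_bf (hh.rcj hv).cau) hw
  have t2 := hh.Qlim (hh.rcj hv) (rep_pow hh hv j)
  have t3 := (t1.add (t2.const_mul (j.factorial : ℂ)⁻¹)).const_mul K.c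
  have t4 : Tendsto (fun s => ((K.nrm (v s) ^ 2 : ℝ) : ℂ)) atTop
      (𝓝 (K.c * (0 + (j.factorial : ℂ)⁻¹ * X.Q (X.cj z) ((K.L ^ j) z)))) := t3.congr fun s => by
    rw [hb.sq, Complex.conj_eq_iff_re.1 (h.alg.herm _ _).symm, KP.ip, hC, LinearMap.sub_apply,
      map_sub, LinearMap.smul_apply, map_smul, smul_eq_mul, sub_add_cancel]
  have t5 := ge_of_tendsto' t4 fun s => Complex.zero_le_real.2 (sq_nonneg _)
  have t6 : K.c * X.Q (X.cj z) ((K.L ^ j) z) = (j.factorial : ℂ) *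
      (K.c * (0 + (j.factorial : ℂ)⁻¹ * X.Q (X.cj z) ((K.L ^ j) z))) := by
    have : (j.factorial : ℂ) ≠ 0 := Nat.cast_ne_zero.2 j.factorial_ne_zero
    field_simp
    ring
  rw [t6]
  refine mul_pos (Nat.cast_pos.2 j.factorial_pos) (lt_of_le_of_ne t5 fun h0 => h4 ?_)
  rw [← h0] at t4
  exact (hh.nul hv).2 (hb.nf_sq ((Complex.continuous_re.tendsto 0).comp t4))

omit hb in
theorem rep_tp (hv : K.Rep z v) (hz : X.dg (k + k) z = z)
    (h1 : K.Null fun s => v s - K.pr k (v s)) : ∃ u, K.Rep z u ∧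
    (∀ s, X.dg (k + k) (u s) = u s) ∧ ∀ s, K.pr k (u s) = u s := by
  have h2 := hh.rdg (k + k) (hh.congr hv (hh.hpr k hv.toHar) h1)
  rw [hz] at h2
  exact ⟨_, h2, fun s => dg_idem h.cx _ _, fun s => (KP.app (h.alg.pr_dg _ _) _).trans
    (congrArg _ (LinearMap.congr_fun (h.alg.zgd.idem k) _))⟩

include ha in
/-- closed forms of pure type have harmonic representatives of the same type -/
theorem rep_pure (hz : X.Cl (k + k) z) (h1 : K.pr k z = z) : ∃ u, K.Rep z u ∧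
    (∀ s, X.dg (k + k) (u s) = u s) ∧ ∀ s, K.pr k (u s) = u s := by
  obtain ⟨v, hv⟩ := hh.ex z hz.1
  refine rep_tp h hh hv hz.2 (hb.nf_sq ?_)
  obtain ⟨y, hy⟩ := hv.coh
  have hu : K.Har fun s => v s + (-1 : ℂ) • K.pr k (v s) :=
    hb.har_add hv.toHar (hb.har_smul _ (hh.hpr k hv.toHar))
  simp only [neg_one_smul, ← sub_eq_add_neg] at hu
  have t1 := hb.tz' zero_le_one hb.cs' hy (hb.cau_bf hu.cau)
  have t2 := hh.orth hu y (hb.bf_d hv.cau hy)
  have t3 := (Complex.continuous_re.tendsto _).comp (t1.add t2)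
  rw [add_zero, Complex.zero_re] at t3
  refine t3.congr fun s => ?_
  have e : ∀ a, K.ip (K.pr k a) (v s - K.pr k (v s)) = 0 := fun a => by
    rw [← ha.adjpr, map_sub, show K.pr k (K.pr k (v s)) = _ from
      LinearMap.congr_fun (h.alg.zgd.idem k) _, sub_self, ha.ip_zero_r]
  have e1 := e z
  have e2 := ha.ip_add_l (v s - z) z (v s - K.pr k (v s))
  have e3 := ha.ip_add_l (v s - K.pr k (v s)) (K.pr k (v s)) (v s - K.pr k (v s))
  rw [h1] at e1
  rw [sub_add_cancel, e1, add_zero] at e2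
  rw [sub_add_cancel, e, add_zero] at e3
  rw [Function.comp_apply, ← ha.ip_add_l, sub_add_cancel, hb.sq, ← e2, e3]

/-- a class which spans the primitive space has type (k,k) -/
theorem rep_one (hz : X.Cl (k + k) z) (hc : X.cj z = z) (h1 : (K.L ^ j) z ∈ X.Nul)
    (h2 : ∀ y, X.Cl (k + k) y → X.cj y = y → (K.L ^ j) y ∈ X.Nul → ∃ c : ℂ, y - c • z ∈ X.Nul) :
    ∃ u, K.Rep z u ∧ (∀ s, X.dg (k + k) (u s) = u s) ∧ ∀ s, K.pr k (u s) = u s := by
  have h3 : ∀ y, X.Cl (k + k) y → (K.L ^ j) y ∈ X.Nul → ∃ c : ℂ, y - c • z ∈ X.Nul := by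
    intro y hy hn
    have a1 : X.d (X.cj y) = 0 := by rw [← h.cx.cjd, hy.1, map_zero]
    have a2 : X.dg (k + k) (X.cj y) = X.cj y := by rw [← h.cx.cjdg, hy.2]
    have a3 : (K.L ^ j) (X.cj y) ∈ X.Nul := cj_pow h.alg j y ▸ nul_cj h.cx hn
    obtain ⟨a, ha⟩ := h2 (y + X.cj y) ⟨by rw [map_add, hy.1, a1, add_zero],
      by rw [map_add, hy.2, a2]⟩ (by rw [map_add, h.cx.cjcj, add_comm])
      (by rw [map_add]; exact add_mem hn a3)
    obtain ⟨b, hb⟩ := h2 (Complex.I • (y - X.cj y))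
      ⟨by rw [map_smul, map_sub, hy.1, a1, sub_zero, smul_zero], by rw [map_smul, map_sub, hy.2, a2]⟩
      (by rw [map_smulₛₗ, map_sub, h.cx.cjcj, Complex.conj_I, neg_smul, ← smul_neg, neg_sub])
      (by rw [map_smul, map_sub]; exact X.Nul.smul_mem _ (sub_mem hn a3))
    refine ⟨2⁻¹ * (a - Complex.I * b), (congrArg (· ∈ X.Nul) ?_).mp
      (X.Nul.smul_mem 2⁻¹ (sub_mem ha (X.Nul.smul_mem Complex.I hb)))⟩
    rw [smul_sub Complex.I, smul_smul, Complex.I_mul_I]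
    module
  obtain ⟨u, hu⟩ := hh.ex z hz.1
  have hv := hh.rdg (k + k) hu
  rw [hz.2] at hv
  obtain ⟨v, e⟩ : ∃ v : ℕ → S, v = fun s => X.dg (k + k) (u s) := ⟨_, rfl⟩
  have hd : ∀ s, X.dg (k + k) (v s) = v s := fun s => by rw [e]; exact dg_idem h.cx _ _
  rw [← e] at hv
  have id : ∀ p a, K.pr p (K.pr p a) = K.pr p a := fun p a =>
    LinearMap.congr_fun (h.alg.zgd.idem p) a
  have k1 : ∀ p, p ≠ k → K.Null fun s => K.pr p (v s) := by
    intro p hp
    obtain ⟨y, hy⟩ := hh.har (hh.hpr p hv.toHar)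
    have b1 := hh.rdg (k + k) hy
    simp only [← KP.app (h.alg.pr_dg p (k + k)), hd] at b1
    obtain ⟨c, hc'⟩ := h3 _ ⟨b1.cl, dg_idem h.cx _ _⟩ ((hh.nul (rep_pow hh b1 j)).2
      ((hb.nf_map (hb.bpr (p + j)) ((hh.nul (rep_pow hh hv j)).1 h1)).congr fun s =>
        (pr_pow h.alg j p _).symm))
    have b2 := hh.uniq (hh.ncongr b1 hc') (hh.smul c hv)
    by_cases h1 : c = 1
    · rcases lt_or_ge (k + k) p with h5 | h5
      · exact hb.nf_zero fun s => by rw [← hd, KP.app0 (h.alg.pr_lt p _ h5)]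
      obtain ⟨q, hq⟩ := Nat.exists_eq_add_of_le h5
      have b3 := hh.rcj hv
      rw [hc] at b3
      have b4 := hh.uniq hv b3
      have b5 := hb.nf_map (hb.bpr p) (hb.nf_sub b4 (hb.nf_map h.alg.bcj b2))
      refine b5.congr fun s => ?_
      have b6 := h.alg.cjpr p q (v s)
      rw [← hq, hd, ← h.cx.cjdg, hd] at b6
      rw [h1, one_smul, map_sub X.cj, b6, sub_sub_sub_cancel_right, map_sub,
        KP.app0 (h.alg.zgd.ne (by omega)), sub_zero]
    · refine (hb.nf_smul (1 - c)⁻¹ (hb.nf_map (hb.bpr p) b2)).congr fun s => ?_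
      rw [map_sub, map_smul, id, ← one_smul ℂ (K.pr p (v s)), smul_smul, ← sub_smul, mul_one,
        smul_smul, inv_mul_cancel₀ (sub_ne_zero.2 (Ne.symm h1))]
  refine rep_tp h hh hv hz.2 ?_
  have k2 : (1 - K.pr k) * ∑ p ∈ Finset.range (D + 1), K.pr p ∈ Nv hb v := by
    rw [Finset.mul_sum]
    refine sum_mem fun p _ => ?_
    rw [sub_mul, one_mul, h.alg.pr_mul]
    split_ifs with e
    · rw [sub_self]
      exact zero_mem _
    · rw [sub_zero]
      exact k1 p (Ne.symm e)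
  rw [h.alg.pr_sum, mul_one] at k2
  exact k2

end Vale.Agent.P280Z.Co.HoH
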