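import Vale.Agent.P280Z.Co.Sk

/-!
# P280Z: grading, integral and pull back on the even real de Rham rings
-/

open scoped Manifold ContDiff Topology Matrix ComplexOrder
open Set Filter MeasureTheory
open Vale.Agent.P272.K Vale.Agent.P272.K.C2 Vale.Agent.P299.IX Vale.Agent.P299.IX.Fock
  Vale.Agent.P281Z Vale.Agent.P281Z.Hg Vale.Agent.P281Z.Hg.G2H Vale.Agent.P280Z.Pu

noncomputable section

namespace Vale.Agent.P280Z.Co

namespace RgH

section pt
variable {N : ℕ}

theorem dg_ev0 (j : ℕ) : (dg j : FM N) *ᵥ ev ∅ = (if 0 = j then (1 : ℂ) else 0) • ev ∅ := by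
  rw [dg, dgl_ev, Finset.card_empty]

theorem dg_dg (j : ℕ) (u : Fk N) : dg j *ᵥ (dg j *ᵥ u) = dg j *ᵥ u := by
  rw [Matrix.mulVec_mulVec, f1a.dg_mul, if_pos rfl]

theorem dg_wg (j k : ℕ) (a b : Fk N) :
    dg (j + k) *ᵥ (wg (dg j *ᵥ a) *ᵥ (dg k *ᵥ b)) = wg (dg j *ᵥ a) *ᵥ (dg k *ᵥ b) := by
  induction a using F1aH.fk_ind generalizing j with
  | h0 =>
    rw [dg_ev0]
    split_ifs with h
    · subst h
      rw [one_smul, f1a.wg_ev, Matrix.one_mulVec, zero_add, dg_dg]
    · rw [zero_smul, F1aH.wg_zero, Matrix.zero_mulVec, Matrix.mulVec_zero]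
  | he l u h =>
    rw [Matrix.mulVec_mulVec u]
    cases j with
    | zero => rw [dg_zero_eps, Matrix.zero_mulVec, F1aH.wg_zero, Matrix.zero_mulVec,
        Matrix.mulVec_zero]
    | succ j =>
      rw [dg_eps, ← Matrix.mulVec_mulVec u, f1a.wg_eps, ← Matrix.mulVec_mulVec,
        Matrix.mulVec_mulVec _ (dg _) (eps l), Nat.add_right_comm, dg_eps, ← Matrix.mulVec_mulVec,
        h]
  | ha u v h h' => rw [Matrix.mulVec_add, f1a.wg_add, Matrix.add_mulVec, Matrix.mulVec_add, h, h']
  | hs c u h => rw [Matrix.mulVec_smul, f1a.wg_smul, Matrix.smul_mulVec, Matrix.mulVec_smul, h]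

theorem dg_even {d : ℕ} {u : Fo d} (h : par *ᵥ u = u) :
    ∑ k ∈ Finset.range (d + 1), dg (k + k) *ᵥ u = u := by
  funext I
  rw [Finset.sum_apply]
  simp only [dg_mulVec]
  have hI : I.card ≤ d + d := by simpa using I.card_le_univ
  rcases Nat.even_or_odd I.card with ⟨j, hj⟩ | ho
  · rw [Finset.sum_eq_single j (fun k _ hk => if_neg (by omega))
      (fun hk => absurd (Finset.mem_range.2 (by omega)) hk), if_pos hj]
  · have h1 := congrFun h I
    rw [par_mulVec, ho.neg_one_pow] at h1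
    have h2 : u I = 0 := by linear_combination (-1 / 2 : ℂ) * h1
    simp only [h2, ite_self, Finset.sum_const_zero]

theorem epsV_ev (v : Fin N → ℂ) (c : Fin N) : (epsV v *ᵥ ev ∅) {c} = v c := by
  have h : ∀ l : Fin N, eps l *ᵥ ev ∅ = ev {l} := fun l => eps_ev_min (by simp)
  simp only [epsV, Matrix.sum_mulVec, Matrix.smul_mulVec, h]
  simp [ev, Pi.single_apply]

/-- the Jacobian matrix depends only on the differential -/
theorem jc_fd {a b : ℕ} {ψ : Cm a → Cm b} {z : Cm a} (h : DifferentiableAt ℂ ψ z) :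
    jc ψ z = jc (fun y => fderiv ℂ ψ z y) z := by
  have h1 := h.restrictScalars ℝ
  have h2 : DifferentiableAt ℝ (fun y => fderiv ℂ ψ z y) z :=
    (fderiv ℂ ψ z).differentiableAt.restrictScalars ℝ
  have h3 : ∀ j, fderiv ℝ (fun y => ψ y j) z = fderiv ℝ (fun y => fderiv ℂ ψ z y j) z := fun j =>
    (hasFDerivAt_pi'.1 (h.hasFDerivAt.restrictScalars ℝ) j).fderiv.trans
      (hasFDerivAt_pi'.1 ((fderiv ℂ ψ z).hasFDerivAt.restrictScalars ℝ) j).fderiv.symm
  ext p l
  induction p using AlgH.idx with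
  | h1 i =>
    induction l using AlgH.idx with
    | h1 j => rw [Kb.jc_hh, Kb.jc_hh, dz, dz, h3]
    | h2 j => rw [Kb.jc_ha h1, Kb.jc_ha h2, dzb, dzb, h3]
  | h2 i =>
    induction l using AlgH.idx with
    | h1 j => rw [Kb.jc_ah, Kb.jc_ah, dzb, dzb, h3]
    | h2 j => rw [Kb.jc_aa h1, Kb.jc_aa h2, dz, dz, h3]

/-- a map of small rank kills the forms of high degree -/
theorem lr_van {a b k : ℕ} {ψ : Cm a → Cm b} {z : Cm a} (h : DifferentiableAt ℂ ψ z)
    (hr : Module.finrank ℂ (LinearMap.range (fderiv ℂ ψ z : Cm a →ₗ[ℂ] Cm b)) < k) :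
    lr (jc ψ z) * (dg (k + k) : Fm b) = 0 := by
  set A : Cm a →ₗ[ℂ] Cm b := (fderiv ℂ ψ z).toLinearMap with hA
  set r := Module.finrank ℂ (LinearMap.range A)
  let E : LinearMap.range A ≃ₗ[ℂ] Cm r := (Module.finBasis ℂ (LinearMap.range A)).equivFun
  let C : Cm a →L[ℂ] Cm r := LinearMap.toContinuousLinearMap (E.toLinearMap.comp A.rangeRestrict)
  let B : Cm r →L[ℂ] Cm b :=
    LinearMap.toContinuousLinearMap ((LinearMap.range A).subtype.comp E.symm.toLinearMap)
  have e : (fun y => fderiv ℂ ψ z y) = fun y => B (C y) := by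
    funext y
    show A y = ((E.symm (E (A.rangeRestrict y)) : LinearMap.range A) : Cm b)
    rw [E.symm_apply_apply]
    rfl
  rw [jc_fd h, e, k1b'.jc_comp (ψ := fun y => C y) (φ := fun y => B y)
    (C.differentiableAt.restrictScalars ℝ) (B.differentiableAt.restrictScalars ℝ), f1a.lr_mul,
    Matrix.mul_assoc, ← f1a.lr_dg, f1a.dg_zero _ (by omega), Matrix.zero_mul, Matrix.mul_zero]

end pt

end RgH

open RgH

variable {n m l : ℕ} {V : Mf n} {W : Mf m} {Z : Mf l}

theorem RgH.val_sum {ι : Type} (s : Finset ι) (u : ι → Om V) (e : Chart n V.X) (z : Cm n) :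
    val (∑ i ∈ s, u i) e z = ∑ i ∈ s, val (u i) e z := vl_sum s u e z

theorem RgH.dgO_dgO (j k : ℕ) (u : Om V) : dgO j (dgO k u) = if j = k then dgO k u else 0 := by
  have h := LinearMap.congr_fun ((cx_OK V).dg_mul j k) u
  split_ifs at h ⊢
  · exact h
  · exact h

theorem RgH.dgO_zero {k : ℕ} (h : n + n < k) (u : Om V) : dgO k u = 0 :=
  LinearMap.congr_fun ((cx_OK V).dg_zero k h) u

theorem RgH.dgO_one : dgO 0 (1 : Om V) = 1 := ext fun e x h => by
  rw [val_dg _ _ h, val_one h, dg_ev0, if_pos rfl, one_smul]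

theorem RgH.dgO_sum {u : Om V} (h : sgO u = u) : ∑ k ∈ Finset.range (n + 1), dgO (k + k) u = u :=
  ext fun e x he => by
    rw [val_sum]
    simp only [val_dg _ _ he]
    exact dg_even ((val_sg u he).symm.trans (by rw [h]))

theorem RgH.dg_mul_dg (j k : ℕ) (a b : Om V) : dgO (j + k) (dgO j a * dgO k b) = dgO j a * dgO k b :=
  ext fun e x h => by rw [val_dg _ _ h, val_mul _ _ h, val_dg _ _ h, val_dg _ _ h, dg_wg]

/-- the product of homogeneous forms is homogeneous -/
theorem dg_mul_O {j k : ℕ} {a b : Om V} (ha : dgO j a = a) (hb : dgO k b = b) :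
    dgO (j + k) (a * b) = a * b := by
  have h := dg_mul_dg j k a b
  rwa [ha, hb] at h

theorem intO_dg (u : Om V) : intO (dgO (n + n) u) = intO u :=
  congrArg (fun c => kp ^ n * sn n * c) (((cx_OK V).Qdg (n + n) 0 u (1 : Om V) rfl).trans
    (congrArg ((cx V).Q u) dgO_one))

theorem intO_cj (u : Om V) : intO (cjO u) = star (intO u) := by
  have h : (cx V).Q (cjO u) (cjO (1 : Om V)) = _ := (cx_OK V).Qcj u (1 : Om V)
  rw [map_one] at h
  have hk : star kp = -1 * kp := by simp [kp]
  show kp ^ n * sn n * (cx V).Q (cjO u) (1 : Om V) = star (kp ^ n * sn n * (cx V).Q u (1 : Om V))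
  rw [h, star_mul', star_mul', star_pow, hk, sn_star, mul_pow]
  ring

/-- the integral of a real form is real -/
theorem intO_real {u : Om V} (h : cjO u = u) : intO u = ((intO u).re : ℂ) := by
  have h1 := intO_cj u
  rw [h] at h1
  exact (Complex.conj_eq_iff_re.1 h1.symm).symm

theorem pb_id (h : HolM n n fun x : V.X => x) (u : Om V) : pb h u = u :=
  congrFun (pb_uniq (smo_of h) (pb_is h) (pbc n V.X n V.X f1a k1b').1) u

theorem pb_comp {f : V.X → W.X} {g : W.X → Z.X} {k : V.X → Z.X} (hf : HolM n m f)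
    (hg : HolM m l g) (hk : HolM n l k) (h : ∀ x, k x = g (f x)) (u : Om Z) :
    pb hk u = pb hf (pb hg u) := by
  obtain rfl : k = fun x => g (f x) := funext h
  exact congrFun (pb_uniq (smo_of hk) (pb_is hk)
    (Pu.pb_comp (smo_of hf) (smo_of hg) (pb_is hf) (pb_is hg))) u

theorem RgH.pb_van {f : V.X → W.X} (hf : HolM n m f) {k : ℕ}
    (h : ∀ x, Module.finrank ℂ (LinearMap.range (Df n m f x)) < k) (u : Om W) :
    pb hf (dgO (k + k) u) = 0 := by
  refine (gg1 n V.X).ext _ _ fun x => ⟨_, Pb1H.ca x, ?_⟩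
  have h' := Pb1H.ca (d := m) (f x)
  refine (pb_is hf _ _ _ x (Pb1H.ca x) h').trans ?_
  rw [show vl (d := m) (M := W.X) (dgO (k + k) u) _ _ = _ from val_dg _ u h', Matrix.mulVec_mulVec,
    lr_van (((hl_of hf).hol _ _ x (Pb1H.ca x) h').differentiableAt (by simp)) (h x),
    Matrix.zero_mulVec]
  rfl

/-- the integral of the constant function on a finite set -/
theorem RgH.intO_pt (V : Mf 0) : intO (1 : Om V) = Nat.card V.X := by
  classical
  have hs : ∀ x y : V.X, y ∈ (chartAt (Cm 0) x).source → y = x := fun x y hy =>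
    (chartAt (Cm 0) x).injOn hy (mem_chart_source _ x) (Subsingleton.elim _ _)
  have : DiscreteTopology V.X := discreteTopology_iff_isOpen_singleton.2 fun x => by
    have e : (chartAt (Cm 0) x).source = {x} :=
      eq_singleton_iff_unique_mem.2 ⟨mem_chart_source _ x, hs x⟩
    rw [← e]
    exact (chartAt (Cm 0) x).open_source
  have : Finite V.X := finite_of_compact_of_discrete
  let p := (Finite.equivFin V.X).symm
  have h := (gg1 0 V.X).itg_eq _ ((gg1 0 V.X).dens (1 : Om V) (1 : Om V)).1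
    ((gg1 0 V.X).dens (1 : Om V) (1 : Om V)).2 (Nat.card V.X) (fun i => chartAt (Cm 0) (p i))
    (fun i y => if y = p i then 1 else 0) (fun i => chart_mem_atlas _ _)
    (fun i => continuous_of_discreteTopology) (fun i y hy => by
      rw [tsupport, (isClosed_discrete _).closure_eq] at hy
      have : y = p i := by
        by_contra k
        exact hy (if_neg k)
      rw [this]
      exact mem_chart_source _ _) (fun y => by
      obtain ⟨i, rfl⟩ := p.surjective y
      simp)
  rw [intO_eq, pow_zero, sn, Finset.range_zero, Finset.prod_empty, one_mul, one_mul]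
  refine h.trans ?_
  rw [Finset.sum_congr rfl (g := fun _ => 1), Finset.sum_const, Finset.card_univ, Fintype.card_fin,
    nsmul_eq_mul, mul_one]
  intro i _
  have ha : At (chartAt (Cm 0) (p i)) (p i) := Pb1H.ca _
  have ht : (chartAt (Cm 0) (p i)).target = univ := eq_univ_of_forall fun z => by
    rw [Subsingleton.elim z (chartAt (Cm 0) (p i) (p i))]
    exact mem_chart_target _ _
  have hv : (volume : Measure (Cm 0)).real univ = 1 := by
    simp [Measure.real, volume_pi]
  have hc : (∅ : FI (0 + 0))ᶜ = ∅ := Finset.ext fun a => a.elim0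
  rw [ht, Measure.restrict_univ]
  refine (integral_congr_ae (g := fun _ => 1) (Eventually.of_forall fun z => ?_)).trans (by
    rw [integral_const, hv, one_smul])
  obtain rfl : z = chartAt (Cm 0) (p i) (p i) := Subsingleton.elim _ _
  show _ * Bq (val (1 : Om V) _ _) (val (1 : Om V) _ _) = 1
  rw [val_one ha, OpenPartialHomeomorph.left_inv _ ha.2, if_pos rfl, AlgH.Bq_ev, hc]
  simp [ev, AlgH.sI]

/-- closed functions on a connected manifold are constant -/
theorem RgH.const_of (hV : PreconnectedSpace V.X) {u : Om V} (h0 : dgO 0 u = u) (hd : dO u = 0) :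
    ∃ c : ℂ, u = c • 1 := by
  have k := k1a f1a f1b
  have h1 : ∀ e x, At e x → val u e (e x) = val u e (e x) ∅ • ev ∅ := fun e x h => by
    rw [← f1a.dg0, ← val_dg _ _ h, h0]
  have h2 : ∀ e e' x, At e x → At e' x → val u e (e x) ∅ = val u e' (e' x) ∅ := by
    intro e e' x h h'
    have := (vl_isF (d := n) (M := V.X) u).ch e e' x h h'
    change val u e (e x) = _ *ᵥ val u e' (e' x) at this
    rw [h1 e' x h', Matrix.mulVec_smul, lam_ev_empty] at this
    rw [this]
    simp [ev]
  have h3 : ∀ e x, At e x → fderiv ℝ (fun z => val u e z ∅) (e x) = 0 := fun e x h => by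
    have hg : DifferentiableAt ℝ (fun z => val u e z ∅) (e x) := differentiableAt_pi.1 (dif u h) ∅
    have h4 := val_d u h
    rw [hd, val_zero, k.congr (v := fun z => val u e z ∅ • ev ∅)
      (ev_at h (Eventually.of_forall fun y hy => h1 e y hy)),
      k.fun_mul hg (differentiableAt_const _), k.const, smul_zero, add_zero] at h4
    ext v
    rw [k.fd v hg, Finset.sum_eq_zero fun c _ => ?_]
    · rfl
    · rw [← epsV_ev (fun c => dr c (fun z => val u e z ∅) (e x)) c, ← h4]
      exact mul_zero _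
  have h5 : IsLocallyConstant fun x => val u (chartAt (Cm n) x) (chartAt (Cm n) x x) ∅ := by
    rw [IsLocallyConstant.iff_eventually_eq]
    intro x
    have hx : At (chartAt (Cm n) x) x := Pb1H.ca x
    set e := chartAt (Cm n) x
    obtain ⟨ε, hε, hb⟩ := Metric.isOpen_iff.1 e.open_target _ (e.map_source hx.2)
    have h6 : ∀ z ∈ Metric.ball (e x) ε, DifferentiableAt ℝ (fun z => val u e z ∅) z ∧
        fderiv ℝ (fun z => val u e z ∅) z = 0 := fun z hz => by
      have a := G1H.at_tg hx.1 (hb hz)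
      rw [← e.right_inv (hb hz)]
      exact ⟨differentiableAt_pi.1 (dif u a) ∅, h3 e _ a⟩
    filter_upwards [e.open_source.mem_nhds hx.2,
      (e.continuousAt hx.2).eventually (Metric.ball_mem_nhds _ hε)] with y hy hy'
    rw [h2 _ e y (Pb1H.ca y) ⟨hx.1, hy⟩]
    exact Metric.isOpen_ball.is_const_of_fderiv_eq_zero (convex_ball _ _).isPreconnected
      (fun z hz => (h6 z hz).1.differentiableWithinAt) (fun z hz => (h6 z hz).2) hy'
      (Metric.mem_ball_self hε)
  rcases isEmpty_or_nonempty V.X with hE | hE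
  · exact ⟨0, ext fun e x _ => hE.elim x⟩
  · obtain ⟨c, hc⟩ := h5.exists_eq_const
    refine ⟨c, ext fun e x h => ?_⟩
    rw [val_smul, val_one h, h1 e x h, h2 e _ x h (Pb1H.ca x)]
    exact congrArg (· • ev ∅) (congrFun hc x)

/-- the component of degree `2 k` -/
def RgH.dgZ (k : ℕ) (u : Zc V) : Zc V := mkZ (dgO (k + k) (fm u)) ((good_dg _).z _ (fm_mem u))

theorem RgH.fm_dgZ (k : ℕ) (u : Zc V) : fm (dgZ k u) = dgO (k + k) (fm u) := rfl

theorem RgH.pr_mk' (k : ℕ) (u : Zc V) : prH V k (mk u) = mk (dgZ k u) := pr_mk k rfl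

/-- a homogeneous class has a homogeneous representative -/
theorem RgH.ex_hom {k : ℕ} {a : HH V} (h : prH V k a = a) :
    ∃ u : Zc V, dgO (k + k) (fm u) = fm u ∧ mk u = a := by
  obtain ⟨u, rfl⟩ := mk_surj a
  exact ⟨dgZ k u, by rw [fm_dgZ, dgO_dgO, if_pos rfl], (pr_mk' k u).symm.trans h⟩

theorem rg : ct.Rg where
  pr_pr V j k a := by
    obtain ⟨u, rfl⟩ := mk_surj (V := V) a
    show prH V j (prH V k (mk u)) = if j = k then prH V k (mk u) else 0
    rw [pr_mk', pr_mk']
    split_ifs with h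
    · exact congrArg mk (fm_inj (by rw [fm_dgZ, fm_dgZ, dgO_dgO, if_pos (by rw [h])]))
    · rw [show dgZ j (dgZ k u) = 0 from fm_inj (by
        rw [fm_dgZ, fm_dgZ, dgO_dgO, if_neg (by omega), map_zero]), map_zero]
  pr_sum {n} V a := by
    obtain ⟨u, rfl⟩ := mk_surj (V := V) a
    show ∑ k ∈ Finset.range (n + 1), prH V k (mk u) = mk u
    simp only [pr_mk']
    rw [← map_sum]
    exact congrArg mk (fm_inj (by rw [map_sum]; exact dgO_sum (sg_fm u)))
  pr_zero V k a h := by
    obtain ⟨u, rfl⟩ := mk_surj (V := V) a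
    show prH V k (mk u) = 0
    rw [pr_mk', show dgZ k u = 0 from fm_inj (by rw [fm_dgZ, dgO_zero (by omega), map_zero]),
      map_zero]
  dg_one V := by
    show prH V 0 1 = 1
    rw [← map_one (mk (V := V))]
    exact pr_mk 0 (by rw [map_one]; exact dgO_one.symm)
  dg_mul V j k a b ha hb := by
    obtain ⟨u, hu, rfl⟩ := ex_hom (V := V) ha
    obtain ⟨v, hv, rfl⟩ := ex_hom (V := V) hb
    show prH V (j + k) (mk u * mk v) = mk u * mk v
    rw [← map_mul]
    exact pr_mk _ (by rw [map_mul, add_add_add_comm, dg_mul_O hu hv])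
  int_pr {n} V a := by
    obtain ⟨u, rfl⟩ := mk_surj (V := V) a
    show intH V (prH V n (mk u)) = intH V (mk u)
    rw [pr_mk', intH_mk, intH_mk, fm_dgZ, intO_dg]
  int_pt V := by
    show intH V 1 = _
    rw [← map_one (mk (V := V)), intH_mk, map_one, intO_pt, Complex.natCast_re]
  h0 V hV a ha := by
    obtain ⟨u, hu, rfl⟩ := ex_hom (V := V) ha
    obtain ⟨c, hc⟩ := const_of hV hu (d_fm u)
    have h1 := cj_fm u
    rw [hc, cj_smul, map_one] at h1
    refine ⟨c.re, ?_⟩
    show mk u = algebraMap ℝ (HH V) c.re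
    rw [← (mk (V := V)).commutes]
    refine congrArg mk (fm_inj ?_)
    rw [fm.commutes, Algebra.algebraMap_eq_smul_one, rsmul, hc, Complex.re_eq_add_conj,
      div_eq_inv_mul, mul_smul, add_smul, starRingEnd_apply, h1, ← two_smul ℂ, smul_smul,
      inv_mul_cancel₀ two_ne_zero, one_smul]
  pull_pr {_ _ V W _} hf k a := by
    obtain ⟨u, rfl⟩ := mk_surj (V := W) a
    show pullH hf (prH W k (mk u)) = prH V k (pullH hf (mk u))
    rw [pr_mk', pullH_mk, pullH_mk]
    exact (pr_mk k (by rw [fm_pbZ, fm_pbZ, fm_dgZ, pb_dg])).symm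
  pull_id {_ V} h a := by
    obtain ⟨u, rfl⟩ := mk_surj (V := V) a
    show pullH h (mk u) = mk u
    rw [pullH_mk]
    exact congrArg mk (fm_inj (pb_id h _))
  pull_comp {_ _ _ _ _ Z _ _ _} hf hg hk h a := by
    obtain ⟨u, rfl⟩ := mk_surj (V := Z) a
    show pullH hk (mk u) = pullH hf (pullH hg (mk u))
    rw [pullH_mk, pullH_mk, pullH_mk]
    exact congrArg mk (fm_inj (pb_comp hf hg hk h _))
  van {_ _ _ W _} hf k h a := by
    obtain ⟨u, rfl⟩ := mk_surj (V := W) a
    show pullH hf (prH W k (mk u)) = 0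
    rw [pr_mk', pullH_mk, show pbZ hf (dgZ k u) = 0 from fm_inj (by
      rw [fm_pbZ, fm_dgZ, pb_van hf h, map_zero]), map_zero]

end Vale.Agent.P280Z.Co
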