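import Vale.Agent.P280Z.Co.HoB
import Vale.Agent.P280Z.Co.Ne
import Vale.Agent.P280Z.Co.Rg
import Vale.Agent.P280Z.Co.Ddb
import Vale.Agent.P280Z.Co.PsA

/-!
# P280Z, row HO: the Kähler package of a Kähler class, signs, types
-/

open scoped Manifold ContDiff Topology Matrix ComplexOrder
open Set Filter
open Vale.Agent.P272.K Vale.Agent.P272.K.INT Vale.Agent.P299.IX Vale.Agent.P299.IX.Fock
  Vale.Agent.P281Z Vale.Agent.P281Z.Hg Vale.Agent.P280Z.Pu
open Vale.Agent.P301Z.Lat (exists_pack ms)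

noncomputable section

namespace Vale.Agent.P280Z.Co.HoH

section pt
variable {d : ℕ}

theorem sn_two (k : ℕ) : sn (k + k) = (-1) ^ k := by
  induction k with
  | zero => simp [sn]
  | succ k ih =>
    rw [show k + 1 + (k + 1) = k + k + 1 + 1 by omega, sn, Finset.prod_range_succ,
      Finset.prod_range_succ, ← sn, ih, pow_succ, pow_succ, Even.neg_one_pow ⟨k, rfl⟩]
    ring

/-- the sign of the normalising constant -/
theorem cc_pos (d : ℕ) : 0 < kp ^ d * sn d * (-1) ^ d * (cc d)⁻¹ := by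
  have S := f2bT.sl2 (1 : Matrix (Fin d) (Fin d) ℂ) (by simp)
  let N : Submodule ℂ (Fm d) :=
    { carrier := {T | T *ᵥ ev ∅ = 0}
      add_mem' := fun {a b} h h' => by
        rw [mem_ofPred_eq] at h h' ⊢
        rw [Matrix.add_mulVec, h, h', add_zero]
      zero_mem' := Matrix.zero_mulVec _
      smul_mem' := fun c a h => by
        rw [mem_ofPred_eq] at h ⊢
        rw [Matrix.smul_mulVec, h, smul_zero] }
  have hN : ∀ A : Fm d, ∀ x ∈ N, A * x ∈ N := fun A x (hx : x *ᵥ ev ∅ = 0) => by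
    show (A * x) *ᵥ ev ∅ = 0
    rw [← Matrix.mulVec_mulVec, hx, Matrix.mulVec_zero]
  have h : (_ : Fm d) *ᵥ ev ∅ = 0 := weyl (N := N) S (hN _) (hN _) le_rfl (by
      show (Hw d * 1 + (d : ℂ) • 1) *ᵥ ev ∅ = 0
      rw [mul_one, Matrix.add_mulVec, F2bH.Hw_eq, dgl_ev, Matrix.smul_mulVec, Matrix.one_mulVec]
      simp) (by
      show (Lw 1 ^ (d + 1) * 1) *ᵥ ev ∅ = 0
      rw [mul_one, ← P301Z.Lat.Pwb.pow_dg, f1a.dg_zero _ (by omega), Matrix.zero_mulVec])
  have h1 := f2bT.G_Bq (1 : Matrix (Fin d) (Fin d) ℂ) (ev ∅) (ev ∅)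
  rw [Matrix.sub_mulVec, sub_eq_zero, Matrix.smul_mulVec] at h
  rw [f1b.cjv_ev, F2bH.Cw_ev, h, f1a.Bq_symm, AlgH.Bq_ev, Finset.compl_empty, AlgH.sI,
    Finset.prod_empty, mul_one] at h1
  have h2 : G0 (1 : Matrix (Fin d) (Fin d) ℂ) ∅ ∅ =
      (-1) ^ d * ((d.factorial : ℂ)⁻¹ * (Lw (d := d) 1 ^ d *ᵥ ev ∅) Finset.univ) := by
    refine Eq.trans ?_ h1.symm
    simp [ev]
  have h3 := Ps.top_pos d 1 1 ⊥ 0 d (Ps.spP_of Matrix.PosDef.one) (Ps.spP_of Matrix.PosDef.one)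
    (zero_add d) (by simp)
  rw [pow_zero, Matrix.one_mulVec, Ps.top] at h3
  have e : (-1 : ℂ) ^ d * (-1) ^ d = 1 := by rw [← mul_pow, neg_mul_neg, one_mul, one_pow]
  rw [cc, inv_inv, h2]
  refine (mul_pos (inv_pos.2 (Nat.cast_pos.2 d.factorial_pos)) h3).trans_eq ?_
  linear_combination
    (-(kp ^ d * sn d * (d.factorial : ℂ)⁻¹ * (Lw (d := d) 1 ^ d *ᵥ ev ∅) Finset.univ)) * e

theorem pm_ev (k : ℕ) : pm d k *ᵥ ev ∅ = (if 0 = k then (1 : ℂ) else 0) • ev ∅ := by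
  ext K
  rw [mulVec_ev, pm, Pi.smul_apply, ev, Pi.single_apply, Matrix.diagonal_apply]
  by_cases hK : K = ∅
  · simp [hK, tp]
  · simp [hK]

theorem pm_wg (j k : ℕ) (a b : Fo d) :
    pm d (j + k) *ᵥ (wg (pm d j *ᵥ a) *ᵥ (pm d k *ᵥ b)) = wg (pm d j *ᵥ a) *ᵥ (pm d k *ᵥ b) := by
  induction a using F1aH.fk_ind generalizing j with
  | h0 =>
    rw [pm_ev]
    split_ifs with h
    · subst h
      rw [one_smul, f1a.wg_ev, Matrix.one_mulVec, zero_add, Matrix.mulVec_mulVec, f1b.pm_mul,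
        if_pos rfl]
    · rw [zero_smul, F1aH.wg_zero, Matrix.zero_mulVec, Matrix.mulVec_zero]
  | he l u h =>
    rw [Matrix.mulVec_mulVec u]
    induction l using AlgH.idx with
    | h1 i =>
      cases j with
      | zero => rw [f1b.pm0_hl, Matrix.zero_mulVec, F1aH.wg_zero, Matrix.zero_mulVec,
          Matrix.mulVec_zero]
      | succ j =>
        rw [f1b.pm_hl, ← Matrix.mulVec_mulVec u, f1a.wg_eps, ← Matrix.mulVec_mulVec,
          Matrix.mulVec_mulVec _ (pm d _) (eps _), Nat.add_right_comm, f1b.pm_hl,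
          ← Matrix.mulVec_mulVec, h]
    | h2 i =>
      rw [f1b.pm_ah, ← Matrix.mulVec_mulVec u, f1a.wg_eps, ← Matrix.mulVec_mulVec,
        Matrix.mulVec_mulVec _ (pm d _) (eps _), f1b.pm_ah, ← Matrix.mulVec_mulVec, h]
  | ha u v h h' => rw [Matrix.mulVec_add, f1a.wg_add, Matrix.add_mulVec, Matrix.mulVec_add, h, h']
  | hs c u h => rw [Matrix.mulVec_smul, f1a.wg_smul, Matrix.smul_mulVec, Matrix.mulVec_smul, h]

end pt

variable {n : ℕ} {V : Mf n}

theorem pm_mul_O {j k : ℕ} {a b : Om V} (ha : pmO j a = a) (hb : pmO k b = b) :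
    pmO (j + k) (a * b) = a * b := ext fun e x h => by
  rw [val_pm _ _ h, val_mul _ _ h, ← ha, ← hb, val_pm _ _ h, val_pm _ _ h, pm_wg]

theorem tyF_of {k : ℕ} {a : Om V} (h1 : dgO (k + k) a = a) (h2 : pmO k a = a) : TyF a := fun i => by
  rw [← h1, RgH.dgO_dgO]
  split_ifs with h
  · rw [h1, show i = k by omega, h2]
  · exact map_zero _

theorem tyF_mul {a b : Om V} (ha : sgO a = a) (hb : sgO b = b) (h : TyF a) (h' : TyF b) :
    TyF (a * b) := fun i => by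
  rw [← RgH.dgO_sum ha, ← RgH.dgO_sum hb, Finset.sum_mul_sum]
  simp only [map_sum]
  refine Finset.sum_congr rfl fun j _ => Finset.sum_congr rfl fun k _ => ?_
  exact tyF_of (by rw [add_add_add_comm, RgH.dg_mul_dg]) (pm_mul_O (h j) (h' k)) i

/-- classes in `Ty` have representatives which are sums of (k,k) forms -/
theorem ty_rep {a : HH V} (h : a ∈ ct.Ty V) : ∃ u : Zc V, mk u = a ∧ TyF (fm u) := by
  induction h using Algebra.adjoin_induction with
  | mem x hx => exact hx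
  | algebraMap r =>
    refine ⟨algebraMap ℝ _ r, mk.commutes r, ?_⟩
    have h1 : pmO 0 (1 : Om V) = 1 := ext fun e x h => by
      rw [val_pm _ _ h, val_one h, pm_ev, if_pos rfl, one_smul]
    rw [fm.commutes, Algebra.algebraMap_eq_smul_one, rsmul]
    exact tyF_of (k := 0) (by rw [map_smul, RgH.dgO_one]) (by rw [map_smul, h1])
  | add x y _ _ hx hy =>
    obtain ⟨u, rfl, hu⟩ := hx
    obtain ⟨v, rfl, hv⟩ := hy
    exact ⟨u + v, map_add _ _ _, fun k => by rw [map_add, map_add, map_add, hu, hv]⟩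
  | mul x y _ _ hx hy =>
    obtain ⟨u, rfl, hu⟩ := hx
    obtain ⟨v, rfl, hv⟩ := hy
    exact ⟨u * v, map_mul _ _ _, by rw [map_mul]; exact tyF_mul (sg_fm u) (sg_fm v) hu hv⟩

theorem sg_of_dg {k : ℕ} {a : Om V} (h : dgO (k + k) a = a) : sgO a = a := ext fun e x he => by
  rw [val_sg _ he, ← h, val_dg _ _ he]
  funext I
  rw [par_mulVec, dg_mulVec]
  split_ifs with hI
  · rw [hI, Even.neg_one_pow ⟨k, rfl⟩, one_mul]
  · exact mul_zero _

theorem intO_sg (a : Om V) : intO (sgO a) = intO a := by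
  rw [← intO_dg, ← sg_dg, sg_of_dg (NeH.dg_dg _ _), intO_dg]

theorem nul_of_ex {a : Om V} (h : Ex a) : a ∈ (cx V).Nul := by
  obtain ⟨β, rfl⟩ := h
  refine ⟨dd β, fun y hy => ?_⟩
  have h := (cx_OK V).Qd y β
  rw [hy, map_zero] at h
  exact neg_eq_zero.1 h.symm

/-- a closed positive form defines a Kähler metric -/
theorem kw {u : Zc V} (h : SpF (fm u) fun _ => ⊥) : ∃ w, IsKahler w ∧ IsW w (fm u) := by
  obtain ⟨w, hw, hp, h0⟩ := h
  obtain ⟨a, ha, hau⟩ := (Ddb.t11 hw fun e x hx => (hp e x hx).isHermitian).r11 (d_fm u)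
  have e0 : ∀ e x, At e x → a e (e x) = w e (e x) := fun e x hx =>
    Ddb.f11_inj ((hau.val hx).symm.trans (hw e x hx))
  refine ⟨a, P301.H450.isKahler_of ⟨ha.toIsClosedForm, ha.herm⟩ fun e x hx => ?_, hau⟩
  have hx' : At (chartAt (Cm n) x) x := P301Z.Lat.at_chart x
  have p1 : (a (chartAt (Cm n) x) (chartAt (Cm n) x x)).PosDef := by
    rw [e0 _ x hx']
    exact Ps.SpP.posDef ⟨hp _ x hx', h0 x⟩
  refine ((e0 e x hx).symm ▸ hp e x hx : (a e (e x)).PosSemidef).posDef_iff_det_ne_zero.2 ?_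
  rw [ha.form e _ x hx hx', Matrix.det_mul, Matrix.det_mul, Matrix.det_transpose,
    ← RingHom.mapMatrix_apply, ← RingHom.map_det]
  exact mul_ne_zero (mul_ne_zero (jacM_det_ne_zero hx hx') p1.det_pos.ne')
    ((map_ne_zero _).2 (jacM_det_ne_zero hx hx'))

theorem pack {w} (hw : IsKahler w) : ∃ K : KP (cx V), RealK w K ∧ K.OK ∧ K.KIa ∧ K.KIb ∧ K.KH ∧
    ∀ m, ∃ (r : ℕ) (b : Fin r → SF n V.X), (cx V).Bas m b := by
  rw [Ddb.cx_eq V]
  obtain ⟨K, P⟩ := exists_pack V hw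
  refine ⟨K, P.rk, P.ok, P.kia, P.kib, P.kh, fun m => ?_⟩
  let _ := ms V
  obtain ⟨r, b, h⟩ := P.lb m
  exact ⟨r, b, h.toBas⟩

/-- the Kähler package of the form `u` -/
structure Pkg (u : Om V) (K : KP (cx V)) : Prop where
  kah : V.Kah
  ok : K.OK
  ha : K.KIa
  hb : K.KIb
  hh : K.KH
  dg : dgO 2 u = u
  L : ∀ (j : ℕ) (y : Om V), (K.L ^ j) y = u ^ j * y
  pr : ∀ (k : ℕ) (y : Om V), K.pr k y = pmO k y
  c : K.c = cc n

theorem pkg {u : Zc V} (h : SpF (fm u) fun _ => ⊥) : ∃ K, Pkg (fm u) K := by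
  obtain ⟨w, hw, hu⟩ := kw h
  obtain ⟨K, hK, h1, h2, h3, h4, -⟩ := pack hw
  have hL : ∀ y : Om V, K.L y = fm u * y := fun y => ext (V := V) fun e x he =>
    (hK.L y e x he).trans (by rw [val_mul _ _ he, hu e x he, ← f2bT.L_wg]; rfl)
  refine ⟨K, ⟨w, hw⟩, h1, h2, h3, h4,
    (Ddb.t11 hu fun e x hx => (hw.posDef e x hx).isHermitian).dg, fun j y => ?_,
    fun k y => ext (V := V) fun e x he => (hK.pr k y e x he).trans (val_pm k y he).symm, hK.c⟩
  induction j with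
  | zero => exact (one_mul y).symm
  | succ j ih =>
    rw [pow_succ' K.L, pow_succ', mul_assoc]
    exact (congrArg K.L ih).trans (hL _)

end Vale.Agent.P280Z.Co.HoH
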