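import Vale.Agent.P280Z.Co.PsC
import Vale.Agent.P280Z.Co.Rg

/-!
# P280Z, block Co: the fibre integral of a power of a Kähler form is a Kähler form
-/

open scoped Manifold ContDiff Topology Matrix ComplexOrder
open Set Filter Function MeasureTheory
open Vale.Agent.P272.K Vale.Agent.P299.IX Vale.Agent.P299.IX.Fock Vale.Agent.P281Z
  Vale.Agent.P281Z.Hg Vale.Agent.P280Z.Pu Vale.Agent.P272.K.INT Vale.Agent.P280Z.Co.PuhH
open Vale.Agent.P281Z.Hg.Pb1H (ca)

noncomputable section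

namespace Vale.Agent.P280Z.Co

namespace Ps

section pt

variable {n k l p d : ℕ} {u : Fo n} {w : Matrix (Fin n) (Fin n) ℂ}

/-- the restrictions to the subspaces of dimension `k` are positive -/
def StP (k : ℕ) (u : Fo n) : Prop :=
  ∀ J : Matrix (Fin n) (Fin k) ℂ, Injective J.mulVecLin → 0 < top (pl J *ᵥ u)

theorem StP.pl (h : StP l u) {J : Matrix (Fin n) (Fin k) ℂ} (hJ : Injective J.mulVecLin) :
    StP l (pl J *ᵥ u) := fun J' hJ' => by
  rw [pl_pl]
  exact h _ (by rw [Matrix.mulVecLin_mul]; exact hJ.comp hJ')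

theorem StP.smul (h : StP k u) {c : ℝ} (hc : 0 < c) : StP k ((c : ℂ) • u) := fun J hJ => by
  rw [Matrix.mulVec_smul, top_smul]
  exact mul_pos (Complex.zero_lt_real.2 hc) (h J hJ)

theorem StP.sum {ι : Type} [Fintype ι] {U : ι → Fo n} (h : ∀ i, WpP (U i)) {i : ι}
    (h' : StP k (U i)) : StP k (∑ i, U i) := fun J hJ => by
  rw [Matrix.mulVec_sum, top_sum]
  exact Finset.sum_pos' (fun i _ => h i k J) ⟨i, Finset.mem_univ i, h' J hJ⟩

theorem StP.integral {α : Type} [TopologicalSpace α] [MeasurableSpace α] {μ : Measure α}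
    [μ.IsOpenPosMeasure] {U : α → Fo n} (hi : Integrable U μ) (h : ∀ z, WpP (U z)) {a : α}
    (h0 : ∀ᶠ z in 𝓝 a, StP k (U z)) : StP k (∫ z, U z ∂μ) := fun J hJ => by
  obtain ⟨h1, h2⟩ := PuF.mv_int (Ps.pl J) hi
  have h3 : Integrable (fun z => top (Ps.pl J *ᵥ U z)) μ := (h1.eval Finset.univ).const_mul _
  have h4 : top (Ps.pl J *ᵥ ∫ z, U z ∂μ) = ∫ z, top (Ps.pl J *ᵥ U z) ∂μ := by
    rw [← h2, Ps.top, eval_integral (fun I => h1.eval I), ← integral_const_mul]
    rfl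
  rw [h4]
  refine (integral_nonneg fun z => h z k J).lt_of_ne' fun e => ?_
  have h5 := (integral_pos_iff_support_of_nonneg (fun z => (Complex.le_def.1 (h z k J)).1) h3.re).2
    (μ.measure_pos_of_mem_nhds (h0.mono fun z hz => (Complex.lt_def.1 (hz J hJ)).1.ne'))
  have h6 := integral_re h3
  rw [e, map_zero] at h6
  exact h5.ne' h6

theorem stP_pow (h : w.PosDef) (k : ℕ) : StP k (Lw w ^ k *ᵥ ev ∅) := fun J hJ => by
  have h1 := (spP_of h).rs J
  rw [Submodule.comap_bot, LinearMap.ker_eq_bot.2 hJ] at h1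
  have h2 := top_pos k _ _ _ k 0 h1 h1 rfl (by simp)
  rwa [pl_pow, pl_ev, ← Matrix.one_mulVec (ev ∅), ← pow_zero (Lw (rs J w))]

/-- the product of a linear map and the identity -/
def gl (d : ℕ) (J : Matrix (Fin p) (Fin k) ℂ) : Cm (k + d) →ₗ[ℂ] Cm (p + d) where
  toFun w := ap (J *ᵥ p1 k d w : Cm p) (p2 k d w)
  map_add' a b := funext fun i => by
    refine Fin.addCases (fun i => ?_) (fun i => ?_) i
    · simp only [ap, Fin.append_left, Pi.add_apply]
      exact congrFun (Matrix.mulVec_add J (p1 k d a) (p1 k d b)) i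
    · simp only [ap, Fin.append_right, Pi.add_apply, p2]
  map_smul' c a := funext fun i => by
    refine Fin.addCases (fun i => ?_) (fun i => ?_) i
    · simp only [ap, Fin.append_left, Pi.smul_apply, RingHom.id_apply]
      exact congrFun (Matrix.mulVec_smul J c (p1 k d a)) i
    · simp only [ap, Fin.append_right, Pi.smul_apply, p2, RingHom.id_apply]

theorem StP.fc {U : Fo (p + d)} (h : StP (k + d) U) : StP k (kp ^ d • (fc p d *ᵥ U)) :=
  fun J hJ => by
  have h1 : ∀ w, LinearMap.toMatrix' (gl d J) *ᵥ w = ap (J *ᵥ p1 k d w : Cm p) (p2 k d w) :=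
    LinearMap.toMatrix'_mulVec _
  have h3 := (dfl (LinearMap.toMatrix' (gl d J)) (ap 0 0)).differentiableAt
  have h2 := alg.key p k d _ (fun t => (J *ᵥ t : Cm p)) 0 0 U (h3.restrictScalars ℝ)
    ((dfl J 0).differentiableAt.restrictScalars ℝ) (.of_forall fun w => by rw [h1, AlgH.p1_ap])
  simp only [h1, AlgH.p2_ap, k1b'.jc_id, Matrix.det_one, one_smul] at h2
  rw [Matrix.mulVec_smul, top_smul, Ps.pl, rj, ← h2, top_fc, ← funext h1, jc_eq h3, jm_lin]
  refine h _ fun a b e => ?_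
  rw [Matrix.mulVecLin_apply, Matrix.mulVecLin_apply, h1, h1] at e
  have e1 := congrArg (p1 p d) e
  have e2 := congrArg (p2 p d) e
  rw [AlgH.p1_ap, AlgH.p1_ap] at e1
  rw [AlgH.p2_ap, AlgH.p2_ap] at e2
  rw [← PuF.ap_eta a, ← PuF.ap_eta b, hJ e1, e2]

theorem StP.null (h : StP 1 u) (hw : dg 2 *ᵥ u = Lw w *ᵥ ev ∅) (v : Cm n)
    (hv : v ⬝ᵥ (w *ᵥ star v) = 0) : v = 0 := by
  by_contra h0
  have h4 : ∀ t : Cm 1, (Matrix.of fun i (_ : Fin 1) => v i) *ᵥ t = t 0 • v := fun t => by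
    ext i
    simp [Matrix.mulVec, dotProduct, mul_comm]
  have h1 := h (Matrix.of fun i _ => v i) fun a b e => funext fun i => by
    rw [Matrix.mulVecLin_apply, Matrix.mulVecLin_apply, h4, h4] at e
    rw [Subsingleton.elim i 0]
    exact smul_left_injective ℂ h0 e
  have h2 : ∀ J : Matrix (Fin n) (Fin 1) ℂ, top (Ps.pl J *ᵥ u) = top (Ps.pl J *ᵥ (dg 2 *ᵥ u)) :=
    fun J => by
      rw [Ps.pl, Matrix.mulVec_mulVec _ (lr _), ← f1a.lr_dg, ← Matrix.mulVec_mulVec, top, top,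
        dg_mulVec, if_pos (by simp)]
  have h3 := rs_dot (Matrix.of fun i (_ : Fin 1) => v i) w fun _ => 1
  rw [h4, one_smul, hv] at h3
  rw [h2, hw, pl_Lw, pl_ev, top_one] at h1
  simp [Matrix.mulVec, dotProduct] at h3
  rw [h3, mul_zero] at h1
  exact lt_irrefl _ h1

end pt

section push

theorem pou1 {n : ℕ} {M : Type} [TopologicalSpace M] [ChartedSpace (Cm n) M] [T2Space M]
    [CompactSpace M] [IsManifold 𝓘(ℂ, Cm n) ω M] {K : Set M} (hK : IsClosed K) {ι : Type}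
    [Fintype ι] (O : ι → Set M) (hO : ∀ i, IsOpen (O i)) (hc : K ⊆ ⋃ i, O i) :
    ∃ (R : ι → Module.End ℂ (SF n M)) (ρ : ι → M → ℝ), (∀ i, Continuous (ρ i)) ∧
      (∀ i x, 0 ≤ ρ i x) ∧ (∀ i, tsupport (ρ i) ⊆ O i) ∧ (∀ x ∈ K, ∑ i, ρ i x = 1) ∧
      ∀ i u e x, At e x → vl (R i u) e (e x) = (ρ i x : ℂ) • vl u e (e x) := by
  have := isManifold_real n M
  obtain ⟨f, hf⟩ := SmoothPartitionOfUnity.exists_isSubordinate 𝓘(ℝ, Cm n) hK O hO hc
  choose R hR using fun i => (gg1 n M).op _ ((gg1 n M).fn _ (smoothFn_of_contMDiff (f i).contMDiff))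
  refine ⟨R, fun i => f i, fun i => (f i).contMDiff.continuous, f.nonneg, hf, fun x hx => ?_,
    fun i u e x he => ?_⟩
  · have h := f.sum_eq_one hx
    rwa [finsum_eq_sum_of_fintype] at h
  · rw [hR i u e x he, Matrix.smul_mulVec, Matrix.one_mulVec, e.left_inv he.2]

variable {k p d : ℕ} {X Y : Type} [TopologicalSpace X] [ChartedSpace (Cm (p + d)) X]
  [TopologicalSpace Y] [ChartedSpace (Cm p) Y] [T2Space X] [CompactSpace X]
  [IsManifold 𝓘(ℂ, Cm (p + d)) ω X] [T2Space Y] [CompactSpace Y] [IsManifold 𝓘(ℂ, Cm p) ω Y]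
  {f : X → Y} {T : SF (p + d) X → SF p Y} {u : SF (p + d) X} {χ : Chart p Y} {y : Y}

theorem st_full (hf : Smo (p + d) p f) (h : Full p d f) (hT : IsPush f T)
    (hu : ∀ e x, At e x → WpP (vl u e (e x)) ∧ StP (k + d) (vl u e (e x))) (hy : At χ y) {x₀ : X}
    (hx : f x₀ = y) : StP k (kp ^ d • vl (T u) χ (χ y)) := by
  obtain ⟨L, hL⟩ := hT.lin hf
  have hK : IsClosed (f ⁻¹' {y}) := isClosed_singleton.preimage hf.cont
  choose c c1 c2 using fun x : f ⁻¹' {y} => h χ x (by rw [x.2]; exact hy)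
  obtain ⟨t, ht⟩ := hK.isCompact.elim_finite_subcover (fun x => (c x).source)
    (fun x => (c x).open_source) fun x hx => mem_iUnion.2 ⟨⟨x, hx⟩, c1 _⟩
  obtain ⟨R, ρ, hρ, h0, h1, h2, h3⟩ := pou1 (n := p + d) hK (fun i : t => (c i).source)
    (fun i => (c i).open_source) fun x hx => by
      obtain ⟨z, hz, h'⟩ := mem_iUnion₂.1 (ht hx)
      exact mem_iUnion.2 ⟨⟨z, hz⟩, h'⟩
  have h4 := hT.zp (fub_of alg) hf h (u := u - ∑ i, R i u) (y := y) (fun x hx e he => by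
    simp only [vl_sub, vl_sum, h3 _ u e x he, ← Finset.sum_smul, ← Complex.ofReal_sum, h2 x hx,
      Complex.ofReal_one, one_smul, sub_self]) χ hy
  rw [← hL, map_sub, map_sum, vl_sub, vl_sum, sub_eq_zero, hL] at h4
  rw [h4, Finset.smul_sum]
  have h5 := fun i : t => hT.loc (fub_of alg) hf h (c2 i) (isClosed_tsupport (ρ i)) (h1 i)
    (u := R i u) hy.2 fun x _ hx e he => by
      rw [h3 i u e x he, image_eq_zero_of_notMem_tsupport hx, Complex.ofReal_zero, zero_smul]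
  have h6 : ∀ (i : t) z, ap (χ y) z ∈ (c i).target → vl (R i u) (c i) (ap (χ y) z) =
      (ρ i ((c i).symm (ap (χ y) z)) : ℂ) • vl u (c i) (c i ((c i).symm (ap (χ y) z))) :=
    fun i z hz => by
      rw [← h3 i u _ _ (G1H.at_tg (c2 i).m2 hz), (c i).right_inv hz]
  have h7 : ∀ (i : t) z, WpP (kp ^ d • (fc p d *ᵥ vl (R i u) (c i) (ap (χ y) z))) := fun i z => by
    refine WpP.fc ?_
    by_cases hz : ap (χ y) z ∈ (c i).target
    · rw [h6 i z hz]
      exact (hu _ _ (G1H.at_tg (c2 i).m2 hz)).1.smul (h0 _ _)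
    · rw [(vl_isF _).off _ _ fun k => hz k.2]
      exact wp_zero
  obtain ⟨i, -, hi⟩ := Finset.exists_ne_zero_of_sum_ne_zero ((h2 x₀ hx).trans_ne one_ne_zero)
  refine StP.sum (i := i) (fun i => ?_) ?_
  · rw [hL, (h5 i).1, fi, ← integral_smul]
    exact WpP.integral ((PuF.mv_int _ (h5 i).2).1.smul (kp ^ d)) (h7 i)
  · rw [hL, (h5 i).1, fi, ← integral_smul]
    have k1 : x₀ ∈ (c i).source := h1 i (subset_tsupport _ hi)
    have k2 : ap (χ y) (p2 p d (c i x₀)) = c i x₀ := by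
      rw [← ((c2 i).fst x₀ k1).2.trans (congrArg χ hx), PuF.ap_eta]
    have k3 : Tendsto (fun z => ap (χ y) z) (𝓝 (p2 p d (c i x₀))) (𝓝 (c i x₀)) :=
      ((PuF.cd_ap (𝕜 := ℝ) (n := 0)).continuous.comp
        (continuous_const.prodMk continuous_id)).tendsto' _ _ k2
    refine StP.integral ((PuF.mv_int _ (h5 i).2).1.smul (kp ^ d)) (h7 i) (a := p2 p d (c i x₀)) ?_
    filter_upwards [k3.eventually ((c i).open_target.mem_nhds ((c i).map_source k1)),
      (((c i).tendsto_symm k1).comp k3).eventually ((hρ i).continuousAt.eventually_ne hi)]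
      with z k4 k5
    refine StP.fc ?_
    rw [h6 i z k4]
    exact (hu _ _ (G1H.at_tg (c2 i).m2 k4)).2.smul ((h0 _ _).lt_of_ne' k5)

theorem st_of (hf : HolM (p + d) p f) (hs : ∀ x, Sbm (p + d) p f x) (hT : IsPush f T)
    (hu : ∀ e x, At e x → WpP (vl u e (e x)) ∧ StP (k + d) (vl u e (e x))) (hy : At χ y) {x₀ : X}
    (hx : f x₀ = y) : StP k (kp ^ d • vl (T u) χ (χ y)) := by
  obtain ⟨E, h1, -, h3⟩ := ex_mx (p + d) X
  have h := st_full (k := k) ((hl_of hf).comp hl_to).smo (full_mx hf hs)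
    ((push_mx (hl_of hf) h1 h3).1 hT) (u := E u) (fun e x he => by
      rw [h1 u e _ x he (ca _), jc_eq ((hl_to.hol e _ x he (ca _)).differentiableAt (by simp))]
      exact ⟨(hu _ _ (ca _)).1.pl _, (hu _ _ (ca _)).2.pl (Matrix.mulVec_injective_iff_isUnit.2
        ((Matrix.isUnit_iff_isUnit_det _).2
          (jacM_isUnit (X := Mx (p + d) X) he (at_mx (ca (M := X) x)))))⟩) hy (x₀ := x₀) hx
  rwa [E.symm_apply_apply] at h

end push

end Ps

open Ps

/-- the push forward of a power of a Kähler class is a Kähler class -/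
theorem kc_push {n m d : ℕ} {V : Mf n} {W : Mf m} {f : V.X → W.X} (hf : Sub n m f)
    (e : n = m + d) (hs : Surjective f) (w : ct.H V) (hw : ct.Kc V w) :
    ct.Kc W (ct.push f (w ^ (d + 1))) := by
  subst e
  have h0 : ∀ j, ct.Dg V j (w ^ j) := fun j => by
    induction j with
    | zero => exact (pow_zero w).symm ▸ rg.dg_one V
    | succ j ih => exact (pow_succ w j).symm ▸ rg.dg_mul V _ _ _ _ ih (po_ct.deg hw)
  have hd : ct.Dg W 1 (ct.push f (w ^ (d + 1))) := by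
    rw [CT.Dg, pu.deg hf d rfl, add_comm 1 d, h0]
  obtain ⟨u, rfl, hu⟩ := hw
  have h1 : ct.push f (mk u ^ (d + 1)) = mk (pushZ hf (u ^ (d + 1))) :=
    (congrArg (desc (pushO f)) (map_pow mk u _).symm).trans (push_mk hf _)
  have h2 := isW_mw hu.choose_spec.1
  have h3 : TyF (fm (pushZ hf (u ^ (d + 1)))) := tyF_push hf ((TZ V).pow_mem (tyF_w h2) _)
  have h4 : ∀ e x, At e x → val (fm (u ^ (d + 1))) e (e x) =
      Lw (mw (fm u) e (e x)) ^ (d + 1) *ᵥ ev ∅ := fun e x he => by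
    rw [map_pow, ← mul_one (fm u ^ _), val_w he (h2 e x he), val_one he]
  obtain ⟨T, hT, h⟩ := push_rep hf rfl
  refine ⟨dgZ 2 (pushZ hf (u ^ (d + 1))), (dg_mk (h1 ▸ hd)).trans h1.symm,
    spF_iff.2 fun y => ⟨_, isW_dg h3 _ y (ca y), ?_, fun v hv => ?_⟩⟩
  · refine psd_of ?_ ((val_dg _ _ (ca y)).symm.trans (isW_dg h3 _ y (ca y)))
      (mw_herm (dgZ 2 _) (ca y))
    rw [fm_pushZ, h]
    refine wp_of hf.hol hf.sbm hT (fun e x he => ?_) (ca y)
    rw [show vl (fm (u ^ (d + 1))) e (e x) = _ from h4 e x he]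
    exact wp_ev.pow (mw_pos hu he).posSemidef _
  · obtain ⟨x, hx⟩ := hs y
    refine StP.null ?_ ((val_dg _ _ (ca y)).symm.trans (isW_dg h3 _ y (ca y))) v hv
    rw [fm_pushZ, h]
    refine st_of hf.hol hf.sbm hT (fun e x he => ?_) (ca y) hx
    rw [show vl (fm (u ^ (d + 1))) e (e x) = _ from h4 e x he, add_comm 1 d]
    exact ⟨wp_ev.pow (mw_pos hu he).posSemidef _, stP_pow (mw_pos hu he) _⟩

/-- the base of a submersion of a compact Kähler manifold is Kähler -/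
theorem kah_sub {n m : ℕ} (V : Mf n) (W : Mf m) (f : V.X → W.X) (hf : Sub n m f)
    (hs : Surjective f) (h : V.Kah) : W.Kah := by
  obtain ⟨w, hw⟩ := (po_ct.kah V).1 h
  rcases sub_dim hf with h | ⟨d, e⟩
  · refine (po_ct.kah W).2 ⟨0, po_ct.mono (po_ct.zero W) fun y => ?_⟩
    obtain ⟨x, -⟩ := hs y
    exact h.elim x
  · exact (po_ct.kah W).2 ⟨_, kc_push hf e hs w hw⟩

end Vale.Agent.P280Z.Co
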