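import Vale.Agent.P280Z.Co.Sk

/-!
# P280Z, row LN1: the local connection form of an idempotent matrix and of a metric
-/

open scoped Manifold ContDiff Topology Matrix
open Set Filter
open Vale.Agent.P272.K Vale.Agent.P272.K.C2 Vale.Agent.P299.IX Vale.Agent.P299.IX.Fock
  Vale.Agent.P281Z Vale.Agent.P281Z.Hg

noncomputable section

namespace Vale.Agent.P280Z.Co.Ln

section pt
variable {k : ℕ}

/-- the one-form with the coefficients `v` -/
def f1 (v : Fin k → ℂ) : Fk k := epsV v *ᵥ ev ∅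

/-- the two-form with the coefficients `S` -/
def f2 : (Fin k → Fin k → ℂ) →ₗ[ℂ] Fk k where
  toFun S := ∑ c, ∑ c', S c c' • ((eps c * eps c') *ᵥ ev ∅)
  map_add' S S' := by simp only [Pi.add_apply, add_smul, Finset.sum_add_distrib]
  map_smul' a S := by
    simp only [Pi.smul_apply, smul_eq_mul, mul_smul, Finset.smul_sum, RingHom.id_apply]

theorem f2_apply (S : Fin k → Fin k → ℂ) :
    f2 S = ∑ c, ∑ c', S c c' • ((eps c * eps c') *ᵥ ev ∅) := rfl

theorem f1_eq (v : Fin k → ℂ) : f1 v = ∑ c, v c • (eps c *ᵥ ev ∅) := by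
  simp only [f1, epsV, Matrix.sum_mulVec, Matrix.smul_mulVec]

theorem f2_symm {S : Fin k → Fin k → ℂ} (h : ∀ c c', S c c' = S c' c) : f2 S = 0 :=
  (f2_apply S).trans (Ka.anti (F := fun c c' => S c c' • ((eps c * eps c') *ᵥ ev ∅)) fun i j => by
    rw [eps_eps, Matrix.neg_mulVec, smul_neg, h])

theorem wg_sum {ι : Type} (s : Finset ι) (u : ι → Fk k) :
    wg (∑ i ∈ s, u i) = ∑ i ∈ s, wg (u i) := by
  classical
  induction s using Finset.induction_on with
  | empty => exact F1aH.wg_zero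
  | insert a s ha ih => rw [Finset.sum_insert ha, Finset.sum_insert ha, f1a.wg_add, ih]

theorem wg_f1 (v w : Fin k → ℂ) : wg (f1 v) *ᵥ f1 w = f2 fun c c' => v c * w c' := by
  rw [f1_eq v, wg_sum, f1_eq w, f2_apply, Matrix.sum_mulVec]
  refine Finset.sum_congr rfl fun c _ => ?_
  rw [f1a.wg_smul, f1a.wg_eps, f1a.wg_ev, mul_one, Matrix.smul_mulVec, Matrix.mulVec_sum,
    Finset.smul_sum]
  refine Finset.sum_congr rfl fun c' _ => ?_
  rw [Matrix.mulVec_smul, smul_smul, Matrix.mulVec_mulVec]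

theorem lam_f1 (J : Matrix (Fin k) (Fin k) ℂ) (v : Fin k → ℂ) : lam J *ᵥ f1 v = f1 (J *ᵥ v) := by
  have h : ∀ l, lam J *ᵥ (eps l *ᵥ ev ∅) = ∑ c, J c l • (eps c *ᵥ ev ∅) := fun l => by
    rw [Matrix.mulVec_mulVec, show lam J * eps l = _ from f1a.lr_eps J l, ← Matrix.mulVec_mulVec,
      f1a.lr_ev]
    exact f1_eq _
  rw [f1_eq, f1_eq, Matrix.mulVec_sum]
  simp only [Matrix.mulVec_smul, h, Finset.smul_sum, smul_smul]
  rw [Finset.sum_comm]
  refine Finset.sum_congr rfl fun c _ => ?_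
  rw [← Finset.sum_smul]
  congr 1
  exact Finset.sum_congr rfl fun l _ => mul_comm _ _

end pt

variable {n : ℕ} {z : Cm n} {c : Fin (n + n)}

theorem f1_smooth {v : Cm n → Fin (n + n) → ℂ} (h : ∀ c, ContDiffAt ℝ ∞ (fun y => v y c) z) :
    ContDiffAt ℝ ∞ (fun y => (f1 (v y) : Fo n)) z := by
  simp only [f1_eq]
  exact ContDiffAt.sum fun c _ => (h c).smul contDiffAt_const

theorem dT_f1 {v : Cm n → Fin (n + n) → ℂ} (h : ∀ c, DifferentiableAt ℝ (fun y => v y c) z) :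
    dT (fun y => f1 (v y)) z = f2 fun c c' => dr c (fun y => v y c') z := by
  simp only [f1_eq]
  rw [dT, f2_apply]
  refine Finset.sum_congr rfl fun c _ => ?_
  rw [Ka.Dv_sum _ fun k _ => (h k).smul_const _, Matrix.mulVec_sum]
  refine Finset.sum_congr rfl fun k _ => ?_
  rw [Ka.Dv_fmul (h k) (differentiableAt_const _), Ka.Dv_const, smul_zero, add_zero,
    Matrix.mulVec_smul, Matrix.mulVec_mulVec]

theorem dT_fn {g : Cm n → ℂ} (h : DifferentiableAt ℝ g z) :
    dT (fun y => g y • (ev ∅ : Fo n)) z = f1 fun c => dr c g z := by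
  rw [(k1a f1a f1b).fun_mul h (differentiableAt_const _), (k1a f1a f1b).const, smul_zero, add_zero]
  rfl

/-- the indicator of the holomorphic indices -/
def hp (c : Fin (n + n)) : ℂ := Fin.addCases (motive := fun _ => ℂ) (fun _ => 1) (fun _ => 0) c

theorem hp_hl (j : Fin n) : hp (hl j) = 1 := Fin.addCases_left j

theorem hp_ah (j : Fin n) : hp (ah j) = 0 := Fin.addCases_right j

theorem f2_hess {ψ : Cm n → ℝ} (h : ContDiffAt ℝ ∞ (fun y => (ψ y : ℂ)) z) :
    f2 (fun c c' => hp c' * dr c (dr c' fun y => (ψ y : ℂ)) z) =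
      Complex.I • (Lw (cHess ψ z) *ᵥ ev ∅) := by
  rw [f2_apply, Ka.sum_idx]
  simp only [Ka.sum_idx, hp_hl, hp_ah, one_mul, zero_mul, zero_smul, Finset.sum_const_zero,
    add_zero]
  rw [Ka.anti (F := fun j k => dr (hl j) (dr (hl k) fun y => (ψ y : ℂ)) z •
    ((eps (hl j) * eps (hl k)) *ᵥ ev ∅)), zero_add, Finset.sum_comm]
  · simp only [Lw, Matrix.sum_mulVec, Matrix.smul_mulVec, Finset.smul_sum, smul_smul]
    refine Finset.sum_congr rfl fun j _ => Finset.sum_congr rfl fun k _ => ?_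
    rw [eps_eps, Matrix.neg_mulVec, smul_neg, ← neg_smul, Ka.dr_comm _ _ h, Ka.dr_hl, Ka.dr_ah,
      ← mul_assoc, Complex.I_mul_I, neg_one_mul]
    rfl
  · intro j k
    rw [eps_eps, Matrix.neg_mulVec, smul_neg, Ka.dr_comm _ _ h]

theorem dz_log {g : Cm n → ℂ} (h : DifferentiableAt ℂ g z) (h0 : g z ≠ 0) (j : Fin n) :
    dz j (fun y => ((Real.log (‖g y‖ ^ 2) : ℝ) : ℂ)) z = (g z)⁻¹ * dz j g z := by
  have h' := h.restrictScalars ℝ
  have h1 : ‖g z‖ ^ 2 ≠ 0 := pow_ne_zero _ (norm_ne_zero_iff.2 h0)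
  have h2 : (fun y => ((‖g y‖ ^ 2 : ℝ) : ℂ)) = fun y => g y * (starRingEnd ℂ) (g y) :=
    funext fun y => by rw [Complex.mul_conj, Complex.normSq_eq_norm_sq]
  have h3 : DifferentiableAt ℝ (fun y => (starRingEnd ℂ) (g y)) z :=
    Complex.conjCLE.differentiableAt.comp z h'
  rw [dz_comp_real j (Real.hasDerivAt_log h1) (h'.norm_sq ℝ), h2, dz_mul j h' h3, dz_conj j h',
    Kb.dzb_hol h, map_zero, mul_zero, add_zero, Complex.ofReal_inv, congrFun h2 z]
  have h4 : (starRingEnd ℂ) (g z) ≠ 0 := (map_ne_zero _).2 h0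
  field_simp

/-! ### Matrix functions -/

variable {α β γ : Type}

/-- the entrywise derivative -/
def Dm (c : Fin (n + n)) (A : Cm n → Matrix α β ℂ) (z : Cm n) : Matrix α β ℂ :=
  Matrix.of fun i j => dr c (fun y => A y i j) z

theorem Dm_congr {A B : Cm n → Matrix α β ℂ} (h : A =ᶠ[𝓝 z] B) : Dm c A z = Dm c B z := by
  ext i j
  exact Ka.dr_congr (h.mono fun y hy => congrFun (congrFun hy i) j)

theorem Dm_const (A : Matrix α β ℂ) : Dm c (fun _ => A) z = 0 := by
  ext i j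
  exact Ka.dr_const _

theorem Dm_smooth {A : Cm n → Matrix α β ℂ} (h : MC ∞ A z) : MC ∞ (Dm c A) z :=
  fun i j => Ka.dr_smooth (h i j)

theorem Dm_comm {A : Cm n → Matrix α β ℂ} (h : MC ∞ A z) (c c' : Fin (n + n)) :
    Dm c (Dm c' A) z = Dm c' (Dm c A) z := by
  ext i j
  exact Ka.dr_comm c c' (h i j)

theorem md {A : Cm n → Matrix α β ℂ} (h : MC ∞ A z) : MD A z := h.md (by simp)

theorem Dm_mul [Fintype β] {A : Cm n → Matrix α β ℂ} {B : Cm n → Matrix β γ ℂ} (hA : MD A z)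
    (hB : MD B z) : Dm c (fun y => A y * B y) z = Dm c A z * B z + A z * Dm c B z := by
  ext i j
  simp only [Dm, Matrix.of_apply, Matrix.add_apply, Matrix.mul_apply]
  rw [Ka.dr_sum _ fun l _ => (hA i l).fun_mul (hB l j), ← Finset.sum_add_distrib]
  exact Finset.sum_congr rfl fun l _ => Ka.dr_mul (hA i l) (hB l j)

theorem dr_trace [Fintype α] {A : Cm n → Matrix α α ℂ} (hA : MD A z) :
    dr c (fun y => (A y).trace) z = (Dm c A z).trace :=
  Ka.dr_sum _ fun i _ => hA i i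

theorem dr_det [Fintype α] [DecidableEq α] {A : Cm n → Matrix α α ℂ} (hA : MD A z)
    (h0 : (A z).det ≠ 0) :
    dr c (fun y => (A y).det) z = (A z).det * ((A z)⁻¹ * Dm c A z).trace := by
  induction c using Fin.addCases with
  | left j => exact (congrFun (congrFun (Ka.dr_hl j) _) _).trans ((dz_det hA h0).trans (by
      congr 3
      ext a b
      exact (congrFun (congrFun (Ka.dr_hl j) _) _).symm))
  | right j => exact (congrFun (congrFun (Ka.dr_ah j) _) _).trans ((dzb_det hA h0).trans (by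
      congr 3
      ext a b
      exact (congrFun (congrFun (Ka.dr_ah j) _) _).symm))

theorem Dm_comp {A : Cm n → Matrix α β ℂ} {τ : Cm n → Cm n} (hτ : DifferentiableAt ℝ τ z)
    (hA : MD A (τ z)) : Dm c (fun y => A (τ y)) z = ∑ l, jc τ z c l • Dm l A (τ z) := by
  ext i j
  rw [Matrix.sum_apply]
  exact Kb.dr_comp c hτ (hA i j)

variable [Fintype α] [Fintype β] {A A' : Cm n → Matrix α β ℂ} {B B' : Cm n → Matrix β α ℂ}
  {ψ ψ' : Cm n → ℝ}

/-- the coefficients of `tr (B dA) + ∂ψ` -/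
def cf1 (A : Cm n → Matrix α β ℂ) (B : Cm n → Matrix β α ℂ) (ψ : Cm n → ℝ) (z : Cm n)
    (c : Fin (n + n)) : ℂ := (B z * Dm c A z).trace + hp c * dr c (fun y => (ψ y : ℂ)) z

theorem cf1_congr (hA : A =ᶠ[𝓝 z] A') (hB : B z = B' z) (hψ : ψ =ᶠ[𝓝 z] ψ') :
    cf1 A B ψ z = cf1 A' B' ψ' z := funext fun c => by
  rw [cf1, cf1, Dm_congr hA, hB, Ka.dr_congr (hψ.mono fun y hy => congrArg Complex.ofReal hy)]

theorem cf1_smooth (hA : MC ∞ A z) (hB : MC ∞ B z) (hψ : ContDiffAt ℝ ∞ ψ z) (c : Fin (n + n)) :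
    ContDiffAt ℝ ∞ (fun y => cf1 A B ψ y c) z :=
  (hB.mul (Dm_smooth hA)).trace.add (contDiffAt_const.mul (Ka.dr_smooth (contDiffAt_ofReal hψ)))

theorem tr_alg [DecidableEq β] {a a1 a2 : Matrix α β ℂ} {b b1 b2 : Matrix β α ℂ} (h : b * a = 1)
    (h2 : b2 * a + b * a2 = 0) (h1 : b1 * a + b * a1 = 0) :
    (a * b * (a1 * b + a * b1) * (a2 * b + a * b2)).trace =
      (b1 * a2).trace + (b * a1 * (b * a2)).trace := by
  have e2 : b2 * a = -(b * a2) := eq_neg_of_add_eq_zero_left h2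
  have e1 : b1 * a = -(b * a1) := eq_neg_of_add_eq_zero_left h1
  have e3 : b * (a1 * b + a * b1) = b * a1 * b + b1 := by
    rw [Matrix.mul_add, ← Matrix.mul_assoc b a, h, Matrix.one_mul, Matrix.mul_assoc]
  have e4 : (a2 * b + a * b2) * a = a2 - a * (b * a2) := by
    rw [Matrix.add_mul, Matrix.mul_assoc a2, h, Matrix.mul_one, Matrix.mul_assoc, e2,
      Matrix.mul_neg, sub_eq_add_neg]
  rw [Matrix.mul_assoc a, Matrix.mul_assoc a, Matrix.trace_mul_comm, Matrix.mul_assoc, e3, e4,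
    ← Matrix.trace_add]
  congr 1
  rw [Matrix.add_mul, Matrix.mul_sub, Matrix.mul_sub, ← Matrix.mul_assoc b1, e1,
    Matrix.mul_assoc (b * a1), Matrix.mul_assoc (b * a1), ← Matrix.mul_assoc b a, h,
    Matrix.one_mul, Matrix.neg_mul]
  abel

/-- the curvature -/
theorem curv [DecidableEq β] {p : Cm n → Matrix α α ℂ} (hA : MC ∞ A z) (hB : MC ∞ B z)
    (hψ : ContDiffAt ℝ ∞ ψ z) (h1 : ∀ᶠ y in 𝓝 z, B y * A y = 1)
    (hp' : p =ᶠ[𝓝 z] fun y => A y * B y) :
    dT (fun y => f1 (cf1 A B ψ y)) z =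
      f2 (fun c c' => (p z * Dm c p z * Dm c' p z).trace) +
        Complex.I • (Lw (cHess ψ z) *ᵥ ev ∅) := by
  have hψ' := contDiffAt_ofReal hψ
  have h2 : ∀ c, Dm c B z * A z + B z * Dm c A z = 0 := fun c => by
    rw [← Dm_mul (md hB) (md hA), Dm_congr (B := fun _ => 1) h1, Dm_const]
  have h3 : f2 (fun c c' => (B z * Dm c (Dm c' A) z).trace -
      (B z * Dm c A z * (B z * Dm c' A z)).trace) = 0 :=
    f2_symm fun c c' => by rw [Dm_comm hA, Matrix.trace_mul_comm (B z * Dm c A z)]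
  rw [dT_f1 fun c => (cf1_smooth hA hB hψ c).differentiableAt (by simp), ← f2_hess hψ',
    ← map_add, ← add_zero (f2 (_ + _)), ← h3, ← map_add]
  congr 1
  funext c c'
  simp only [cf1, Pi.add_apply]
  rw [Ka.dr_add ((hB.mul (Dm_smooth hA)).trace.differentiableAt (by simp))
      (((Ka.dr_smooth hψ').differentiableAt (by simp)).const_mul _),
    Ka.dr_cmul _ ((Ka.dr_smooth hψ').differentiableAt (by simp)),
    dr_trace (md (hB.mul (Dm_smooth hA))), Dm_mul (md hB) (md (Dm_smooth hA)), Dm_congr hp',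
    Dm_congr hp', hp'.eq_of_nhds, Dm_mul (md hA) (md hB), Dm_mul (md hA) (md hB),
    tr_alg h1.self_of_nhds (h2 c') (h2 c), Matrix.trace_add]
  ring

/-- the change of the frame -/
theorem frame [DecidableEq β] {g : Cm n → ℂ} (hA : MC ∞ A z) (hB : MC ∞ B z) (hA' : MC ∞ A' z)
    (hψ' : ContDiffAt ℝ ∞ ψ' z) (hg : DifferentiableAt ℂ g z) (h1 : B z * A z = 1)
    (h2 : ∀ᶠ y in 𝓝 z, B' y * A' y = 1 ∧ A y * B y = A' y * B' y ∧ (B y * A' y).det = g y ∧
      ψ y = ψ' y + Real.log (‖g y‖ ^ 2)) : cf1 A' B' ψ' z = cf1 A B ψ z := by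
  obtain ⟨k1, k2, k3, -⟩ := h2.self_of_nhds
  have hm := hB.mul hA'
  have e1 : B' z * A z * (B z * A' z) = 1 := by
    rw [Matrix.mul_assoc, ← Matrix.mul_assoc (A z), k2, Matrix.mul_assoc, k1, Matrix.mul_one, k1]
  have e2 : (B z * A' z).det ≠ 0 := Matrix.det_ne_zero_of_left_inverse e1
  have e3 : A' =ᶠ[𝓝 z] fun y => A y * (B y * A' y) := h2.mono fun y hy => by
    show A' y = A y * (B y * A' y)
    rw [← Matrix.mul_assoc, hy.2.1, Matrix.mul_assoc, hy.1, Matrix.mul_one]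
  have h0 : g z ≠ 0 := k3 ▸ e2
  have hl' : DifferentiableAt ℝ (fun y => ((Real.log (‖g y‖ ^ 2) : ℝ) : ℂ)) z :=
    Complex.ofRealCLM.differentiableAt.comp z
      (((hg.restrictScalars ℝ).norm_sq ℝ).log (pow_ne_zero _ (norm_ne_zero_iff.2 h0)))
  funext c
  have e4 : dr c g z = g z * (B' z * A z * Dm c (fun y => B y * A' y) z).trace := by
    rw [← Ka.dr_congr (f := fun y => (B y * A' y).det) (h2.mono fun y hy => hy.2.2.1),
      dr_det (md hm) e2, k3, Matrix.inv_eq_left_inv e1]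
  have e5 : dr c (fun y => (ψ y : ℂ)) z = dr c (fun y => (ψ' y : ℂ)) z +
      dr c (fun y => ((Real.log (‖g y‖ ^ 2) : ℝ) : ℂ)) z := by
    rw [← Ka.dr_add ((contDiffAt_ofReal hψ').differentiableAt (by simp)) hl']
    exact Ka.dr_congr (h2.mono fun y hy => by
      show (ψ y : ℂ) = _
      rw [hy.2.2.2, Complex.ofReal_add])
  have e6 : hp c * dr c (fun y => ((Real.log (‖g y‖ ^ 2) : ℝ) : ℂ)) z = (g z)⁻¹ * dr c g z := by
    induction c using Fin.addCases with
    | left j =>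
      show hp (hl j) * dr (hl j) _ z = _ * dr (hl j) g z
      rw [hp_hl, one_mul, Ka.dr_hl, dz_log hg h0]
    | right j =>
      show hp (ah j) * dr (ah j) _ z = _ * dr (ah j) g z
      rw [hp_ah, zero_mul, Ka.dr_ah, Kb.dzb_hol hg, mul_zero]
  have e7 : (B' z * (Dm c A z * (B z * A' z))).trace = (B z * Dm c A z).trace := by
    rw [← Matrix.mul_assoc, Matrix.trace_mul_comm, ← Matrix.mul_assoc, Matrix.mul_assoc (B z),
      ← k2, ← Matrix.mul_assoc (B z), h1, Matrix.one_mul]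
  rw [cf1, cf1, e5, mul_add, e6, e4, Dm_congr e3, Dm_mul (md hA) (md hm), Matrix.mul_add,
    Matrix.trace_add, e7, ← Matrix.mul_assoc, inv_mul_cancel_left₀ h0]
  ring

/-- the change of the chart -/
theorem chart {τ : Cm n → Cm n} (hτ : DifferentiableAt ℂ τ z) (hA : MC ∞ A (τ z))
    (hψ : ContDiffAt ℝ ∞ ψ (τ z)) :
    cf1 (fun y => A (τ y)) (fun y => B (τ y)) (fun y => ψ (τ y)) z =
      jc τ z *ᵥ cf1 A B ψ (τ z) := by
  have h' := hτ.restrictScalars ℝ
  have h1 : ∀ c l, hp c * jc τ z c l = jc τ z c l * hp l := fun c l => by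
    rw [Kb.jc_hol hτ]
    induction c using Fin.addCases with
    | left i =>
      induction l using Fin.addCases with
      | left j => exact (mul_comm _ _).trans (congrArg _ ((hp_hl i).trans (hp_hl j).symm))
      | right j =>
        show _ * blk _ _ (hl i) (ah j) = blk _ _ (hl i) (ah j) * _
        rw [f1b.blk_ha, mul_zero, zero_mul]
    | right i =>
      induction l using Fin.addCases with
      | left j =>
        show _ * blk _ _ (ah i) (hl j) = blk _ _ (ah i) (hl j) * _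
        rw [f1b.blk_ah, mul_zero, zero_mul]
      | right j => exact (mul_comm _ _).trans (congrArg _ ((hp_ah i).trans (hp_ah j).symm))
  funext c
  rw [cf1, Dm_comp h' (md hA), Kb.dr_comp (g := fun y => (ψ y : ℂ)) c h'
    ((contDiffAt_ofReal hψ).differentiableAt (by simp)), Matrix.mul_sum, Matrix.trace_sum,
    Finset.mul_sum, ← Finset.sum_add_distrib]
  refine Finset.sum_congr rfl fun l _ => ?_
  rw [Matrix.mul_smul, Matrix.trace_smul, ← mul_assoc, h1, smul_eq_mul, mul_assoc, ← mul_add]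
  rfl

end Vale.Agent.P280Z.Co.Ln
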