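import Vale.Agent.P280Z.Co.PlA

/-!
# P280Z, row PL: the limits of the local integrals
-/

open scoped Topology
open Set Filter MeasureTheory
open Vale.Agent.P272.K Vale.Agent.P280Z.Pu

noncomputable section

namespace Vale.Agent.P280Z.Co.PlH

/-- the first kernel -/
def q1 (a : ℂ) (b ε : ℝ) : ℝ := ε * Real.exp b / (‖a‖ ^ 2 + ε * Real.exp b)

/-- the second kernel -/
def q2 (a : ℂ) (b ε : ℝ) : ℝ := ε * Real.exp b / (‖a‖ ^ 2 + ε * Real.exp b) ^ 2

theorem q1_le (a : ℂ) (b : ℝ) {ε : ℝ} (hε : 0 < ε) : |q1 a b ε| ≤ 1 := by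
  rw [q1, abs_of_nonneg (by positivity), div_le_one (den_pos a b hε)]
  exact le_add_of_nonneg_left (by positivity)

theorem q2_le {a : ℂ} (ha : a ≠ 0) (b : ℝ) {ε : ℝ} (hε : 0 < ε) : |q2 a b ε| ≤ (‖a‖ ^ 2)⁻¹ := by
  have h : 0 < ‖a‖ ^ 2 := by positivity
  have h1 : 0 < ε * Real.exp b := by positivity
  rw [q2, abs_of_nonneg (by positivity), inv_eq_one_div, div_le_div_iff₀ (by positivity) h]
  nlinarith [mul_pos h h1]

theorem cq {α : Type} [TopologicalSpace α] {σ A : α → ℂ} {ψ : α → ℝ} {w : α} {ε : ℝ}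
    (h1 : ContinuousAt σ w) (h2 : ContinuousAt ψ w) (h3 : ContinuousAt A w) (hε : 0 < ε) (k : ℕ) :
    ContinuousAt (fun w =>
      ((ε * Real.exp (ψ w) / (‖σ w‖ ^ 2 + ε * Real.exp (ψ w)) ^ k : ℝ) : ℂ) * A w) w := by
  have h : ContinuousAt
      (fun w => ε * Real.exp (ψ w) / (‖σ w‖ ^ 2 + ε * Real.exp (ψ w)) ^ k) w :=
    ContinuousAt.div (by fun_prop) (by fun_prop) (pow_pos (den_pos _ _ hε) k).ne'
  exact (Complex.continuous_ofReal.continuousAt.comp h).mul h3

theorem q_lim {a : ℂ} (ha : a ≠ 0) (b : ℝ) (k : ℕ) (c : ℂ) :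
    Tendsto (fun R : ℝ => ((R ^ 2 * Real.exp b / (‖a‖ ^ 2 + R ^ 2 * Real.exp b) ^ k : ℝ) : ℂ) * c)
      (𝓝[>] 0) (𝓝 0) := by
  have h : ContinuousAt (fun R : ℝ =>
      ((R ^ 2 * Real.exp b / (‖a‖ ^ 2 + R ^ 2 * Real.exp b) ^ k : ℝ) : ℂ) * c) 0 :=
    (Complex.continuous_ofReal.continuousAt.comp (ContinuousAt.div (by fun_prop) (by fun_prop)
      (by simp [ha]))).mul continuousAt_const
  simpa using h.tendsto.mono_left nhdsWithin_le_nhds

section gen
variable {E : Type} [TopologicalSpace E] [T2Space E] {K : Set E} {σ A : E → ℂ} {ψ : E → ℝ}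

omit [T2Space E] in
theorem cont_of {F : Type} [TopologicalSpace F] [Zero F] {f : E → F} (hK : IsClosed K)
    (h0 : ∀ w ∉ K, f w = 0) (h : ∀ w ∈ K, ContinuousAt f w) : Continuous f :=
  continuous_iff_continuousAt.2 fun w => by
    by_cases hw : w ∈ K
    · exact h w hw
    · exact (continuousAt_const (y := (0 : F))).congr
        (mem_of_superset (hK.isOpen_compl.mem_nhds hw) fun y hy => (h0 y hy).symm)

/-- the data of a local integral -/
structure Loc (K : Set E) (σ : E → ℂ) (ψ : E → ℝ) (A : E → ℂ) : Prop where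
  cpt : IsCompact K
  cσ : ∀ w ∈ K, ContinuousAt σ w
  cψ : ∀ w ∈ K, ContinuousAt ψ w
  cA : ∀ w ∈ K, ContinuousAt A w
  off : ∀ w ∉ K, A w = 0

theorem Loc.cont (h : Loc K σ ψ A) : Continuous A := cont_of h.cpt.isClosed h.off h.cA

theorem Loc.cont_q (h : Loc K σ ψ A) {ε : ℝ} (hε : 0 < ε) (k : ℕ) : Continuous fun w =>
    ((ε * Real.exp (ψ w) / (‖σ w‖ ^ 2 + ε * Real.exp (ψ w)) ^ k : ℝ) : ℂ) * A w :=
  cont_of h.cpt.isClosed (fun w hw => by rw [h.off w hw, mul_zero]) fun w hw =>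
    cq (h.cσ w hw) (h.cψ w hw) (h.cA w hw) hε k

variable [MeasurableSpace E] [BorelSpace E] {μ : Measure E} [IsFiniteMeasureOnCompacts μ]

theorem Loc.int_q (h : Loc K σ ψ A) {ε : ℝ} (hε : 0 < ε) (k : ℕ) : Integrable (fun w =>
    ((ε * Real.exp (ψ w) / (‖σ w‖ ^ 2 + ε * Real.exp (ψ w)) ^ k : ℝ) : ℂ) * A w) μ :=
  (h.cont_q hε k).integrable_of_hasCompactSupport
    (.intro h.cpt fun w hw => by rw [h.off w hw, mul_zero])

theorem Loc.int1 (h : Loc K σ ψ A) {ε : ℝ} (hε : 0 < ε) :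
    Integrable (fun w => (q1 (σ w) (ψ w) ε : ℂ) * A w) μ := by
  simpa only [q1, pow_one] using h.int_q (μ := μ) hε 1

theorem Loc.int2 (h : Loc K σ ψ A) {ε : ℝ} (hε : 0 < ε) :
    Integrable (fun w => (q2 (σ w) (ψ w) ε : ℂ) * A w) μ := h.int_q hε 2

theorem sq_pos : ∀ᶠ R : ℝ in 𝓝[>] 0, 0 < R ^ 2 :=
  eventually_mem_nhdsWithin.mono fun _ h => pow_pos h 2

theorem Loc.lim1 (h : Loc K σ ψ A) (h0 : ∀ᵐ w ∂μ, w ∈ K → σ w ≠ 0) :
    Tendsto (fun R : ℝ => ∫ w, (q1 (σ w) (ψ w) (R ^ 2) : ℂ) * A w ∂μ) (𝓝[>] 0) (𝓝 0) := by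
  have k := tendsto_integral_filter_of_dominated_convergence (μ := μ) (l := 𝓝[>] (0 : ℝ))
    (F := fun R w => (q1 (σ w) (ψ w) (R ^ 2) : ℂ) * A w) (f := fun _ => 0) (fun w => ‖A w‖)
    (sq_pos.mono fun R hR => (h.int1 hR).1) (sq_pos.mono fun R hR => .of_forall fun w => by
      rw [norm_mul, Complex.norm_real]
      exact mul_le_of_le_one_left (norm_nonneg _) (q1_le _ _ hR))
    (h.cont.integrable_of_hasCompactSupport (.intro h.cpt h.off)).norm (h0.mono fun w hw => by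
      by_cases k : w ∈ K
      · simpa only [q1, pow_one] using q_lim (hw k) (ψ w) 1 (A w)
      · simp only [h.off w k, mul_zero, tendsto_const_nhds])
  rwa [integral_zero] at k

theorem Loc.lim2 (h : Loc K σ ψ A) (h0 : ∀ w ∈ K, σ w ≠ 0) :
    Tendsto (fun R : ℝ => ∫ w, (q2 (σ w) (ψ w) (R ^ 2) : ℂ) * A w ∂μ) (𝓝[>] 0) (𝓝 0) := by
  have z : ∀ w ∉ K, (‖σ w‖ ^ 2)⁻¹ * ‖A w‖ = 0 := fun w hw => by
    rw [h.off w hw, norm_zero, mul_zero]
  have k := tendsto_integral_filter_of_dominated_convergence (μ := μ) (l := 𝓝[>] (0 : ℝ))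
    (F := fun R w => (q2 (σ w) (ψ w) (R ^ 2) : ℂ) * A w) (f := fun _ => 0)
    (fun w => (‖σ w‖ ^ 2)⁻¹ * ‖A w‖)
    (sq_pos.mono fun R hR => (h.int2 hR).1) (sq_pos.mono fun R hR => .of_forall fun w => by
      by_cases k : w ∈ K
      · rw [norm_mul, Complex.norm_real]
        exact mul_le_mul_of_nonneg_right (q2_le (h0 w k) _ hR) (norm_nonneg _)
      · rw [z w k, h.off w k, mul_zero, norm_zero])
    ((cont_of h.cpt.isClosed z fun w hw => (((h.cσ w hw).norm.pow 2).inv₀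
      (pow_pos (norm_pos_iff.2 (h0 w hw)) 2).ne').mul (h.cA w hw).norm
      ).integrable_of_hasCompactSupport (.intro h.cpt z)) (.of_forall fun w => by
      by_cases k : w ∈ K
      · exact q_lim (h0 w k) (ψ w) 2 (A w)
      · simp only [h.off w k, mul_zero, tendsto_const_nhds])
  rwa [integral_zero] at k

end gen

/-- the total mass of the kernel -/
theorem int_ker (b : ℝ) : ∫ z : Cm 1, q2 (z 0) b 1 = Real.pi := by
  have hg := Real.exp_pos b
  have h1 : ∫ z : Cm 1, q2 (z 0) b 1 = ∫ z : ℂ, q2 z b 1 :=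
    (volume_preserving_funUnique (Fin 1) ℂ).integral_comp' fun z => q2 z b 1
  have h2 := integral_fun_norm_addHaar (volume : Measure ℂ)
    fun r => 1 * Real.exp b / (r ^ 2 + 1 * Real.exp b) ^ 2
  have h3 : ∫ y in Ioi (0 : ℝ), y ^ (2 - 1) • (1 * Real.exp b / (y ^ 2 + 1 * Real.exp b) ^ 2) =
      0 - -(Real.exp b / 2) * ((0 : ℝ) ^ 2 + Real.exp b)⁻¹ := by
    refine integral_Ioi_of_hasDerivAt_of_nonneg'
      (g := fun y => -(Real.exp b / 2) * (y ^ 2 + Real.exp b)⁻¹) (fun y _ => ?_)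
      (fun y hy => ?_) ?_
    · have p : y ^ 2 + Real.exp b ≠ 0 := by positivity
      refine ((((hasDerivAt_pow 2 y).add_const (Real.exp b)).inv p).const_mul _).congr_deriv ?_
      simp only [smul_eq_mul, Nat.cast_ofNat, one_mul]
      field_simp
    · have : 0 < y := hy
      positivity
    · rw [← mul_zero (-(Real.exp b / 2))]
      exact (tendsto_inv_atTop_zero.comp (tendsto_atTop_add_const_right _ _
        (tendsto_pow_atTop two_ne_zero))).const_mul _
  rw [Complex.finrank_real_complex, h3] at h2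
  rw [h1]
  refine h2.trans ?_
  simp [Measure.real, Complex.volume_ball]
  field_simp

theorem q2_scale (a : ℂ) (b : ℝ) {R : ℝ} (hR : 0 < R) :
    R ^ 2 * q2 (R • a) b (R ^ 2) = q2 a b 1 := by
  have := Real.exp_pos b
  rw [q2, q2, norm_smul, Real.norm_of_nonneg hR.le]
  field_simp

theorem q2_bd (a : ℂ) {b c : ℝ} (h : |b| ≤ c) : |q2 a b 1| ≤ Real.exp (2 * c) * q2 a (-c) 1 := by
  have h1 : Real.exp (-c) ≤ Real.exp b := Real.exp_le_exp.2 (abs_le.1 h).1
  have h2 : Real.exp b ≤ Real.exp (2 * c) * Real.exp (-c) := by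
    rw [← Real.exp_add]
    exact Real.exp_le_exp.2 (by linarith [(abs_le.1 h).2])
  rw [q2, q2, abs_of_nonneg (by positivity), one_mul, one_mul, ← mul_div_assoc]
  gcongr

variable {p : ℕ}

theorem Loc.lim3 {K : Set (Cm p × Cm 1)} {ψ : Cm p × Cm 1 → ℝ} {A : Cm p × Cm 1 → ℂ}
    (h : Loc K (fun w => w.2 0) ψ A) :
    Tendsto (fun R : ℝ => ∫ w : Cm p × Cm 1, (q2 (w.2 0) (ψ w) (R ^ 2) : ℂ) * A w
      ∂(volume.prod volume))
      (𝓝[>] 0) (𝓝 (Real.pi * ∫ t, A (t, 0))) := by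
  obtain ⟨c, hc⟩ := h.cpt.exists_bound_of_continuousOn fun w hw => (h.cψ w hw).continuousWithinAt
  obtain ⟨a, ha⟩ := h.cont.bounded_above_of_compact_support (.intro h.cpt h.off)
  have K1 : IsCompact (Prod.fst '' K) := h.cpt.image continuous_fst
  set F : ℝ → Cm p × Cm 1 → ℂ :=
    fun R w => (q2 (w.2 0) (ψ (w.1, R • w.2)) 1 : ℂ) * A (w.1, R • w.2) with hF
  have c1 : Continuous fun w : (Cm p × Cm 1) × ℂ => (q2 w.2 (ψ w.1) 1 : ℂ) * A w.1 :=
    cont_of (h.cpt.isClosed.preimage continuous_fst) (fun w hw => by rw [h.off _ hw, mul_zero])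
      fun w hw => cq continuousAt_snd ((h.cψ _ hw).comp continuousAt_fst)
        ((h.cA _ hw).comp continuousAt_fst) one_pos 2
  have c2 : Continuous fun w : ℝ × Cm p × Cm 1 => F w.1 w.2 :=
    c1.comp (f := fun w : ℝ × Cm p × Cm 1 => ((w.2.1, w.1 • w.2.2), w.2.2 0)) (by fun_prop)
  have i1 : Integrable (fun w : Cm p × Cm 1 => (Prod.fst '' K).indicator (fun _ => a) w.1 *
      (Real.exp (2 * c) * q2 (w.2 0) (-c) 1)) (volume.prod volume) :=
    Integrable.mul_prod ((integrable_indicator_iff K1.measurableSet).2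
      (integrableOn_const K1.measure_lt_top.ne)) ((Integrable.of_integral_ne_zero
        (f := fun z : Cm 1 => q2 (z 0) (-c) 1) (by rw [int_ker]; exact Real.pi_ne_zero)).const_mul _)
  have b1 : ∀ R w, ‖F R w‖ ≤ (Prod.fst '' K).indicator (fun _ => a) w.1 *
      (Real.exp (2 * c) * q2 (w.2 0) (-c) 1) := fun R w => by
    have p0 : 0 ≤ Real.exp (2 * c) * q2 (w.2 0) (-c) 1 := by rw [q2]; positivity
    by_cases k : (w.1, R • w.2) ∈ K
    · rw [indicator_of_mem (mem_image_of_mem Prod.fst k), hF, norm_mul, Complex.norm_real, mul_comm]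
      exact mul_le_mul (ha _) (q2_bd _ (hc _ k)) (norm_nonneg _) ((norm_nonneg _).trans (ha w))
    · simp only [hF, h.off _ k, mul_zero, norm_zero]
      exact mul_nonneg (indicator_nonneg (fun _ _ => (norm_nonneg _).trans (ha w)) _) p0
  have m1 : ∀ R, AEStronglyMeasurable (F R) (volume.prod volume) := fun R =>
    (c2.comp (.prodMk_right R)).aestronglyMeasurable
  have i2 : ∀ R, Integrable (F R) (volume.prod volume) := fun R =>
    i1.mono' (m1 R) (.of_forall (b1 R))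
  have k := tendsto_integral_filter_of_dominated_convergence (l := 𝓝[>] (0 : ℝ)) (F := F)
    (f := F 0) _ (.of_forall m1) (.of_forall fun R => .of_forall (b1 R)) i1 (.of_forall fun w =>
      (c2.comp (.prodMk_left w)).continuousAt.tendsto.mono_left nhdsWithin_le_nhds)
  have e0 : ∫ w, F 0 w ∂(volume.prod volume) = Real.pi * ∫ t, A (t, 0) := by
    rw [integral_prod _ (i2 0), ← integral_const_mul]
    refine integral_congr_ae (.of_forall fun t => ?_)
    simp only [hF, zero_smul]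
    rw [integral_mul_const, integral_complex_ofReal, int_ker]
  rw [e0] at k
  refine k.congr' (mem_of_superset self_mem_nhdsWithin fun R (hR : 0 < R) => ?_)
  refine (integral_prod _ (i2 R)).trans (Eq.trans (integral_congr_ae (.of_forall fun t => ?_))
    (integral_prod _ (h.int2 (pow_pos hR 2))).symm)
  have e := Measure.integral_comp_smul (volume : Measure (Cm 1))
    (fun z => (q2 (z 0) (ψ (t, z)) (R ^ 2) : ℂ) * A (t, z)) R
  rw [show Module.finrank ℝ (Cm 1) = 2 by simp [Module.finrank_pi_fintype],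
    abs_of_nonneg (by positivity), eq_inv_smul_iff₀ (pow_pos hR 2).ne', ← integral_smul] at e
  refine Eq.trans (integral_congr_ae (.of_forall fun z => ?_)) e
  simp only [hF, ← q2_scale (z 0) _ hR, Complex.ofReal_mul, Complex.real_smul, mul_assoc,
    Pi.smul_apply]

end Vale.Agent.P280Z.Co.PlH
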