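import Vale.Agent.P280Z.Co.PlB

/-!
# P280Z, row PL: the maximal atlas, adapted charts
-/

open scoped Manifold ContDiff Topology Matrix
open Set Filter
open Vale.Agent.P272.K Vale.Agent.P299.IX Vale.Agent.P299.IX.Fock Vale.Agent.P281Z
  Vale.Agent.P281Z.Hg Vale.Agent.P280Z.Pu Vale.Agent.P285.H281.FD
open Vale.Agent.P281Z.Hg.Pb1H (ca)

noncomputable section

namespace Vale.Agent.P280Z.Co.PlH

section ch
variable {m : ℕ} {X : Type} [TopologicalSpace X]

theorem tr_cd {𝕜 F : Type} [NontriviallyNormedField 𝕜] [NormedSpace 𝕜 ℂ] [NormedAddCommGroup F]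
    [NormedSpace 𝕜 F] {k : WithTop ℕ∞} {f : X → F} {e c : Chart m X} {x : X} (he : x ∈ e.source)
    (hc : x ∈ c.source) (h1 : ContDiffAt 𝕜 k (fun z => e (c.symm z)) (c x))
    (h2 : ContDiffAt 𝕜 k (fun z => f (e.symm z)) (e x)) :
    ContDiffAt 𝕜 k (fun z => f (c.symm z)) (c x) := by
  refine (ContDiffAt.comp (g := fun z => f (e.symm z)) (c x) (by rwa [c.left_inv hc]) h1
    ).congr_of_eventuallyEq ?_
  have h : ∀ᶠ z in 𝓝 (c x), c.symm z ∈ e.source :=
    (c.continuousAt_symm (c.map_source hc)).eventually_mem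
      (by rw [c.left_inv hc]; exact e.open_source.mem_nhds he)
  exact h.mono fun z hz => congrArg f (e.left_inv hz).symm

variable [ChartedSpace (Cm m) X] [IsManifold 𝓘(ℂ, Cm m) ω X]

/-- a local biholomorphism defines a chart of the maximal atlas -/
theorem ex_chart {e : Chart m X} {x : X} (he : At e x) {H : Cm m → Cm m} {D : Cm m →L[ℂ] Cm m}
    (hH : ContDiffAt ℂ ω H (e x)) (hD : HasFDerivAt H D (e x)) (hi : Function.Injective D) :
    ∃ c : Chart m X, c ∈ IsManifold.maximalAtlas 𝓘(ℂ, Cm m) ω X ∧ x ∈ c.source ∧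
      c.source ⊆ e.source ∧ ∀ y, c y = H (e y) := by
  have hω : (ω : WithTop ℕ∞) ≠ 0 := by simp
  have hm := IsManifold.subset_maximalAtlas (I := 𝓘(ℂ, Cm m)) (n := ω) he.1
  have hD' : HasFDerivAt H ((LinearEquiv.ofInjectiveEndo (D : Cm m →ₗ[ℂ] Cm m) hi
    ).toContinuousLinearEquiv : Cm m →L[ℂ] Cm m) (e x) := hD
  set g := hH.toOpenPartialHomeomorph H hD' hω
  have hx : e x ∈ g.source := hH.mem_toOpenPartialHomeomorph_source hD' hω
  have h1 : ContDiffAt ℂ ω g.symm (H (e x)) := hH.to_localInverse hD' hω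
  have h2 : ∀ᶠ w in 𝓝 (e x), ContDiffAt ℂ ω H w ∧ ContDiffAt ℂ ω g.symm (H w) :=
    (hH.eventually (by simp)).and (hH.continuousAt.eventually (h1.eventually (by simp)))
  obtain ⟨W, hW, hWo, hxW⟩ := eventually_nhds_iff.1 h2
  refine ⟨e ≫ₕ g.restrOpen W hWo, OpenPartialHomeomorph.mem_maximalAtlas_of_contMDiffOn _
    (fun y hy => ?_) fun q hq => ?_, ⟨he.2, hx, hxW⟩, inter_subset_left, fun _ => rfl⟩
  · exact (ContMDiffAt.comp (g := H) y (hW _ hy.2.2).1.contMDiffAt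
      (contMDiffAt_of_mem_maximalAtlas hm hy.1)).contMDiffWithinAt
  · have h3 : ContDiffAt ℂ ω g.symm (g (g.symm q)) := (hW _ hq.1.2).2
    rw [g.right_inv hq.1.1] at h3
    exact (ContMDiffAt.comp (g := e.symm) (f := g.symm) q
      (contMDiffAt_symm_of_mem_maximalAtlas hm hq.2) h3.contMDiffAt).contMDiffWithinAt

end ch

variable {m n : ℕ}

/-- the manifold with the maximal atlas -/
def mx (V : Mf m) : Mf m := ⟨Mx m V.X⟩

/-- the identity -/
def ix (V : Mf m) : (mx V).X → V.X := idh m V.X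

theorem hol_of {X Y : Type} [TopologicalSpace X] [ChartedSpace (Cm n) X] [TopologicalSpace Y]
    [ChartedSpace (Cm m) Y] {f : X → Y} (h : Hl n m f) : HolM n m f := fun x =>
  contMDiffAt_iff.2 ⟨h.cont.continuousAt, (h.hol _ _ x (ca x) (ca (f x))).contDiffWithinAt⟩

theorem hol_ix (V : Mf m) : HolM m m (ix V) := hol_of hl_to

theorem hol_mx {V : Mf m} {Z : Mf n} {i : Z.X → V.X} (h : HolM n m i) :
    HolM (X := (mx Z).X) (Y := (mx V).X) n m i :=
  hol_of ((hl_from (n := m) (X := V.X)).comp ((hl_of h).comp (hl_to (n := n) (X := Z.X))))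

variable {V : Mf m} {L : Bd V.X}

theorem tr_mx {c : Chart m (mx V).X} {x : (mx V).X} (h : At c x) :
    ContDiffAt ℂ ω (fun z => chartAt (Cm m) (M := V.X) x (c.symm z)) (c x) :=
  (hl_to (n := m) (X := V.X)).hol c _ x h (ca (M := V.X) x)

theorem lb_mx (h : IsLB m L) : IsLB (X := (mx V).X) m L :=
  ⟨h.isOpen, h.cover, fun a b _ x he ha hb => tr_cd (X := V.X) (ca (M := V.X) x).2 he.2 (tr_mx he)
    (h.holo a b _ x (ca (M := V.X) x) ha hb), h.ne_zero, h.cocycle⟩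

theorem sec_mx {s : L.ι → V.X → ℂ} (h : IsSec m L s) : IsSec (X := (mx V).X) m L s :=
  ⟨fun a _ x he ha => tr_cd (X := V.X) (ca (M := V.X) x).2 he.2 (tr_mx he)
    (h.holo a _ x (ca (M := V.X) x) ha), h.change⟩

theorem met_mx {ψ : L.ι → V.X → ℝ} (h : IsMet m L ψ) : IsMet (X := (mx V).X) m L ψ :=
  ⟨fun a _ x he ha => tr_cd (X := V.X) (ca (M := V.X) x).2 he.2
    (((tr_mx he).restrict_scalars ℝ).of_le le_top) (h.smooth a _ x (ca (M := V.X) x) ha),
    h.change⟩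

theorem intO_mx (u : Om V) : intO (pb (hol_ix V) u) = intO u := by
  obtain ⟨E, h1, -, h3⟩ := ex_mx m V.X
  have e := pb_uniq (smo_of (hol_ix V)) (pb_is (hol_ix V)) h1
  rw [intO_eq, intO_eq, ← map_one (pb (hol_ix V)), e]
  exact congrArg _ (h3 u (1 : Om V))

theorem c1_mx (hC : C1E) (hL : IsLB m L) {ψ : L.ι → V.X → ℝ} {u : Om V} (h : IsC1 L ψ u) :
    IsC1 (V := mx V) L ψ (pb (hol_ix V) u) := by
  obtain ⟨v, hv, -⟩ := (hC (mx V) L (lb_mx hL)).2 ψ (met_mx h.1)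
  rwa [show pb (hol_ix V) u = fm v from (gg1 m (mx V).X).ext _ _ fun x => ?_]
  obtain ⟨a, ha⟩ := hL.cover x
  refine ⟨_, ca x, (pb_is (hol_ix V) u _ _ x (ca x) (ca (M := V.X) x)).trans ?_⟩
  refine Eq.trans ?_ (hv.2 a _ x (ca x) ha).symm
  exact (congrArg (fun J => lam J *ᵥ _) (G1H.jt_self k1b' (ca (M := V.X) x))).trans
    (by rw [lam_one, Matrix.one_mulVec]; exact h.2 a _ x (ca (M := V.X) x) ha)

theorem pb_mx {Z : Mf n} {i : Z.X → V.X} (h : HolM n m i) (u : Om V) :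
    pb (hol_mx h) (pb (hol_ix V) u) = pb (hol_ix Z) (pb h u) :=
  congrFun (pb_uniq ((hl_of h).comp (hl_to (n := n) (X := Z.X))).smo
    (pb_comp (smo_of (hol_mx h)) (smo_of (hol_ix V)) (pb_is (hol_mx h)) (pb_is (hol_ix V)))
    (pb_comp (smo_of (hol_ix Z)) (smo_of h) (pb_is (hol_ix Z)) (pb_is h))) u

theorem sec_zero {s : L.ι → V.X → ℂ} (h : IsSec m L s) {x : V.X} (hx : ¬ NZ L s x) {a : L.ι}
    (ha : x ∈ L.U a) : s a x = 0 := by
  obtain ⟨b, hb⟩ := not_forall.1 hx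
  obtain ⟨h1, h2⟩ := Classical.not_imp.1 hb
  rw [h.change a b x ha h1, not_not.1 h2, mul_zero]

/-- adapted charts -/
structure Ad {V : Mf (n + 1)} {Z : Mf n} (L : Bd V.X) (s : L.ι → V.X → ℂ) (i : Z.X → V.X)
    (a : L.ι) (c : Chart (n + 1) V.X) (χ : Chart n Z.X) : Prop where
  m1 : c ∈ atlas (Cm (n + 1)) V.X
  m2 : χ ∈ atlas (Cm n) Z.X
  sub : c.source ⊆ L.U a
  sec : ∀ x ∈ c.source, lst n (c x) = s a x
  src : ∀ y, y ∈ χ.source ↔ i y ∈ c.source
  eq : ∀ y ∈ χ.source, c (i y) = ap (χ y) 0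

theorem inj_lin (A : Cm n →L[ℂ] Cm (n + 1)) (l : Cm (n + 1) →L[ℂ] ℂ) (hA : Function.Injective A)
    (hl : l ≠ 0) (h : l.comp A = 0) : ∃ π : Cm (n + 1) →L[ℂ] Cm n,
      π.comp A = ContinuousLinearMap.id ℂ _ ∧ ∀ v, π v = 0 → l v = 0 → v = 0 := by
  obtain ⟨π, hπ⟩ := LinearMap.exists_leftInverse_of_injective (A : Cm n →ₗ[ℂ] Cm (n + 1))
    (LinearMap.ker_eq_bot.2 hA)
  have h1 : ∀ u, π (A u) = u := LinearMap.congr_fun hπ
  refine ⟨LinearMap.toContinuousLinearMap π, ContinuousLinearMap.ext h1, fun v hv hv' => ?_⟩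
  have h2 := Module.Dual.finrank_ker_add_one_of_ne_zero (f := (l : Cm (n + 1) →ₗ[ℂ] ℂ))
    fun k => hl (ContinuousLinearMap.coe_injective k)
  have h3 : LinearMap.range (A : Cm n →ₗ[ℂ] Cm (n + 1)) = LinearMap.ker (l : Cm (n + 1) →ₗ[ℂ] ℂ) :=
    Submodule.eq_of_le_of_finrank_eq (by
      rintro _ ⟨u, rfl⟩
      exact DFunLike.congr_fun h u) (by
      rw [LinearMap.finrank_range_of_inj hA]
      simp only [Module.finrank_fintype_fun_eq_card, Fintype.card_fin] at h2 ⊢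
      omega)
  obtain ⟨u, rfl⟩ : v ∈ LinearMap.range (A : Cm n →ₗ[ℂ] Cm (n + 1)) := h3 ▸ hv'
  rw [show u = 0 from (h1 u).symm.trans hv, map_zero]

theorem ex_ad {V : Mf (n + 1)} {Z : Mf n} {L : Bd V.X} {s : L.ι → V.X → ℂ} {i : Z.X → V.X}
    (h : Cut L s i) (z : Z.X) :
    ∃ a c χ, Ad (V := mx V) (Z := mx Z) L s i a c χ ∧ i z ∈ c.source := by
  obtain ⟨a, ha⟩ := h.lb.cover (i z)
  have he := ca (d := n + 1) (i z)
  have hφ := ca (d := n) z
  generalize chartAt (Cm (n + 1)) (i z) = e at he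
  generalize chartAt (Cm n) z = φ at hφ
  have ci : Continuous i := (hl_of h.emb.hol).cont
  have z0 : ∀ y, i y ∈ L.U a → s a (i y) = 0 := fun y hy =>
    sec_zero h.sec (h.emb.rng ▸ mem_range_self y : i y ∈ {x | ¬ NZ L s x}) hy
  have hj := (hl_of h.emb.hol).hol φ e z hφ he
  have hσ := h.sec.holo a e (i z) he ha
  have dj : HasFDerivAt (fun t => e (i (φ.symm t))) (df i φ e z) (φ z) :=
    (hj.differentiableAt (by simp)).hasFDerivAt
  have dσ : HasFDerivAt (fun w => s a (e.symm w)) (P277Z.Slc.dd (s a) e (i z)) (e (i z)) :=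
    (hσ.differentiableAt (by simp)).hasFDerivAt
  have h0 : (P277Z.Slc.dd (s a) e (i z)).comp (df i φ e z) = 0 := by
    refine (HasFDerivAt.comp (g := fun w => s a (e.symm w)) (φ z) (by rwa [φ.left_inv hφ.2]) dj
      ).unique ((hasFDerivAt_const (0 : ℂ) (φ z)).congr_of_eventuallyEq ?_)
    refine (G1H.ev_src hφ (ci.continuousAt.eventually_mem ((e.open_source.inter
      (h.lb.isOpen a)).mem_nhds ⟨he.2, ha⟩))).mono fun t ht => ?_
    exact (congrArg (s a) (e.left_inv ht.1)).trans (z0 _ ht.2)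
  obtain ⟨π, p1, p2⟩ := inj_lin _ _ (h.emb.imm z φ e hφ he) (h.tr z a ha e he) h0
  obtain ⟨c, c1, c2, c3, c4⟩ := ex_chart he (H := fun w => ap (π w) fun _ => s a (e.symm w))
    (D := ContinuousLinearMap.pi (Fin.addCases (fun k => (ContinuousLinearMap.proj k).comp π)
      fun _ : Fin 1 => P277Z.Slc.dd (s a) e (i z)))
    (ContDiffAt.comp (g := fun q : Cm n × Cm 1 => ap q.1 q.2) (e (i z)) PuF.cd_ap.contDiffAt
      (π.contDiff.contDiffAt.prodMk (contDiffAt_pi.2 fun _ => hσ)))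
    (hasFDerivAt_pi.2 fun k => Fin.addCases (fun k => by
      simp only [ap, Fin.append_left, Fin.addCases_left]
      exact ((ContinuousLinearMap.proj k).comp π).hasFDerivAt) (fun k => by
      simp only [ap, Fin.append_right, Fin.addCases_right]
      exact dσ) k)
    ((injective_iff_map_eq_zero _).2 fun v hv => p2 v (funext fun k => by
      simpa using congrFun hv (Fin.castAdd 1 k)) (by
      simpa only [ContinuousLinearMap.pi_apply, Fin.addCases_right, Pi.zero_apply] using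
        congrFun hv (Fin.natAdd n 0)))
  obtain ⟨χ, k1, k2, k3, k4⟩ := ex_chart hφ (H := fun t => π (e (i (φ.symm t))))
    (π.contDiff.contDiffAt.comp _ hj) (p1 ▸ π.hasFDerivAt.comp _ dj) Function.injective_id
  obtain ⟨W, hW, hW'⟩ := (ci.isClosedEmbedding h.emb.inj).isInducing.isOpen_iff.1 χ.open_source
  have o1 := hW.inter (h.lb.isOpen a)
  have o2 := (c.open_source.inter (h.lb.isOpen a)).preimage ci
  have s1 := c.restr_source' _ o1
  have s2 := χ.restr_source' _ o2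
  refine ⟨a, c.restr (W ∩ L.U a), χ.restr (i ⁻¹' (c.source ∩ L.U a)),
    ⟨restr_mem_maximalAtlas _ c1 o1, restr_mem_maximalAtlas _ k1 o2, fun x hx => (s1 ▸ hx).2.2,
      fun x hx => ?_, fun y => ?_, fun y hy => ?_⟩, s1 ▸ ⟨c2, (hW' ▸ k2 : z ∈ i ⁻¹' W), ha⟩⟩
  · exact (congrArg (lst n) (c4 x)).trans ((lst_ap _ _).trans
      (congrArg (s a) (e.left_inv (c3 (s1 ▸ hx).1))))
  · refine (Set.ext_iff.1 s2 y).trans (Iff.trans ?_ (Set.ext_iff.1 s1 (i y)).symm)
    rw [← hW']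
    exact ⟨fun k => ⟨k.2.1, k.1, k.2.2⟩, fun k => ⟨k.2.1, k.1, k.2.2⟩⟩
  · have k := (Set.ext_iff.1 s2 y).1 hy
    refine (c4 (i y)).trans ?_
    rw [e.left_inv (c3 k.2.1), z0 y k.2.2]
    exact congrArg (ap · 0) ((k4 y).trans (by rw [φ.left_inv (k3 k.1)])).symm

end Vale.Agent.P280Z.Co.PlH
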