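import Vale.Agent.P280Z.Co.PsA
import Vale.Agent.P280Z.Co.Puh

/-!
# P280Z: types of forms at a point, forms of type `(1,1)`, positivity of the fibre integral
-/

open scoped Manifold ContDiff Topology Matrix ComplexOrder
open Set Filter Function MeasureTheory
open Vale.Agent.P272.K Vale.Agent.P299.IX Vale.Agent.P299.IX.Fock Vale.Agent.P281Z
  Vale.Agent.P281Z.Hg Vale.Agent.P280Z.Pu Vale.Agent.P272.K.INT
open Vale.Agent.P272.K.QN (jm)
open Vale.Agent.P301Z.Rot (m2 mha m2_skew ev2_single ev2_eps ev2_sum ev2_smul ev2_sub eq_zero_of_m2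
  dg_om lam_empty)

noncomputable section

namespace Vale.Agent.P280Z.Co.Ps

section pt

variable {n : ℕ} {u v : Fo n} {w : Matrix (Fin n) (Fin n) ℂ}

/-- the even components have the types `(k,k)` -/
def TyP (u : Fo n) : Prop := ∀ k, pm n k *ᵥ (dg (k + k) *ᵥ u) = dg (k + k) *ᵥ u

variable (n) in
/-- the operator `2 ^ (p - q)` -/
def tw : Fm n := lr (Matrix.diagonal fun l => if l.val < n then 2 else 2⁻¹)

theorem tw_apply (u : Fo n) (I : FI (n + n)) :
    (tw n *ᵥ u) I = 2 ^ tp I * 2⁻¹ ^ (I.card - tp I) * u I := by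
  have h : tw n = Matrix.diagonal fun I => 2 ^ tp I * 2⁻¹ ^ (I.card - tp I) := ext_ev fun J => by
    refine (lam_diagonal_ev _ J).trans (funext fun K => ?_)
    have e : (J.filter fun x => ¬ x.val < n).card = J.card - tp J :=
      eq_tsub_of_add_eq ((add_comm _ _).trans (Finset.card_filter_add_card_filter_not _))
    rw [Finset.prod_ite, Finset.prod_const, Finset.prod_const, Matrix.mulVec_diagonal, e]
    by_cases e : K = J <;> simp [ev, e, tp]
  rw [h, Matrix.mulVec_diagonal]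

theorem tw_iff : tw n *ᵥ u = u ↔ ∀ I, u I ≠ 0 → I.card = tp I + tp I := by
  refine funext_iff.trans (forall_congr' fun I => ?_)
  have h : tp I ≤ I.card := Finset.card_filter_le _ _
  rw [tw_apply]
  refine ⟨fun e h0 => ?_, fun e => ?_⟩
  · rw [mul_eq_right₀ h0, inv_pow, mul_inv_eq_one₀ (by simp)] at e
    have := Nat.pow_right_injective (le_refl 2) (by exact_mod_cast e : 2 ^ tp I = 2 ^ (I.card - tp I))
    omega
  · by_cases h0 : u I = 0
    · rw [h0, mul_zero]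
    · rw [e h0, Nat.add_sub_cancel, ← mul_pow, mul_inv_cancel₀ two_ne_zero, one_pow, one_mul]

theorem tyP_of (h : tw n *ᵥ u = u) : TyP u := fun k => funext fun I => by
  rw [pm, Matrix.mulVec_diagonal, dg_mulVec]
  by_cases h0 : u I = 0
  · simp [h0]
  · have := tw_iff.1 h I h0
    split_ifs <;> first | omega | simp

theorem TyP.tw (h : TyP u) (h' : par *ᵥ u = u) : tw n *ᵥ u = u := tw_iff.2 fun I h0 => by
  have h1 := congrFun h' I
  rw [par_mulVec, mul_eq_right₀ h0, neg_one_pow_eq_one_iff_even (by norm_num)] at h1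
  obtain ⟨k, hk⟩ := h1
  have h2 := congrFun (h k) I
  rw [pm, Matrix.mulVec_diagonal, dg_mulVec, if_pos hk, mul_eq_right₀ h0] at h2
  split_ifs at h2 with e
  · omega
  · exact absurd h2 zero_ne_one

theorem TyP.wg (h : TyP u) (h' : par *ᵥ u = u) (k : TyP v) (k' : par *ᵥ v = v) :
    TyP (wg u *ᵥ v) := tyP_of (by
  have h1 := congrArg (· *ᵥ v) (f1a.lr_wg (Matrix.diagonal fun l : Fin (n + n) =>
    if l.val < n then (2 : ℂ) else 2⁻¹) u)
  simp only [← Matrix.mulVec_mulVec] at h1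
  exact h1.trans (congrArg₂ (fun a b => Hg.wg a *ᵥ b) (h.tw h') (k.tw k')))

theorem tyP_ev : TyP (ev ∅ : Fo n) := tyP_of (f1a.lr_ev _)

theorem pm_om (w : Matrix (Fin n) (Fin n) ℂ) : pm n 1 *ᵥ (Lw w *ᵥ ev ∅) = Lw w *ᵥ ev ∅ := by
  rw [Matrix.mulVec_mulVec, f2T.pm_L, ← Matrix.mulVec_mulVec]
  congr 1
  funext I
  rw [pm, Matrix.mulVec_diagonal]
  by_cases e : I = ∅ <;> simp [ev, e, tp]

theorem tyP_om (w : Matrix (Fin n) (Fin n) ℂ) : TyP (Lw w *ᵥ ev ∅) := fun k => by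
  rw [← dg_om, Matrix.mulVec_mulVec _ (dg (k + k)), f1a.dg_mul]
  split_ifs with e
  · rw [show k = 1 by omega, dg_om, pm_om]
  · rw [Matrix.zero_mulVec, Matrix.mulVec_zero]

/-- the matrix of the component of type `(1,1)` -/
def mat (u : Fo n) : Matrix (Fin n) (Fin n) ℂ := (-Complex.I) • mha u

theorem m2_om (w : Matrix (Fin n) (Fin n) ℂ) (a b : Fin (n + n)) : m2 (Lw w *ᵥ ev ∅) a b =
    ∑ j, ∑ k, Complex.I * w j k * ((if hl j = a ∧ ah k = b then 1 else 0) -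
      if hl j = b ∧ ah k = a then 1 else 0) := by
  simp only [← ev2_single, Lw, Matrix.sum_mulVec, Matrix.smul_mulVec, ev2_sum, ev2_smul, ev2_eps,
    Pi.single_apply, ite_and, ite_mul, one_mul, zero_mul]

theorem mat_om (w : Matrix (Fin n) (Fin n) ℂ) : mat (Lw w *ᵥ ev ∅) = w := by
  ext i j
  simp only [mat, mha, Matrix.smul_apply, Matrix.of_apply, m2_om, F1bH.hl_inj, F1bH.ah_inj,
    F1bH.hl_ne, false_and, if_false, sub_zero, ite_and, mul_ite, mul_one, mul_zero,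
    Finset.sum_ite_irrel, Finset.sum_ite_eq', Finset.mem_univ, if_true, Finset.sum_const_zero,
    smul_eq_mul]
  linear_combination (-w i j) * Complex.I_mul_I

theorem m2_hh (h : pm n 1 *ᵥ u = u) (i j : Fin n) : m2 u (hl i) (hl j) = 0 := by
  have h1 := congrArg Matrix.transpose (f1b.pm0_hl n j)
  rw [Matrix.transpose_mul, F1bH.pm_tr, eps_transpose, Matrix.transpose_zero] at h1
  rw [← h, m2, Matrix.of_apply, Matrix.mulVec_mulVec _ (iot (hl i)), ← f1b.pm_ihl,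
    ← Matrix.mulVec_mulVec, Matrix.mulVec_mulVec _ (iot (hl j)), h1, Matrix.zero_mulVec]
  rfl

theorem m2_aa (h : pm n 1 *ᵥ u = u) (i j : Fin n) : m2 u (ah i) (ah j) = 0 := by
  rw [← h, m2, Matrix.of_apply, Matrix.mulVec_mulVec _ (iot (ah i)), ← f1b.pm_iah,
    ← Matrix.mulVec_mulVec, Matrix.mulVec_mulVec _ (iot (ah j)), ← f1b.pm_iah,
    ← Matrix.mulVec_mulVec, pm, Matrix.mulVec_diagonal]
  simp [tp]

theorem eq_om (h : pm n 1 *ᵥ u = u) (h' : dg 2 *ᵥ u = u) : u = Lw (mat u) *ᵥ ev ∅ := by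
  have h1 : pm n 1 *ᵥ (u - Lw (mat u) *ᵥ ev ∅) = u - Lw (mat u) *ᵥ ev ∅ := by
    rw [Matrix.mulVec_sub, h, pm_om]
  have h2 : ∀ i j, m2 (u - Lw (mat u) *ᵥ ev ∅) (hl i) (ah j) = 0 := fun i j => by
    have h3 := congrFun (congrFun (mat_om (mat u)) i) j
    rw [← ev2_single, ev2_sub, ev2_single, ev2_single, sub_eq_zero]
    exact (mul_left_cancel₀ (neg_ne_zero.2 Complex.I_ne_zero) h3).symm
  refine sub_eq_zero.1 (eq_zero_of_m2 (by rw [Matrix.mulVec_sub, h', dg_om]) fun a b => ?_)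
  refine F1bH.idx (P := fun a => m2 _ a b = 0) (fun i => ?_) (fun i => ?_) a <;>
    refine F1bH.idx (P := fun b => m2 _ _ b = 0) (fun j => ?_) (fun j => ?_) b
  · exact m2_hh h1 i j
  · exact h2 i j
  · rw [m2_skew, h2, neg_zero]
  · exact m2_aa h1 i j

theorem mat_herm (h : cjv u = u) : (mat u).IsHermitian := by
  ext i j
  have h1 : m2 (cjv u) (hl i) (ah j) = star (m2 u (ah i) (hl j)) := by
    rw [m2, Matrix.of_apply, ← f1b.cjv_iah, ← f1b.cjv_ihl, cjv, lam_empty]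
    rfl
  rw [h, m2_skew u (ah i)] at h1
  simp [mat, mha, h1]

theorem TyP.om (h : TyP u) : dg 2 *ᵥ u = Lw (mat (dg 2 *ᵥ u)) *ᵥ ev ∅ :=
  eq_om (h 1) (by rw [Matrix.mulVec_mulVec, f1a.dg_mul, if_pos rfl])

theorem psd_of (h : WpP u) (hw : dg 2 *ᵥ u = Lw w *ᵥ ev ∅) (h' : w.IsHermitian) :
    w.PosSemidef := .of_dotProduct_mulVec_nonneg h' fun x => by
  have h1 := h 1 (Matrix.of fun i _ => star (x i))
  have h2 : ∀ J : Matrix (Fin n) (Fin 1) ℂ, top (pl J *ᵥ u) = top (pl J *ᵥ (dg 2 *ᵥ u)) := fun J => by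
    rw [pl, Matrix.mulVec_mulVec _ (lr _), ← f1a.lr_dg, ← Matrix.mulVec_mulVec, top, top, dg_mulVec,
      if_pos (by simp)]
  have h3 := rs_dot (Matrix.of fun i (_ : Fin 1) => star (x i)) w fun _ => 1
  have h4 : (Matrix.of fun i (_ : Fin 1) => star (x i)) *ᵥ (fun _ => 1) = star x := by
    ext i
    simp [Matrix.mulVec, dotProduct]
  rw [h4, star_star] at h3
  rw [h2, hw, pl_Lw, pl_ev, top_one] at h1
  rw [← h3]
  simpa [Matrix.mulVec, dotProduct] using
    mul_nonneg (Complex.zero_le_real.2 (by norm_num : (0 : ℝ) ≤ 2⁻¹)) h1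

theorem WpP.integral {α : Type} [MeasurableSpace α] {μ : Measure α} {U : α → Fo n}
    (hi : Integrable U μ) (h : ∀ z, WpP (U z)) : WpP (∫ z, U z ∂μ) := fun k J => by
  obtain ⟨h1, h2⟩ := PuF.mv_int (Ps.pl J) hi
  rw [← h2, Ps.top, eval_integral (fun I => h1.eval I), ← integral_const_mul]
  exact integral_nonneg fun z => h z k J

theorem WpP.sum {ι : Type} (s : Finset ι) {U : ι → Fo n} (h : ∀ i, WpP (U i)) :
    WpP (∑ i ∈ s, U i) := fun k J => by
  rw [Matrix.mulVec_sum, top_sum]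
  exact Finset.sum_nonneg fun i _ => h i k J

end pt

section push

theorem pou0 {n : ℕ} {M : Type} [TopologicalSpace M] [ChartedSpace (Cm n) M] [T2Space M]
    [CompactSpace M] [IsManifold 𝓘(ℂ, Cm n) ω M] {K : Set M} (hK : IsClosed K) {ι : Type}
    [Fintype ι] (O : ι → Set M) (hO : ∀ i, IsOpen (O i)) (hc : K ⊆ ⋃ i, O i) :
    ∃ (R : ι → Module.End ℂ (SF n M)) (ρ : ι → M → ℝ), (∀ i x, 0 ≤ ρ i x) ∧
      (∀ i, tsupport (ρ i) ⊆ O i) ∧ (∀ x ∈ K, ∑ i, ρ i x = 1) ∧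
      ∀ i u e x, At e x → vl (R i u) e (e x) = (ρ i x : ℂ) • vl u e (e x) := by
  have := isManifold_real n M
  obtain ⟨f, hf⟩ := SmoothPartitionOfUnity.exists_isSubordinate 𝓘(ℝ, Cm n) hK O hO hc
  choose R hR using fun i => (gg1 n M).op _ ((gg1 n M).fn _ (smoothFn_of_contMDiff (f i).contMDiff))
  refine ⟨R, fun i => f i, f.nonneg, hf, fun x hx => ?_, fun i u e x he => ?_⟩
  · have h := f.sum_eq_one hx
    rwa [finsum_eq_sum_of_fintype] at h
  · rw [hR i u e x he, Matrix.smul_mulVec, Matrix.one_mulVec, e.left_inv he.2]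

variable {p d : ℕ} {X Y : Type} [TopologicalSpace X] [ChartedSpace (Cm (p + d)) X]
  [TopologicalSpace Y] [ChartedSpace (Cm p) Y] [T2Space X] [CompactSpace X]
  [IsManifold 𝓘(ℂ, Cm (p + d)) ω X] [T2Space Y] [CompactSpace Y] [IsManifold 𝓘(ℂ, Cm p) ω Y]
  {f : X → Y} {T : SF (p + d) X → SF p Y} {u : SF (p + d) X} {χ : Chart p Y} {y : Y}

theorem wp_full (hf : Smo (p + d) p f) (h : Full p d f) (hT : IsPush f T)
    (hu : ∀ e x, At e x → WpP (vl u e (e x))) (hy : At χ y) :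
    WpP (kp ^ d • vl (T u) χ (χ y)) := by
  obtain ⟨L, hL⟩ := hT.lin hf
  have hK : IsClosed (f ⁻¹' {y}) := isClosed_singleton.preimage hf.cont
  choose c c1 c2 using fun x : f ⁻¹' {y} => h χ x (by rw [x.2]; exact hy)
  obtain ⟨t, ht⟩ := hK.isCompact.elim_finite_subcover (fun x => (c x).source)
    (fun x => (c x).open_source) fun x hx => mem_iUnion.2 ⟨⟨x, hx⟩, c1 _⟩
  obtain ⟨R, ρ, h0, h1, h2, h3⟩ := pou0 (n := p + d) hK (fun i : t => (c i).source)
    (fun i => (c i).open_source) fun x hx => by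
      obtain ⟨z, hz, h'⟩ := mem_iUnion₂.1 (ht hx)
      exact mem_iUnion.2 ⟨⟨z, hz⟩, h'⟩
  have h4 := hT.zp (fub_of alg) hf h (u := u - ∑ i, R i u) (y := y) (fun x hx e he => by
    simp only [vl_sub, vl_sum, h3 _ u e x he, ← Finset.sum_smul, ← Complex.ofReal_sum, h2 x hx,
      Complex.ofReal_one, one_smul, sub_self]) χ hy
  rw [← hL, map_sub, map_sum, vl_sub, vl_sum, sub_eq_zero, hL] at h4
  rw [h4, Finset.smul_sum]
  refine WpP.sum _ fun i => ?_
  obtain ⟨k1, k2⟩ := hT.loc (fub_of alg) hf h (c2 i) (isClosed_tsupport (ρ i)) (h1 i)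
    (u := R i u) hy.2 fun x _ hx e he => by
      rw [h3 i u e x he, image_eq_zero_of_notMem_tsupport hx, Complex.ofReal_zero, zero_smul]
  rw [hL, k1, fi, ← integral_smul]
  refine WpP.integral ((PuF.mv_int _ k2).1.smul (kp ^ d)) fun z => WpP.fc ?_
  by_cases hz : ap (χ y) z ∈ (c i).target
  · have k3 := G1H.at_tg (c2 i).m2 hz
    rw [← (c i).right_inv hz, h3 i u _ _ k3]
    exact (hu _ _ k3).smul (h0 _ _)
  · rw [(vl_isF _).off _ _ fun k => hz k.2]
    exact wp_zero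

theorem wp_of (hf : HolM (p + d) p f) (hs : ∀ x, Sbm (p + d) p f x) (hT : IsPush f T)
    (hu : ∀ e x, At e x → WpP (vl u e (e x))) (hy : At χ y) :
    WpP (kp ^ d • vl (T u) χ (χ y)) := by
  obtain ⟨E, h1, -, h3⟩ := ex_mx (p + d) X
  have h := wp_full ((hl_of hf).comp hl_to).smo (full_mx hf hs) ((push_mx (hl_of hf) h1 h3).1 hT)
    (u := E u) (fun e x he => by
      rw [h1 u e _ x he (Pb1H.ca _),
        jc_eq ((hl_to.hol e _ x he (Pb1H.ca _)).differentiableAt (by simp))]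
      exact (hu _ _ (Pb1H.ca _)).pl _) hy
  rwa [E.symm_apply_apply] at h

end push

end Vale.Agent.P280Z.Co.Ps
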