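import Vale.Agent.P280Z.Co.PuD

/-!
# P280, fibre integration of smooth forms: the pointwise algebra
-/

open scoped Topology Matrix
open Filter
open Vale.Agent.P272.K Vale.Agent.P299.IX Vale.Agent.P299.IX.Fock Vale.Agent.P281Z.Hg

noncomputable section

namespace Vale.Agent.P280Z.Pu

namespace AlgH

variable {a b n p d : ℕ}

/-- the matrix of a map of indices -/
def mt (β : Fin b → Fin a) : Matrix (Fin a) (Fin b) ℂ :=
  (1 : Matrix (Fin a) (Fin a) ℂ).submatrix id β

/-- the doubled map of indices -/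
def bs (σ : Fin b → Fin a) : Fin (b + b) → Fin (a + a) :=
  Fin.addCases (motive := fun _ => Fin (a + a)) (fun j => hl (σ j)) fun j => ah (σ j)

theorem bs_hl (σ : Fin b → Fin a) (j : Fin b) : bs σ (hl j) = hl (σ j) := Fin.addCases_left _

theorem bs_ah (σ : Fin b → Fin a) (j : Fin b) : bs σ (ah j) = ah (σ j) := Fin.addCases_right _

theorem idx {P : Fin (a + a) → Prop} (h1 : ∀ j, P (hl j)) (h2 : ∀ j, P (ah j)) (l) : P l :=
  Fin.addCases h1 h2 l

theorem jc_coord (σ : Fin b → Fin a) (z : Cm a) : jc (fun y j => y (σ j)) z = mt (bs σ) := by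
  ext r l
  have h : ∀ y : Cm a, cx (fun j => y (σ j)) l = cx y (bs σ l) := fun y => by
    induction l using idx with
    | h1 j => rw [bs_hl, Ka.cx_hl, Ka.cx_hl]
    | h2 j => rw [bs_ah, Ka.cx_ah, Ka.cx_ah]
  rw [mt, ← k1b'.jc_id z]
  simp only [jc, Matrix.of_apply, h, Matrix.submatrix_apply, id]

theorem bs_mono {σ : Fin b → Fin a} (h : StrictMono σ) : StrictMono (bs σ) := fun l l' e => by
  induction l using idx <;> induction l' using idx <;>
    simp only [bs_hl, bs_ah] <;> simp only [hl, ah, Fin.lt_def, Fin.val_castAdd, Fin.val_natAdd] at e ⊢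
  · exact h e
  · omega
  · omega
  · exact Nat.add_lt_add_left (h (Nat.lt_of_add_lt_add_left e)) _

theorem mt_col (β : Fin b → Fin a) (l : Fin b) : epsV (fun r => mt β r l) = eps (β l) := by
  rw [← epsV_single]
  exact congrArg epsV (funext fun r => by simp [mt, Matrix.one_apply, Pi.single_apply])

theorem lr_mt {β : Fin b → Fin a} (h : StrictMono β) (I : FI b) :
    lr (mt β) *ᵥ ev I = ev (I.image β) := by
  induction I using Finset.induction_on_min with
  | empty => exact f1a.lr_ev _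
  | insert i I hi ih =>
    rw [← eps_ev_min hi, Matrix.mulVec_mulVec, f1a.lr_eps, ← Matrix.mulVec_mulVec, ih, mt_col,
      eps_ev_min, Finset.image_insert]
    intro j hj
    obtain ⟨k, hk, rfl⟩ := Finset.mem_image.1 hj
    exact h (hi k hk)

/-- the sign of a multi-index -/
def sI (I : FI n) : ℂ := ∏ i ∈ I, (-1) ^ i.val

theorem sq_prod {ι : Type} (s : Finset ι) (f : ι → ℕ) :
    (∏ i ∈ s, (-1 : ℂ) ^ f i) * ∏ i ∈ s, (-1 : ℂ) ^ f i = 1 := by
  rw [← Finset.prod_mul_distrib]
  exact Finset.prod_eq_one fun i _ => by rw [← mul_pow, neg_mul_neg, one_mul, one_pow]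

theorem sI_sq (I : FI n) : sI I * sI I = 1 := sq_prod _ _

theorem sn_sq (m : ℕ) : sn m * sn m = 1 := sq_prod _ fun i => i

theorem Bq_ev (u : Fk n) (I : FI n) : Bq u (ev I) = u Iᶜ * sI I := by
  simp only [Bq, dotProduct, mulVec_ev, F1aH.hst_apply, mul_ite, mul_zero, Finset.sum_ite_eq',
    Finset.mem_univ, if_true, sI]

theorem hst_orth : (hst : FM n)ᵀ * hst = 1 := by
  ext I J
  simp only [Matrix.mul_apply, Matrix.transpose_apply, F1aH.hst_apply, ite_mul, zero_mul,
    Finset.sum_ite_eq', Finset.mem_univ, if_true, compl_inj_iff, Matrix.one_apply]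
  split_ifs with h
  · rw [h]
    exact sI_sq J
  · exact mul_zero _

/-- the base indices -/
abbrev b1 (p d : ℕ) : Fin (p + p) → Fin (p + d + (p + d)) := bs (Fin.castAdd d)

/-- the fibre indices -/
abbrev b2 (p d : ℕ) : Fin (d + d) → Fin (p + d + (p + d)) := bs (Fin.natAdd p)

theorem m1 : StrictMono (b1 p d) := bs_mono (Fin.strictMono_castAdd d)

theorem m2 : StrictMono (b2 p d) := bs_mono (Fin.strictMono_natAdd p)

theorem jc1 (w : Cm (p + d)) : jc (p1 p d) w = mt (b1 p d) := jc_coord _ w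

theorem jc2 (w : Cm (p + d)) : jc (p2 p d) w = mt (b2 p d) := jc_coord _ w

theorem cover (l : Fin (p + d + (p + d))) : (∃ k, l = b1 p d k) ∨ ∃ k, l = b2 p d k := by
  induction l using idx with
  | h1 j =>
    induction j using Fin.addCases with
    | left i => exact Or.inl ⟨hl i, (bs_hl _ i).symm⟩
    | right i => exact Or.inr ⟨hl i, (bs_hl _ i).symm⟩
  | h2 j =>
    induction j using Fin.addCases with
    | left i => exact Or.inl ⟨ah i, (bs_ah _ i).symm⟩
    | right i => exact Or.inr ⟨ah i, (bs_ah _ i).symm⟩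

theorem img : (Finset.univ.image (b1 p d))ᶜ = Finset.univ.image (b2 p d) := by
  symm
  refine Finset.eq_of_superset_of_card_ge (fun l hl' => ?_) ?_
  · rcases cover l with ⟨k, rfl⟩ | ⟨k, rfl⟩
    · exact absurd (Finset.mem_image_of_mem _ (Finset.mem_univ k)) (Finset.mem_compl.1 hl')
    · exact Finset.mem_image_of_mem _ (Finset.mem_univ k)
  · rw [Finset.card_compl, Finset.card_image_of_injective _ m1.injective,
      Finset.card_image_of_injective _ m2.injective]
    simp only [Finset.card_univ, Fintype.card_fin]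
    omega

theorem dual (U : Fo (p + d)) (v : Fo p) :
    sn p * Bq (fc p d *ᵥ U) v = sn (p + d) * Bq U (lr (mt (b1 p d)) *ᵥ v) := by
  have h : ∀ {α β : Type} [Fintype α] [Fintype β] (A : Matrix α β ℂ) (x : β → ℂ) (y : α → ℂ),
      (A *ᵥ x) ⬝ᵥ y = x ⬝ᵥ (Aᵀ *ᵥ y) := fun A x y => by
    rw [dotProduct_comm, Matrix.dotProduct_mulVec, dotProduct_comm, Matrix.mulVec_transpose]
  rw [Bq, Bq, fc, jc1, Matrix.smul_mulVec, smul_dotProduct, h, smul_eq_mul, ← mul_assoc,
    ← mul_assoc, sn_sq, one_mul, Matrix.transpose_mul, Matrix.transpose_mul,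
    Matrix.transpose_transpose, Matrix.transpose_transpose, Matrix.mulVec_mulVec,
    Matrix.mulVec_mulVec, Matrix.mul_assoc, Matrix.mul_assoc, hst_orth, Matrix.mul_one]

/-- the entries of `fc` -/
theorem fc_apply (U : Fo (p + d)) (A : FI (p + p)) : (fc p d *ᵥ U) A =
    sn p * sn (p + d) * sI Aᶜ * sI (Aᶜ.image (b1 p d)) * U (Aᶜ.image (b1 p d))ᶜ := by
  have h := dual U (ev Aᶜ)
  rw [lr_mt m1, Bq_ev, Bq_ev, compl_compl] at h
  linear_combination (sn p * sI Aᶜ) * h - (fc p d *ᵥ U) A * (sI Aᶜ * sI Aᶜ) * sn_sq p -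
    (fc p d *ᵥ U) A * sI_sq Aᶜ

theorem sign : sn p * sn (p + d) * sI (Finset.univ : FI (p + p)) *
    sI (Finset.univ.image (b1 p d)) = sn d := by
  have h1 : sI (Finset.univ : FI (p + p)) * sI (Finset.univ.image (b1 p d)) = (-1) ^ (p * d) := by
    rw [sI, sI, Finset.prod_image fun _ _ _ _ e => m1.injective e, ← Finset.prod_mul_distrib,
      Fin.prod_univ_add, Finset.prod_eq_one, one_mul, Finset.prod_congr rfl (g := fun _ => (-1) ^ d),
      Finset.prod_const, Finset.card_univ, Fintype.card_fin, ← pow_mul, mul_comm]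
    · intro j _
      rw [show b1 p d (Fin.natAdd p j) = ah (Fin.castAdd d j) from bs_ah _ j, ← pow_add]
      simp only [ah, Fin.val_castAdd, Fin.val_natAdd]
      rw [show p + j + (p + d + j) = 2 * (p + j) + d by ring, pow_add, pow_mul]
      simp
    · intro j _
      rw [show b1 p d (Fin.castAdd p j) = hl (Fin.castAdd d j) from bs_hl _ j, ← pow_add]
      simp only [hl, Fin.val_castAdd]
      rw [← two_mul, pow_mul]
      simp
  have h2 : sn (p + d) = sn p * ((-1) ^ (p * d) * sn d) := by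
    simp only [sn, Finset.prod_range_add, pow_add, Finset.prod_mul_distrib, Finset.prod_const,
      Finset.card_range, ← pow_mul]
  have h3 : ((-1 : ℂ) ^ (p * d)) * (-1) ^ (p * d) = 1 := by
    rw [← mul_pow, neg_mul_neg, one_mul, one_pow]
  rw [mul_assoc, h1, h2]
  linear_combination (sn d * (-1) ^ (p * d) * (-1) ^ (p * d)) * sn_sq p + sn d * h3

theorem lr_card (J : Matrix (Fin a) (Fin b) ℂ) {K : FI a} {I : FI b} (h : K.card ≠ I.card) :
    lr J K I = 0 := by
  have := congrFun (congrFun (f1a.lr_dg J K.card) K) I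
  rwa [dg, dg, dgl, dgl, Matrix.diagonal_mul, Matrix.mul_diagonal, if_pos rfl, if_neg h.symm,
    one_mul, mul_zero] at this

theorem lr_top (J : Matrix (Fin a) (Fin b) ℂ) (u : Fk b) {K : FI a} (h : b ≤ K.card) :
    (lr J *ᵥ u) K = lr J K Finset.univ * u Finset.univ := by
  refine Finset.sum_eq_single (f := fun I => lr J K I * u I) Finset.univ (fun I _ hI => ?_)
    fun h => absurd (Finset.mem_univ _) h
  have := (Finset.card_lt_iff_ne_univ I).2 hI
  rw [Fintype.card_fin] at this
  rw [lr_card J (by omega), zero_mul]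

theorem card_fc (A : FI (p + p)) : (Aᶜ.image (b1 p d))ᶜ.card = d + d + A.card := by
  have := A.card_le_univ
  rw [Finset.card_compl, Finset.card_image_of_injective _ m1.injective, Finset.card_compl]
  simp only [Fintype.card_fin] at this ⊢
  omega

theorem fc_eps (c : Fin (p + p) → ℂ) : fc p d * epsV (mt (b1 p d) *ᵥ c) = epsV c * fc p d := by
  have h1 : ∀ {n : ℕ} (v : Fin n → ℂ), hst * iotV v = epsV v * hst := fun v => by
    simp only [iotV, epsV, Matrix.mul_sum, Matrix.sum_mul, Matrix.mul_smul, Matrix.smul_mul, hst_iot]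
  have h2 : ∀ {n : ℕ} (v : Fin n → ℂ), hstᵀ * epsV v = iotV v * hstᵀ := fun v => by
    have h : hst * epsV v = iotV v * hst := by
      simp only [iotV, epsV, Matrix.mul_sum, Matrix.sum_mul, Matrix.mul_smul, Matrix.smul_mul,
        hst_eps]
    have := congrArg Matrix.transpose h
    rw [Matrix.transpose_mul, Matrix.transpose_mul, epsV_transpose, iotV_transpose] at this
    exact this.symm
  have h3 := congrArg Matrix.transpose (F1aH.lr_epsV (mt (b1 p d)) c)
  rw [Matrix.transpose_mul, Matrix.transpose_mul, epsV_transpose, epsV_transpose] at h3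
  rw [fc, jc1, Matrix.smul_mul, Matrix.mul_smul, Matrix.mul_assoc, h2, ← Matrix.mul_assoc,
    Matrix.mul_assoc hst, ← h3, ← Matrix.mul_assoc, h1]
  simp only [Matrix.mul_assoc]

variable (p d) in
/-- generation by the fibre forms and the base one-forms -/
inductive Gen : Fo (p + d) → Prop
  | base (u : Fo d) : Gen (lr (mt (b2 p d)) *ᵥ u)
  | eps (c) {u} : Gen u → Gen (epsV (mt (b1 p d) *ᵥ c) *ᵥ u)
  | add {u v} : Gen u → Gen v → Gen (u + v)
  | smul (c : ℂ) {u} : Gen u → Gen (c • u)

theorem gen (u : Fo (p + d)) : Gen p d u := by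
  refine F1aH.fk_ind (f1a.lr_ev _ ▸ Gen.base (ev ∅)) (fun l u h => ?_) (fun _ _ => Gen.add)
    (fun c _ => Gen.smul c) u
  rcases cover l with ⟨k, rfl⟩ | ⟨k, rfl⟩
  · have := h.eps (Pi.single k 1)
    rwa [Matrix.mulVec_single_one, show (mt (b1 p d)).col k = fun r => mt (b1 p d) r k from rfl,
      mt_col] at this
  · induction h with
    | base u =>
      rw [← mt_col, Matrix.mulVec_mulVec, ← f1a.lr_eps, ← Matrix.mulVec_mulVec]
      exact Gen.base _
    | eps c _ ih =>
      rw [Matrix.mulVec_mulVec, eps_epsV, Matrix.neg_mulVec, ← Matrix.mulVec_mulVec,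
        ← neg_one_smul ℂ]
      exact (ih.eps c).smul _
    | add _ _ h1 h2 => rw [Matrix.mulVec_add]; exact h1.add h2
    | smul c _ h1 => rw [Matrix.mulVec_smul]; exact h1.smul c

theorem proj {E : Matrix (Fin (d + d)) (Fin (p + d + (p + d))) ℂ} (h1 : E * mt (b1 p d) = 0)
    (h2 : E * mt (b2 p d) = 1) (u : Fo (p + d)) :
    (fc p d *ᵥ (lr (mt (b2 p d)) *ᵥ (lr E *ᵥ u))) ∅ = (fc p d *ᵥ u) ∅ := by
  induction gen u with
  | base u => rw [Matrix.mulVec_mulVec u, ← f1a.lr_mul, h2, show lr 1 = 1 from lam_one,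
      Matrix.one_mulVec]
  | eps c _ _ =>
    rw [Matrix.mulVec_mulVec _ (lr E), F1aH.lr_epsV, Matrix.mulVec_mulVec c, h1, Matrix.zero_mulVec,
      Matrix.mulVec_mulVec _ (fc p d) (epsV _), fc_eps, ← Matrix.mulVec_mulVec _ (epsV c),
      epsV_mulVec_empty]
    simp [epsV]
  | add _ _ e1 e2 => simp only [Matrix.mulVec_add, Pi.add_apply, e1, e2]
  | smul c _ e => simp only [Matrix.mulVec_smul, Pi.smul_apply, e]

/-- forms generated by `d + d` one-forms -/
theorem fc_lr {E : Matrix (Fin (d + d)) (Fin (p + d + (p + d))) ℂ} (h1 : E * mt (b1 p d) = 0)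
    (h2 : E * mt (b2 p d) = 1) (K : Matrix (Fin (p + d + (p + d))) (Fin (d + d)) ℂ) (u : Fo d) :
    fc p d *ᵥ (lr K *ᵥ u) = ((E * K).det * u Finset.univ * sn d) • ev ∅ := by
  ext A
  rw [Pi.smul_apply, ev, Pi.single_apply, smul_eq_mul]
  split_ifs with h
  · rw [h, ← proj h1 h2, fc_apply, Finset.compl_empty, sign, img, lr_top _ _ (by
      rw [Finset.card_image_of_injective _ m2.injective, Finset.card_univ, Fintype.card_fin]),
      ← mulVec_ev' (lr (mt (b2 p d))), lr_mt m2, Matrix.mulVec_mulVec, ← f1a.lr_mul, lr_top _ _ (by simp),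
      show lr (E * K) Finset.univ Finset.univ = _ from lam_top _, ev, Pi.single_eq_same]
    ring
  · have := Finset.card_pos.2 (Finset.nonempty_iff_ne_empty.2 h)
    rw [fc_apply, lr_top _ _ (by rw [card_fc]; omega), lr_card, zero_mul, mul_zero, mul_zero]
    rw [card_fc, Finset.card_univ, Fintype.card_fin]
    omega

theorem p1_ap (t : Cm p) (z : Cm d) : p1 p d (ap t z) = t := funext fun i => Fin.append_left _ _ i

theorem p2_ap (t : Cm p) (z : Cm d) : p2 p d (ap t z) = z := funext fun i => Fin.append_right _ _ i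

theorem df1 (w : Cm (p + d)) : DifferentiableAt ℝ (p1 p d) w :=
  differentiableAt_pi.2 fun _ => differentiableAt_apply _ _

theorem df2 (w : Cm (p + d)) : DifferentiableAt ℝ (p2 p d) w :=
  differentiableAt_pi.2 fun _ => differentiableAt_apply _ _

theorem dfa (t : Cm p) (z : Cm d) : DifferentiableAt ℝ (fun y => ap t y) z :=
  differentiableAt_pi.2 fun i => Fin.addCases (fun j => by
    simp only [ap, Fin.append_left]
    exact differentiableAt_const _) (fun j => by
    simp only [ap, Fin.append_right]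
    exact differentiableAt_apply _ _) i

theorem e1 (t : Cm p) (z : Cm d) : jc (fun y => ap t y) z * mt (b1 p d) = 0 := by
  rw [← jc1 (ap t z), ← k1b'.jc_comp (dfa t z) (df1 _)]
  ext r l
  simp only [p1_ap, jc, Matrix.of_apply, Ka.dr_const, Matrix.zero_apply]

theorem e2 (t : Cm p) (z : Cm d) : jc (fun y => ap t y) z * mt (b2 p d) = 1 := by
  rw [← jc2 (ap t z), ← k1b'.jc_comp (dfa t z) (df2 _)]
  simp only [p2_ap, k1b'.jc_id]

end AlgH

open AlgH in
/-- **ALG** -/
theorem alg : StALG where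
  dual p d U v w := jc1 w ▸ dual U v
  key p p' d G g t z U hG hg h := by
    have h1 : jc G (ap t z) * mt (b1 p d) = mt (b1 p' d) * jc g t := by
      have := k1b'.jc_comp (df1 (ap t z)) ((p1_ap t z).symm ▸ hg)
      rw [jc1, p1_ap] at this
      rw [← this, ← jc1 (G (ap t z)), ← k1b'.jc_comp hG (df1 _)]
      exact k1b'.jc_congr h
    have h2 : jc (fun y => p2 p d (G (ap t y))) z =
        jc (fun y => ap t y) z * (jc G (ap t z) * mt (b2 p d)) := by
      rw [← jc2 (G (ap t z)), ← k1b'.jc_comp hG (df2 _)]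
      exact k1b'.jc_comp (φ := fun w => p2 p d (G w)) (dfa t z) ((df2 _).comp _ hG)
    rw [h2]
    induction gen U with
    | base u =>
      rw [Matrix.mulVec_mulVec u, ← f1a.lr_mul, fc_lr (e1 t z) (e2 t z),
        fc_lr (e1 (g t) z) (e2 (g t) z), e2, Matrix.det_one, Matrix.mulVec_smul, f1a.lr_ev,
        smul_smul, one_mul, mul_assoc]
    | eps c _ ih =>
      rw [Matrix.mulVec_mulVec _ (lr _) (epsV _), F1aH.lr_epsV, Matrix.mulVec_mulVec c, h1,
        ← Matrix.mulVec_mulVec c, ← Matrix.mulVec_mulVec _ (epsV _),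
        Matrix.mulVec_mulVec _ (fc p' d) (epsV _), fc_eps, ← Matrix.mulVec_mulVec _ (epsV _), ih,
        Matrix.mulVec_mulVec _ (fc p d) (epsV _), fc_eps, ← Matrix.mulVec_mulVec _ (epsV c),
        Matrix.mulVec_mulVec _ (lr _) (epsV c), F1aH.lr_epsV, ← Matrix.mulVec_mulVec _ (epsV _),
        Matrix.mulVec_smul]
    | add _ _ e1 e2 => simp only [Matrix.mulVec_add, smul_add, e1, e2]
    | smul c _ e => simp only [Matrix.mulVec_smul, e, smul_comm c]

end Vale.Agent.P280Z.Pu
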