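import Vale.Agent.P280Z.Co.PuE

/-!
# P280, fibre integration: base change when the atlases contain the product charts
-/

open scoped Manifold ContDiff Topology Matrix
open Set Filter MeasureTheory
open Vale.Agent.P272.K Vale.Agent.P272.K.INT Vale.Agent.P299.IX Vale.Agent.P299.IX.Fock
  Vale.Agent.P281Z.Hg Vale.Agent.P281Z.Hg.G1H Vale.Agent.P281Z.Hg.G2H
open Vale.Agent.P281Z.Hg.Pb1H (ca near)

noncomputable section

namespace Vale.Agent.P280Z.Pu

/-- maps which are holomorphic in the charts -/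
structure Hl (a b : ℕ) {X Y : Type} [TopologicalSpace X] [ChartedSpace (Cm a) X]
    [TopologicalSpace Y] [ChartedSpace (Cm b) Y] (f : X → Y) : Prop where
  cont : Continuous f
  hol : ∀ (e : Chart a X) (e' : Chart b Y) x, At e x → At e' (f x) →
    ContDiffAt ℂ ω (fun z => e' (f (e.symm z))) (e x)

theorem Hl.smo {a b : ℕ} {X Y : Type} [TopologicalSpace X] [ChartedSpace (Cm a) X]
    [TopologicalSpace Y] [ChartedSpace (Cm b) Y] {f : X → Y} (h : Hl a b f) : Smo a b f :=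
  ⟨h.cont, fun e e' x k k' => ((h.hol e e' x k k').restrict_scalars ℝ).of_le le_top⟩

theorem IsPb_zp {a b : ℕ} {X Y : Type} [TopologicalSpace X] [ChartedSpace (Cm a) X]
    [TopologicalSpace Y] [ChartedSpace (Cm b) Y] {f : X → Y} {P : SF b Y → SF a X} (h : IsPb f P)
    {u : SF b Y} {x : X} (hu : u ∈ ZP (f x)) : P u ∈ ZP x := fun e he => by
  rw [h u e _ x he (ca (f x)), hu _ (ca _), Matrix.mulVec_zero]

theorem ap_cont {p d : ℕ} (t : Cm p) : Continuous fun z : Cm d => ap t z :=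
  continuous_pi fun i => by
    refine Fin.addCases (fun j => ?_) (fun j => ?_) i
    · simp only [ap, Fin.append_left]
      exact continuous_const
    · simp only [ap, Fin.append_right]
      exact continuous_apply j

variable {p p' d : ℕ} {X Y X' Y' : Type} [TopologicalSpace X] [ChartedSpace (Cm (p + d)) X]
  [TopologicalSpace Y] [ChartedSpace (Cm p) Y] [T2Space X] [CompactSpace X]
  [IsManifold 𝓘(ℂ, Cm (p + d)) ω X] [T2Space Y] [CompactSpace Y] [IsManifold 𝓘(ℂ, Cm p) ω Y]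
  [TopologicalSpace X'] [ChartedSpace (Cm (p' + d)) X'] [TopologicalSpace Y']
  [ChartedSpace (Cm p') Y'] [T2Space X'] [CompactSpace X'] [IsManifold 𝓘(ℂ, Cm (p' + d)) ω X']
  [T2Space Y'] [CompactSpace Y'] [IsManifold 𝓘(ℂ, Cm p') ω Y'] {f : X → Y} {f' : X' → Y'}
  {g : Y' → Y} {g' : X' → X} {T : SF (p + d) X → SF p Y} {T' : SF (p' + d) X' → SF p' Y'}
  {P : SF p Y → SF p' Y'} {P' : SF (p + d) X → SF (p' + d) X'}

/-- base change for forms with small support -/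
theorem bc_loc (hF : StFUB) (hC : StCOV) (hf : Smo (p + d) p f) (hf' : Smo (p' + d) p' f')
    (h : Full p d f) (h' : Full p' d f') (hg : Smo p' p g) (hg' : Hl (p' + d) (p + d) g')
    (hc : ∀ x, f (g' x) = g (f' x)) (hb : ∀ y x, f x = g y → ∃! x', f' x' = y ∧ g' x' = x)
    (hT : IsPush f T) (hT' : IsPush f' T') (hP' : IsPb g' P') {χ : Chart p Y} {χ' : Chart p' Y'}
    {c : Chart (p + d) X} {c' : Chart (p' + d) X'} (k : PrC f χ c) (k' : PrC f' χ' c') {y : Y'}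
    (hy : g y ∈ χ.source) (hy' : y ∈ χ'.source) {K : Set X} (hK : IsClosed K) (hs : K ⊆ c.source)
    (hs' : ∀ x, f' x = y → g' x ∈ K → x ∈ c'.source) {u : SF (p + d) X}
    (hu : ∀ x, x ∉ K → u ∈ ZP x) :
    vl (T' (P' u)) χ' (χ' y) =
      lr (jc (fun z => χ (g (χ'.symm z))) (χ' y)) *ᵥ vl (T u) χ (χ (g y)) := by
  obtain ⟨a1, a2⟩ := hT.loc hF hf h k hK hs hy fun x _ hx => hu x hx
  obtain ⟨b1, -⟩ := hT'.loc hF hf' h' k' (K := f' ⁻¹' {y} ∩ g' ⁻¹' K)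
    ((isClosed_singleton.preimage hf'.cont).inter (hK.preimage hg'.cont))
    (fun x hx => hs' x hx.1 hx.2) hy' (u := P' u) fun x hx hx' =>
      IsPb_zp hP' (hu _ fun hk => hx' ⟨hx, hk⟩)
  have e0 : χ (g y) = χ (g (χ'.symm (χ' y))) := by rw [χ'.left_inv hy']
  rw [a1, b1, e0]
  rw [e0] at a2
  have hS : ∀ z, ap (χ' y) z ∈ c'.target → g' (c'.symm (ap (χ' y) z)) ∈ c.source →
      ∀ᶠ w in 𝓝 (ap (χ' y) z), w ∈ c'.target ∧ g' (c'.symm w) ∈ c.source := fun z h1 h2 => by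
    have h3 := near hg'.cont (at_tg k'.m2 h1) ⟨k.m2, h2⟩
    rw [c'.right_inv h1] at h3
    exact h3.mono fun w hw => ⟨hw.1, hw.2.2.2⟩
  refine hC p p' d (fun w => c (g' (c'.symm w))) (fun z => χ (g (χ'.symm z))) (χ' y)
    {z | ap (χ' y) z ∈ c'.target ∧ g' (c'.symm (ap (χ' y) z)) ∈ c.source} _ _
    (isOpen_iff_mem_nhds.2 fun z hz => (ap_cont _).continuousAt.eventually (hS z hz.1 hz.2))
    ((hg.sm χ' χ y ⟨k'.m1, hy'⟩ ⟨k.m1, hy⟩).differentiableAt (by simp)) (fun z hz => ⟨?_, ?_⟩)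
    (fun z hz z' hz' e => ?_) (fun z hz => ?_) (fun z hz => ?_) (fun ζ hζ => ?_) a2
  · have h1 := hg'.hol c' c _ (at_tg k'.m2 hz.1) ⟨k.m2, hz.2⟩
    rw [c'.right_inv hz.1] at h1
    exact h1.differentiableAt (by simp)
  · filter_upwards [hS z hz.1 hz.2] with w hw
    obtain ⟨h1, h2⟩ := k'.fst _ (c'.map_target hw.1)
    rw [c'.right_inv hw.1] at h2
    rw [(k.fst _ hw.2).2, hc, h2, χ'.left_inv h1]
  · have h1 := c.injOn hz.2 hz'.2 e
    have h2 := k'.fib hy' hz.1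
    have h3 := k'.fib hy' hz'.1
    have h4 := (hb y _ (by rw [hc, h2])).unique ⟨h2, rfl⟩ ⟨h3, h1.symm⟩
    have h5 := congrArg (p2 p' d) (c'.symm.injOn hz.1 hz'.1 h4)
    rwa [p2_ap, p2_ap] at h5
  · have h1 := hP' u c' c _ (at_tg k'.m2 hz.1) ⟨k.m2, hz.2⟩
    rwa [c'.right_inv hz.1] at h1
  · by_cases h1 : ap (χ' y) z ∈ c'.target
    · have h2 := IsPb_zp hP' (hu _ fun hk => hz ⟨h1, hs hk⟩) c' (at_tg k'.m2 h1)
      rwa [c'.right_inv h1] at h2
    · exact (vl_isF _).off c' _ fun e => h1 e.2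
  · rw [← e0] at hζ ⊢
    have h1 : ap (χ (g y)) ζ ∈ c.target := by
      by_contra e
      exact hζ ((vl_isF u).off c _ fun e' => e e'.2)
    have h2 : c.symm (ap (χ (g y)) ζ) ∈ K := by
      by_contra e
      have h3 := hu _ e c (at_tg k.m2 h1)
      rw [c.right_inv h1] at h3
      exact hζ h3
    obtain ⟨x, ⟨x1, x2⟩, -⟩ := hb y _ (k.fib hy h1)
    have h3 := hs' x x1 (x2 ▸ h2)
    have h4 : ap (χ' y) (p2 p' d (c' x)) = c' x := by rw [← x1, ← (k'.fst x h3).2, ap_p]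
    refine ⟨p2 p' d (c' x), ?_, ?_⟩
    · rw [mem_ofPred_eq, h4, c'.left_inv h3, x2]
      exact ⟨c'.map_source h3, hs h2⟩
    · rw [h4, c'.left_inv h3, x2, c.right_inv h1]

/-- base change -/
theorem bc_full (hF : StFUB) (hC : StCOV) (hf : Smo (p + d) p f) (hf' : Smo (p' + d) p' f')
    (h : Full p d f) (h' : Full p' d f') (hg : Smo p' p g) (hg' : Hl (p' + d) (p + d) g')
    (hc : ∀ x, f (g' x) = g (f' x)) (hb : ∀ y x, f x = g y → ∃! x', f' x' = y ∧ g' x' = x)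
    (hT : IsPush f T) (hT' : IsPush f' T') (hP : IsPb g P) (hP' : IsPb g' P')
    (u : SF (p + d) X) : P (T u) = T' (P' u) := by
  refine G1H.ext _ _ fun y => ⟨_, ca y, ?_⟩
  have hy := ca (d := p) (g y)
  have hy' := ca (d := p') y
  rw [hP _ _ _ y hy' hy]
  have key : ∀ x, ∃ O : Set X, IsOpen O ∧ x ∈ O ∧ ∀ K, IsClosed K → K ⊆ O → ∀ v : SF (p + d) X,
      (∀ x, x ∉ K → v ∈ ZP x) → vl (T' (P' v)) (chartAt (Cm p') y) (chartAt (Cm p') y y) =
        lr (jc (fun z => chartAt (Cm p) (g y) (g ((chartAt (Cm p') y).symm z)))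
          (chartAt (Cm p') y y)) *ᵥ vl (T v) (chartAt (Cm p) (g y)) (chartAt (Cm p) (g y) (g y)) := by
    intro x
    by_cases hx : f x = g y
    · obtain ⟨x', ⟨x1, x2⟩, x3⟩ := hb y x hx
      obtain ⟨c, c1, c2⟩ := h (chartAt (Cm p) (g y)) x (by rw [hx]; exact hy)
      obtain ⟨c', c3, c4⟩ := h' (chartAt (Cm p') y) x' (by rw [x1]; exact hy')
      have h1 : IsClosed (g' '' (f' ⁻¹' {y} ∩ c'.sourceᶜ)) := (((isClosed_singleton.preimage
        hf'.cont).inter c'.open_source.isClosed_compl).isCompact.image hg'.cont).isClosed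
      refine ⟨c.source ∩ (g' '' (f' ⁻¹' {y} ∩ c'.sourceᶜ))ᶜ, c.open_source.inter h1.isOpen_compl,
        ⟨c1, ?_⟩, fun K hK hs v hv => bc_loc hF hC hf hf' h h' hg hg' hc hb hT hT' hP' c2 c4 hy.2
          hy'.2 hK (fun z hz => (hs hz).1) (fun z z1 z2 => ?_) hv⟩
      · rintro ⟨z, ⟨z1, z2⟩, z3⟩
        exact z2 (x3 z ⟨z1, z3⟩ ▸ c3)
      · by_contra e
        exact (hs z2).2 ⟨z, ⟨z1, e⟩, rfl⟩
    · refine ⟨(f ⁻¹' {g y})ᶜ, (isClosed_singleton.preimage hf.cont).isOpen_compl, hx,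
        fun K _ hs v hv => ?_⟩
      have h1 : ∀ z, f z = g y → v ∈ ZP z := fun z hz => hv z fun e => hs e hz
      rw [hT.zp hF hf h h1 _ hy, Matrix.mulVec_zero]
      exact hT'.zp hF hf' h' (fun z hz => IsPb_zp hP' (h1 _ (by rw [hc, hz]))) _ hy'
  choose O o1 o2 o3 using key
  obtain ⟨t, R, K, k1, k2, k3, -⟩ := pou' (n := p + d) O o1 o2
  obtain ⟨L, hL⟩ := hT.lin hf
  obtain ⟨L', hL'⟩ := hT'.lin hf'
  obtain ⟨⟨Q, hQ⟩, hu, -⟩ := pp1 (p' + d) X' (p + d) X g' hg'.smo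
  have e := hu _ _ hP' hQ
  rw [← k2 u, ← hL, ← hL', e, map_sum, map_sum, map_sum, vl_sum, vl_sum, Matrix.mulVec_sum]
  refine Finset.sum_congr rfl fun i _ => ?_
  rw [hL, hL', ← e, o3 i (K i) (k1 i).1.isClosed (k1 i).2 _ (k3 i u)]

end Vale.Agent.P280Z.Pu
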