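import Vale.Agent.P281Z.Hg.S3
import Vale.Agent.P281Z.Hg.K1b

/-!
# P280, fibre integration of smooth forms: definitions and statements of the rows
-/

open scoped Manifold ContDiff Topology Matrix
open Set Filter MeasureTheory
open Vale.Agent.P272.K Vale.Agent.P299.IX Vale.Agent.P299.IX.Fock Vale.Agent.P281Z.Hg

noncomputable section

namespace Vale.Agent.P280Z.Pu

/-- the sign of `dz_1 … dz_m dz̄_1 … dz̄_m` against `dz_1 dz̄_1 … dz_m dz̄_m` -/
def sn (m : ℕ) : ℂ := ∏ i ∈ Finset.range m, (-1) ^ i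

/-- the base coordinates -/
def p1 (p d : ℕ) (w : Cm (p + d)) : Cm p := fun i => w (Fin.castAdd d i)

/-- the fibre coordinates -/
def p2 (p d : ℕ) (w : Cm (p + d)) : Cm d := fun j => w (Fin.natAdd p j)

/-- the point with given base and fibre coordinates -/
def ap {p d : ℕ} (t : Cm p) (z : Cm d) : Cm (p + d) := Fin.append t z

/-- the coefficient of the fibre volume form -/
def fc (p d : ℕ) : Matrix (FI (p + p)) (FI (p + d + (p + d))) ℂ :=
  (sn p * sn (p + d)) • ((hst : Fm p) * (lr (jc (p1 p d) 0))ᵀ * (hst : Fm (p + d))ᵀ)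

/-- the integral over the fibre coordinates -/
def fi (p d : ℕ) (U : Cm (p + d) → Fo (p + d)) (t : Cm p) : Fo p := ∫ z, fc p d *ᵥ U (ap t z)

/-- row ALG: pointwise algebra -/
structure StALG : Prop where
  dual : ∀ (p d : ℕ) (U : Fo (p + d)) (v : Fo p) (w : Cm (p + d)),
    sn p * Bq (fc p d *ᵥ U) v = sn (p + d) * Bq U (lr (jc (p1 p d) w) *ᵥ v)
  key : ∀ (p p' d : ℕ) (G : Cm (p' + d) → Cm (p + d)) (g : Cm p' → Cm p) (t : Cm p') (z : Cm d)
    (U : Fo (p + d)), DifferentiableAt ℝ G (ap t z) → DifferentiableAt ℝ g t →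
    (∀ᶠ w in 𝓝 (ap t z), p1 p d (G w) = g (p1 p' d w)) →
    fc p' d *ᵥ (lr (jc G (ap t z)) *ᵥ U) =
      (jc (fun y => p2 p d (G (ap t y))) z).det • (lr (jc g t) *ᵥ (fc p d *ᵥ U))

/-- row FUB: smoothness, support, Fubini -/
def StFUB : Prop := ∀ (p d : ℕ) (U : Cm (p + d) → Fo (p + d)) (K : Set (Cm (p + d))),
  ContDiff ℝ ∞ U → IsCompact K → (∀ w ∉ K, U w = 0) →
  ContDiff ℝ ∞ (fi p d U) ∧ (∀ t ∉ p1 p d '' K, fi p d U t = 0) ∧
  (∀ t, Integrable fun z => U (ap t z)) ∧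
  ∀ V : Cm p → Fo p, (∀ t ∈ p1 p d '' K, ContinuousAt V t) →
    (Integrable fun t => Bq (fi p d U t) (V t)) ∧
    (Integrable fun w => Bq (U w) (lr (jc (p1 p d) w) *ᵥ V (p1 p d w))) ∧
    sn p * ∫ t, Bq (fi p d U t) (V t) =
      sn (p + d) * ∫ w, Bq (U w) (lr (jc (p1 p d) w) *ᵥ V (p1 p d w))

/-- row COV: change of variables in the fibre -/
def StCOV : Prop := ∀ (p p' d : ℕ) (G : Cm (p' + d) → Cm (p + d)) (g : Cm p' → Cm p) (t : Cm p')
  (S : Set (Cm d)) (U : Cm (p + d) → Fo (p + d)) (U' : Cm (p' + d) → Fo (p' + d)),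
  IsOpen S → DifferentiableAt ℝ g t →
  (∀ z ∈ S, DifferentiableAt ℂ G (ap t z) ∧ ∀ᶠ w in 𝓝 (ap t z), p1 p d (G w) = g (p1 p' d w)) →
  InjOn (fun z => G (ap t z)) S →
  (∀ z ∈ S, U' (ap t z) = lr (jc G (ap t z)) *ᵥ U (G (ap t z))) → (∀ z ∉ S, U' (ap t z) = 0) →
  (∀ ζ, U (ap (g t) ζ) ≠ 0 → ∃ z ∈ S, G (ap t z) = ap (g t) ζ) →
  (Integrable fun ζ => U (ap (g t) ζ)) → fi p' d U' t = lr (jc g t) *ᵥ fi p d U (g t)

section glob
variable {n : ℕ} {M : Type} [TopologicalSpace M] [ChartedSpace (Cm n) M] [T2Space M]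
  [CompactSpace M] [IsManifold 𝓘(ℂ, Cm n) ω M]

/-- the pairing of forms (equal to `X.Q` for `RealX X`) -/
def Qi (a b : SF n M) : ℂ := itg fun e z => Bq (vl a e z) (vl b e z)

variable {p : ℕ} {Y : Type} [TopologicalSpace Y] [ChartedSpace (Cm p) Y] [T2Space Y]
  [CompactSpace Y] [IsManifold 𝓘(ℂ, Cm p) ω Y]

/-- `T` is the integration along the fibres of `f` -/
def IsPush (f : M → Y) (T : SF n M → SF p Y) : Prop :=
  ∀ P : SF p Y → SF n M, IsPb f P → ∀ u v, sn p * Qi (T u) v = sn n * Qi u (P v)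

end glob

section prod
variable {p d : ℕ} {X Y : Type} [TopologicalSpace X] [ChartedSpace (Cm (p + d)) X]
  [TopologicalSpace Y] [ChartedSpace (Cm p) Y]

/-- product charts in the atlas -/
structure PrC (f : X → Y) (χ : Chart p Y) (c : Chart (p + d) X) : Prop where
  m1 : χ ∈ atlas (Cm p) Y
  m2 : c ∈ atlas (Cm (p + d)) X
  fst : ∀ x ∈ c.source, f x ∈ χ.source ∧ p1 p d (c x) = χ (f x)

variable (p d) in
/-- the atlas contains enough product charts -/
def Full (f : X → Y) : Prop :=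
  ∀ (χ : Chart p Y) (x : X), At χ (f x) → ∃ c : Chart (p + d) X, x ∈ c.source ∧ PrC f χ c

end prod

end Vale.Agent.P280Z.Pu
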