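import Vale.Agent.P280Z.Co.PuG

/-!
# P280, fibre integration: existence, uniqueness, the formula in product charts
-/

open scoped Manifold ContDiff Topology Matrix
open Set Filter MeasureTheory
open Vale.Agent.P272.K Vale.Agent.P272.K.INT Vale.Agent.P299.IX Vale.Agent.P299.IX.Fock
  Vale.Agent.P281Z.Hg Vale.Agent.P281Z.Hg.G1H Vale.Agent.P281Z.Hg.G2H
open Vale.Agent.P281Z.Hg.Pb1H (ca)

noncomputable section

namespace Vale.Agent.P280Z.Pu

theorem p1_ap {p d : ℕ} (t : Cm p) (z : Cm d) : p1 p d (ap t z) = t :=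
  funext fun i => Fin.append_left t z i

theorem p2_ap {p d : ℕ} (t : Cm p) (z : Cm d) : p2 p d (ap t z) = z :=
  funext fun i => Fin.append_right t z i

theorem ap_p {p d : ℕ} (w : Cm (p + d)) : ap (p1 p d w) (p2 p d w) = w :=
  Fin.append_castAdd_natAdd

section gen
variable {n p : ℕ} {X Y : Type} [TopologicalSpace X] [ChartedSpace (Cm n) X] [T2Space X]
  [CompactSpace X] [IsManifold 𝓘(ℂ, Cm n) ω X] [TopologicalSpace Y] [ChartedSpace (Cm p) Y]
  [T2Space Y] [CompactSpace Y] [IsManifold 𝓘(ℂ, Cm p) ω Y] {f : X → Y}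

theorem IsPush.eq (hf : Smo n p f) {T : SF n X → SF p Y} (hT : IsPush f T) {u : SF n X}
    {w : SF p Y} (hw : ∀ P : SF p Y → SF n X, IsPb f P → ∀ v,
      sn p * Qi w v = sn n * Qi u (P v)) : T u = w := by
  obtain ⟨P, hP⟩ := (pp1 n X p Y f hf).1
  exact nd' fun v => mul_left_cancel₀ (sn_ne p) ((hT P hP u v).trans (hw P hP v).symm)

/-- uniqueness -/
theorem IsPush.uniq (hf : Smo n p f) {T T' : SF n X → SF p Y} (hT : IsPush f T)
    (hT' : IsPush f T') : T = T' := funext fun u => hT.eq hf fun P hP v => hT' P hP u v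

/-- linearity -/
theorem IsPush.lin (hf : Smo n p f) {T : SF n X → SF p Y} (hT : IsPush f T) :
    ∃ L : SF n X →ₗ[ℂ] SF p Y, ∀ u, L u = T u := by
  obtain ⟨Q, hQ⟩ := exQ n X
  obtain ⟨Q', hQ'⟩ := exQ p Y
  refine ⟨⟨⟨T, fun u u' => hT.eq hf fun P hP v => ?_⟩, fun c u => hT.eq hf fun P hP v => ?_⟩,
    fun _ => rfl⟩
  · have h1 := hT P hP u v
    have h2 := hT P hP u' v
    simp only [hQ, hQ', map_add, LinearMap.add_apply] at h1 h2 ⊢
    linear_combination h1 + h2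
  · have h1 := hT P hP u v
    simp only [hQ, hQ', map_smul, LinearMap.smul_apply, smul_eq_mul, RingHom.id_apply] at h1 ⊢
    linear_combination c * h1

end gen

variable {p d : ℕ} {X Y : Type} [TopologicalSpace X] [ChartedSpace (Cm (p + d)) X]
  [TopologicalSpace Y] [ChartedSpace (Cm p) Y] {f : X → Y} {χ : Chart p Y} {c : Chart (p + d) X}

theorem PrC.fib (h : PrC f χ c) {y : Y} (hy : y ∈ χ.source) {z : Cm d}
    (hz : ap (χ y) z ∈ c.target) : f (c.symm (ap (χ y) z)) = y := by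
  obtain ⟨h1, h2⟩ := h.fst _ (c.map_target hz)
  rw [c.right_inv hz, p1_ap] at h2
  exact (χ.injOn hy h1 h2).symm

theorem PrC.ev (h : PrC f χ c) {w : Cm (p + d)} (hw : w ∈ c.target) :
    (fun z => χ (f (c.symm z))) =ᶠ[𝓝 w] p1 p d := by
  filter_upwards [c.open_target.mem_nhds hw] with z hz
  rw [← (h.fst _ (c.map_target hz)).2, c.right_inv hz]

/-- the fibre integral depends only on the values on the fibre -/
theorem PrC.fi_congr (h : PrC f χ c) {y : Y} (hy : y ∈ χ.source) {u u' : SF (p + d) X}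
    (hu : ∀ x, f x = y → u - u' ∈ ZP x) : fi p d (vl u c) (χ y) = fi p d (vl u' c) (χ y) := by
  refine integral_congr_ae (.of_forall fun z => congrArg (fc p d *ᵥ ·) ?_)
  by_cases hz : ap (χ y) z ∈ c.target
  · have h1 := hu _ (h.fib hy hz) c (at_tg h.m2 hz)
    rwa [c.right_inv hz, vl_sub, sub_eq_zero] at h1
  · rw [(vl_isF u).off c _ fun k => hz k.2, (vl_isF u').off c _ fun k => hz k.2]

theorem fi_zero (t : Cm p) (c : Chart (p + d) X) : fi p d (vl (0 : SF (p + d) X) c) t = 0 := by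
  simp only [fi, vl_zero, Matrix.mulVec_zero, integral_zero]

variable [T2Space X] [CompactSpace X] [IsManifold 𝓘(ℂ, Cm (p + d)) ω X] [T2Space Y]
  [CompactSpace Y] [IsManifold 𝓘(ℂ, Cm p) ω Y]

/-- forms with support in one product chart -/
theorem core (hF : StFUB) (hf : Continuous f) (h : PrC f χ c) {K : Set X} (hK : IsCompact K)
    (hs : K ⊆ c.source) {u : SF (p + d) X} (hu : ∀ x, x ∉ K → u ∈ ZP x) :
    ∃ w : SF p Y, (∀ t ∈ χ.target, vl w χ t = fi p d (vl u c) t) ∧ (∀ y, y ∉ f '' K → w ∈ ZP y) ∧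
      ∀ P : SF p Y → SF (p + d) X, IsPb f P → ∀ v, sn p * Qi w v = sn (p + d) * Qi u (P v) := by
  obtain ⟨l1, l2, l3, l4⟩ := glob h.m2 hK hs hu
  obtain ⟨k1, k2, -, k4⟩ := hF p d (vl u c) (c '' K) l4 l1 l3
  have e1 : p1 p d '' (c '' K) = χ '' (f '' K) := by
    rw [image_image, image_image]
    exact image_congr fun x hx => (h.fst x (hs hx)).2
  have e2 : f '' K ⊆ χ.source := by
    rintro _ ⟨x, hx, rfl⟩
    exact (h.fst x (hs hx)).1
  rw [e1] at k2 k4
  obtain ⟨w, hw, hw'⟩ := (gg1 p Y).loc χ (f '' K) (fi p d (vl u c)) h.m1 (hK.image hf) e2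
    k1.contDiffOn fun t _ ht => k2 t ht
  refine ⟨w, hw, hw', fun P hP v => ?_⟩
  obtain ⟨i1, i2, i3⟩ := k4 (vl v χ) (by
    rintro _ ⟨y, hy, rfl⟩
    exact ((vl_isF v).sm χ y ⟨h.m1, e2 hy⟩).continuousAt)
  rw [Qi_loc h.m1 (hK.image hf) e2 hw' v i1 (fun t ht => by rw [hw t ht])
      fun t ht => by rw [(vl_isF v).off χ t fun k => ht k.2, Bq_zero_r],
    Qi_loc h.m2 hK hs hu (P v) i2 (fun z hz => ?_)
      fun z hz => by rw [l3 z fun k => hz (l2 k), Bq_zero_l], i3]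
  obtain ⟨a1, a2⟩ := h.fst _ (c.map_target hz)
  have a3 := hP v c χ _ (at_tg h.m2 hz) ⟨h.m1, a1⟩
  rw [c.right_inv hz] at a2 a3
  rw [a3, k1b'.jc_congr (h.ev hz), a2]

/-- existence -/
theorem ex_full (hF : StFUB) (hf : Smo (p + d) p f) (h : Full p d f) :
    ∃ T : SF (p + d) X →ₗ[ℂ] SF p Y, IsPush f T := by
  choose c c1 c2 using fun x => h (chartAt (Cm p) (f x)) x (ca (f x))
  obtain ⟨t, R, K, k1, k2, k3, -⟩ := pou' (n := p + d) (fun x => (c x).source)
    (fun x => (c x).open_source) c1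
  choose w _ _ hw using fun (i : t) u => core hF hf.cont (c2 i) (k1 i).1 (k1 i).2 (k3 i u)
  obtain ⟨Q, hQ⟩ := exQ (p + d) X
  obtain ⟨Q', hQ'⟩ := exQ p Y
  have h1 : IsPush f fun u => ∑ i, w i u := fun P hP u v => by
    conv_rhs => rw [← k2 u]
    simp only [hQ, hQ', map_sum, LinearMap.sum_apply, Finset.mul_sum] at hw ⊢
    exact Finset.sum_congr rfl fun i _ => hw i u P hP v
  obtain ⟨L, hL⟩ := h1.lin hf
  exact ⟨L, by rwa [show ⇑L = _ from funext hL]⟩

variable {T : SF (p + d) X → SF p Y}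

/-- the value at `y` depends only on the values on the fibre -/
theorem IsPush.zp (hF : StFUB) (hf : Smo (p + d) p f) (h : Full p d f) (hT : IsPush f T)
    {u : SF (p + d) X} {y : Y} (hu : ∀ x, f x = y → u ∈ ZP x) : T u ∈ ZP y := by
  obtain ⟨L, hL⟩ := hT.lin hf
  choose c c1 c2 using fun x => h (chartAt (Cm p) (f x)) x (ca (f x))
  obtain ⟨t, R, K, k1, k2, k3, k4⟩ := pou' (n := p + d) (fun x => (c x).source)
    (fun x => (c x).open_source) c1
  rw [← hL, ← k2 u, map_sum]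
  refine Submodule.sum_mem _ fun i _ => ?_
  obtain ⟨w, w1, w2, w3⟩ := core hF hf.cont (c2 i) (k1 i).1 (k1 i).2 (k3 i u)
  rw [hL, hT.eq hf w3]
  by_cases hy : y ∈ f '' K i
  · have h1 : y ∈ (chartAt (Cm p) (f i)).source := by
      obtain ⟨x, hx, rfl⟩ := hy
      exact ((c2 i).fst x ((k1 i).2 hx)).1
    refine G1H.zp w ⟨(c2 i).m1, h1⟩ ?_
    rw [w1 _ (OpenPartialHomeomorph.map_source _ h1), (c2 i).fi_congr h1 (u' := 0)
      fun x hx => by rw [sub_zero]; exact k4 i u x (hu x hx), fi_zero]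
  · exact w2 y hy

/-- the formula in a product chart -/
theorem IsPush.loc (hF : StFUB) (hf : Smo (p + d) p f) (h : Full p d f) (hT : IsPush f T)
    (hc : PrC f χ c) {K : Set X} (hK : IsClosed K) (hs : K ⊆ c.source) {u : SF (p + d) X} {y : Y}
    (hy : y ∈ χ.source) (hu : ∀ x, f x = y → x ∉ K → u ∈ ZP x) :
    vl (T u) χ (χ y) = fi p d (vl u c) (χ y) ∧ Integrable fun z => vl u c (ap (χ y) z) := by
  obtain ⟨L, hL⟩ := hT.lin hf
  obtain ⟨R, K', k1, k2, k3, k4, k5, -⟩ := cutoff (n := p + d) hK c.open_source hs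
  have h1 : ∀ x, f x = y → u - R u ∈ ZP x := fun x hx => by
    by_cases k : x ∈ K
    · exact k3 u x k
    · exact sub_mem (hu x hx k) (k5 u x (hu x hx k))
  obtain ⟨w, w1, -, w3⟩ := core hF hf.cont hc k1 k2 (k4 u)
  have h2 := hT.zp hF hf h h1 χ ⟨hc.m1, hy⟩
  rw [← hL, map_sub, vl_sub, sub_eq_zero, hL, hL, hT.eq hf w3, w1 _ (χ.map_source hy)] at h2
  refine ⟨h2.trans (hc.fi_congr hy h1).symm, ?_⟩
  obtain ⟨l1, -, l3, l4⟩ := glob hc.m2 k1 k2 (k4 u)
  refine ((hF p d _ _ l4 l1 l3).2.2.1 (χ y)).congr (.of_forall fun z => ?_)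
  by_cases hz : ap (χ y) z ∈ c.target
  · have h3 := h1 _ (hc.fib hy hz) c (at_tg hc.m2 hz)
    rw [c.right_inv hz, vl_sub, sub_eq_zero] at h3
    exact h3.symm
  · exact ((vl_isF _).off c _ fun k => hz k.2).trans ((vl_isF u).off c _ fun k => hz k.2).symm

end Vale.Agent.P280Z.Pu
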