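import Vale.Agent.P280Z.Co.PuD
import Vale.Agent.P284Y.Lib.Par
import Vale.Agent.P281Z.Hg.G2

/-!
# P280, fibre integration of smooth forms: Fubini and change of variables
-/

open scoped Manifold ContDiff Topology Matrix
open Set Filter MeasureTheory
open Vale.Agent.P272.K Vale.Agent.P299.IX Vale.Agent.P299.IX.Fock Vale.Agent.P281Z.Hg

noncomputable section

namespace Vale.Agent.P280Z.Pu

namespace PuF

variable {p d : ℕ}

theorem p1_ap (t : Cm p) (z : Cm d) : p1 p d (ap t z) = t := funext fun i => Fin.append_left t z i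

theorem p2_ap (t : Cm p) (z : Cm d) : p2 p d (ap t z) = z := funext fun i => Fin.append_right t z i

theorem ap_eta (w : Cm (p + d)) : ap (p1 p d w) (p2 p d w) = w := Fin.append_castAdd_natAdd

theorem cd_ap {𝕜 : Type} [NontriviallyNormedField 𝕜] [NormedSpace 𝕜 ℂ] {n : WithTop ℕ∞} :
    ContDiff 𝕜 n fun q : Cm p × Cm d => ap q.1 q.2 := contDiff_pi.2 fun i => by
  refine Fin.addCases (fun a => ?_) (fun a => ?_) i
  · simp only [ap, Fin.append_left]
    exact (contDiff_apply 𝕜 ℂ a).comp contDiff_fst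
  · simp only [ap, Fin.append_right]
    exact (contDiff_apply 𝕜 ℂ a).comp contDiff_snd

theorem cont_p1 : Continuous (p1 p d) := continuous_pi fun _ => continuous_apply _

theorem cont_p2 : Continuous (p2 p d) := continuous_pi fun _ => continuous_apply _

/-- the splitting of the coordinates -/
def sp (p d : ℕ) : Cm p × Cm d ≃ᵐ Cm (p + d) :=
  (MeasurableEquiv.sumPiEquivProdPi fun _ : Fin p ⊕ Fin d => ℂ).symm.trans
    (MeasurableEquiv.piCongrLeft (fun _ => ℂ) finSumFinEquiv)

theorem sp_mp : MeasurePreserving (sp p d) :=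
  (volume_measurePreserving_piCongrLeft (fun _ => ℂ) finSumFinEquiv).comp
    (volume_measurePreserving_sumPiEquivProdPi_symm fun _ : Fin p ⊕ Fin d => ℂ)

theorem sp_eq (q : Cm p × Cm d) : sp p d q = ap q.1 q.2 := funext fun i => by
  obtain ⟨j, rfl⟩ := finSumFinEquiv.surjective i
  refine (MeasurableEquiv.piCongrLeft_apply_apply finSumFinEquiv (β := fun _ => ℂ) _ j).trans ?_
  rcases j with j | j
  · exact (Fin.append_left q.1 q.2 j).symm
  · exact (Fin.append_right q.1 q.2 j).symm

theorem sn_ne (m : ℕ) : sn m ≠ 0 :=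
  Finset.prod_ne_zero_iff.2 fun _ _ => pow_ne_zero _ (neg_ne_zero.2 one_ne_zero)

/-- a matrix as a continuous linear map -/
def mv {ι κ : Type} [Fintype ι] [Fintype κ] (A : Matrix ι κ ℂ) : (κ → ℂ) →L[ℂ] ι → ℂ :=
  LinearMap.toContinuousLinearMap A.mulVecLin

theorem mv_int {ι κ α : Type} [Fintype ι] [Fintype κ] [MeasurableSpace α] {μ : Measure α}
    (A : Matrix ι κ ℂ) {f : α → κ → ℂ} (h : Integrable f μ) :
    Integrable (fun x => A *ᵥ f x) μ ∧ ∫ x, A *ᵥ f x ∂μ = A *ᵥ ∫ x, f x ∂μ :=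
  ⟨(mv A).integrable_comp h, (mv A).integral_comp_comm h⟩

theorem mv_cd {ι κ E : Type} [Fintype ι] [Fintype κ] [NormedAddCommGroup E] [NormedSpace ℝ E]
    (A : Matrix ι κ ℂ) {f : E → κ → ℂ} (h : ContDiff ℝ ∞ f) : ContDiff ℝ ∞ fun x => A *ᵥ f x :=
  ((mv A).restrictScalars ℝ).contDiff.comp h

/-- the pairing as a continuous linear form -/
def bq {n : ℕ} (v : Fk n) : Fk n →L[ℂ] ℂ :=
  LinearMap.toContinuousLinearMap
    ⟨⟨fun u => Bq u v, fun u u' => G2H.Bq_add_l u u' v⟩, fun c u => G2H.Bq_smul_l c u v⟩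

theorem bq_int {n : ℕ} {α : Type} [MeasurableSpace α] {μ : Measure α} (v : Fk n) {f : α → Fk n}
    (h : Integrable f μ) : Bq (∫ x, f x ∂μ) v = ∫ x, Bq (f x) v ∂μ :=
  ((bq v).integral_comp_comm h).symm

theorem cont_Bq {n : ℕ} {α : Type} [TopologicalSpace α] {f g : α → Fk n} {x : α}
    (hf : ContinuousAt f x) (hg : ContinuousAt g x) : ContinuousAt (fun y => Bq (f y) (g y)) x :=
  (continuous_fst.dotProduct ((mv hst).continuous.comp continuous_snd)).continuousAt.comp
    (f := fun y => (f y, g y)) (hf.prodMk hg)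

end PuF

open PuF

/-- row FUB -/
theorem fub_of (h : StALG) : StFUB := by
  intro p d U K hU hK h0
  have c0 : Continuous fun q : Cm p × Cm d => ap q.1 q.2 := (cd_ap (𝕜 := ℝ) (n := 0)).continuous
  have z2 : ∀ t, ∀ z ∉ p2 p d '' K, U (ap t z) = 0 := fun t z hz =>
    h0 _ fun k => hz ⟨_, k, p2_ap t z⟩
  have z1 : ∀ t ∉ p1 p d '' K, ∀ z, U (ap t z) = 0 := fun t ht z =>
    h0 _ fun k => ht ⟨_, k, p1_ap t z⟩
  have K1 := hK.image (cont_p1 (p := p) (d := d))
  have K2 := hK.image (cont_p2 (p := p) (d := d))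
  have i1 : ∀ t, Integrable fun z => U (ap t z) := fun t =>
    (hU.continuous.comp (c0.comp (.prodMk_right t))).integrable_of_hasCompactSupport
      (.intro K2 (z2 t))
  refine ⟨?_, fun t ht => by simp only [fi, z1 t ht, Matrix.mulVec_zero, integral_zero], i1,
    fun V hV => ?_⟩
  · have : IsFiniteMeasure (volume.restrict (p2 p d '' K)) :=
      isFiniteMeasure_restrict.2 K2.measure_lt_top.ne
    have e : fi p d U = fun t => ∫ z, fc p d *ᵥ U (ap t z) ∂(volume.restrict (p2 p d '' K)) :=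
      funext fun t => (setIntegral_eq_integral_of_forall_compl_eq_zero fun z hz => by
        rw [z2 t z hz, Matrix.mulVec_zero]).symm
    rw [e]
    refine P284Y.Lib.contDiff_integral_param _ K2 ?_
      (mv_cd (fc p d) (hU.comp (cd_ap.comp (contDiff_snd.prodMk contDiff_fst))))
    rw [Measure.restrict_apply K2.measurableSet.compl, compl_inter_self, measure_empty]
  · have c1 : Continuous fun q : Cm p × Cm d => Bq (fc p d *ᵥ U (ap q.1 q.2)) (V q.1) := by
      refine continuous_iff_continuousAt.2 fun q => ?_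
      by_cases hq : q.1 ∈ p1 p d '' K
      · exact cont_Bq (mv_cd (fc p d) (hU.comp cd_ap)).continuous.continuousAt
          ((hV _ hq).comp continuousAt_fst)
      · refine (continuousAt_const (y := (0 : ℂ))).congr ?_
        filter_upwards [continuousAt_fst.eventually (K1.isClosed.isOpen_compl.mem_nhds hq)] with r hr
        rw [z1 _ hr, Matrix.mulVec_zero, G2H.Bq_zero_l]
    have i2 : Integrable (fun q : Cm p × Cm d => Bq (fc p d *ᵥ U (ap q.1 q.2)) (V q.1))
        (volume.prod volume) := c1.integrable_of_hasCompactSupport (.intro (K1.prod K2) fun q hq => by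
      rw [(not_and_or.1 hq).elim (fun k => z1 _ k _) (z2 _ _), Matrix.mulVec_zero, G2H.Bq_zero_l])
    have e1 : ∀ t, Bq (fi p d U t) (V t) = ∫ z, Bq (fc p d *ᵥ U (ap t z)) (V t) := fun t =>
      bq_int (V t) (mv_int (fc p d) (i1 t)).1
    have e2 : ∀ q : Cm p × Cm d, sn p * Bq (fc p d *ᵥ U (ap q.1 q.2)) (V q.1) = sn (p + d) *
        Bq (U (sp p d q)) (lr (jc (p1 p d) (sp p d q)) *ᵥ V (p1 p d (sp p d q))) := fun q => by
      rw [sp_eq, p1_ap, h.dual]
    refine ⟨?_, ?_, ?_⟩
    · simp only [e1]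
      exact i2.integral_prod_left
    · refine (sp_mp.integrable_comp_emb (sp p d).measurableEmbedding).1 ?_
      refine ((i2.const_mul (sn p)).const_mul (sn (p + d))⁻¹).congr (.of_forall fun q => ?_)
      simp only [e2, inv_mul_cancel_left₀ (sn_ne _), Function.comp]
    · simp only [e1]
      rw [← integral_prod _ i2, ← sp_mp.integral_comp', ← integral_const_mul, ← integral_const_mul]
      simp only [e2]
      rfl

/-- row COV -/
theorem cov_of (h : StALG) : StCOV := by
  intro p p' d G g t S U U' hS hg hG hi h1 h2 h3 hI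
  set φ : Cm d → Cm d := fun z => p2 p d (G (ap t z)) with hφ
  have e1 : ∀ z ∈ S, G (ap t z) = ap (g t) (φ z) := fun z hz => by
    rw [← ap_eta (G (ap t z)), (hG z hz).2.self_of_nhds, p1_ap]
  have d1 : ∀ z ∈ S, DifferentiableAt ℂ φ z := fun z hz => differentiableAt_pi.2 fun j =>
    differentiableAt_pi.1 ((hG z hz).1.comp z (((cd_ap (𝕜 := ℂ) (n := 1)).differentiable
      one_ne_zero (t, z)).comp z ((differentiableAt_const t).prodMk differentiableAt_id))) _
  have hi' : InjOn φ S := fun z hz z' hz' e => hi hz hz' (by simp only [e1 z hz, e1 z' hz', e])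
  have d2 : ∀ z ∈ S, HasFDerivWithinAt φ (fderiv ℝ φ z) S z := fun z hz =>
    ((d1 z hz).restrictScalars ℝ).hasFDerivAt.hasFDerivWithinAt
  have i1 : IntegrableOn (fun ζ => fc p d *ᵥ U (ap (g t) ζ)) (φ '' S) :=
    (mv_int (fc p d) hI).1.integrableOn
  have e2 : fi p d U (g t) = ∫ z in S, |(fderiv ℝ φ z).det| • (fc p d *ᵥ U (ap (g t) (φ z))) := by
    rw [← integral_image_eq_integral_abs_det_fderiv_smul volume hS.measurableSet d2 hi'
      fun ζ => fc p d *ᵥ U (ap (g t) ζ)]
    refine (setIntegral_eq_integral_of_forall_compl_eq_zero fun ζ hζ => ?_).symm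
    rw [show U (ap (g t) ζ) = 0 from by_contra fun k => ?_, Matrix.mulVec_zero]
    obtain ⟨z, hz, e⟩ := h3 ζ k
    exact hζ ⟨z, hz, by simp only [hφ, e, p2_ap]⟩
  rw [e2, ← (mv_int (lr (jc g t)) ((integrableOn_image_iff_integrableOn_abs_det_fderiv_smul volume
    hS.measurableSet d2 hi' _).1 i1)).2]
  refine ((setIntegral_eq_integral_of_forall_compl_eq_zero (s := S) fun z hz => ?_).symm).trans
    (setIntegral_congr_fun hS.measurableSet fun z hz => ?_)
  · rw [h2 z hz, Matrix.mulVec_zero]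
  · have e3 : 0 ≤ (fderiv ℝ φ z).det := by
      rw [INT.det_fderiv_real (d1 z hz)]
      positivity
    rw [h1 z hz, h.key p p' d G g t z _ ((hG z hz).1.restrictScalars ℝ) hg (hG z hz).2,
      k1b'.jc_det ((d1 z hz).restrictScalars ℝ), abs_of_nonneg e3, e1 z hz,
      ← Complex.coe_smul, Matrix.mulVec_smul]

end Vale.Agent.P280Z.Pu
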