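import Vale.Agent.P280Z.Co.PuD
import Vale.Agent.P281Z.Hg.G2
import Vale.Agent.P281Z.Hg.F2a
import Vale.Agent.P281Z.Hg.F2b
import Vale.Agent.P281Z.Hg.Pb1

/-!
# P280, fibre integration: the pairing, partitions of unity, nondegeneracy
-/

open scoped Manifold ContDiff Topology Matrix
open Set Filter MeasureTheory
open Vale.Agent.P272.K Vale.Agent.P272.K.INT Vale.Agent.P299.IX Vale.Agent.P299.IX.Fock
  Vale.Agent.P281Z.Hg Vale.Agent.P281Z.Hg.G1H Vale.Agent.P281Z.Hg.G2H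

noncomputable section

namespace Vale.Agent.P280Z.Pu

theorem sn_sq (m : ℕ) : sn m * sn m = 1 := by
  rw [sn, ← Finset.prod_mul_distrib]
  exact Finset.prod_eq_one fun i _ => by rw [← mul_pow, neg_mul_neg, one_mul, one_pow]

theorem sn_ne (m : ℕ) : sn m ≠ 0 := left_ne_zero_of_mul_eq_one (sn_sq m)

theorem Bq_zero_r {k : ℕ} (u : Fk k) : Bq u 0 = 0 := by
  rw [Bq, Matrix.mulVec_zero, dotProduct_zero]

variable (n : ℕ) (M : Type) [TopologicalSpace M] [ChartedSpace (Cm n) M] [T2Space M]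
  [CompactSpace M] [IsManifold 𝓘(ℂ, Cm n) ω M]

theorem gg1 : G1 n M := g1 f1a (f2b f1a f1b f2a) k1b' n M

theorem gg2 : G2 n M := g2 f1a f1b (k1a f1a f1b) k1b' (gg1 n M)

theorem pp1 (p : ℕ) (Y : Type) [TopologicalSpace Y] [ChartedSpace (Cm p) Y] [T2Space Y]
    [CompactSpace Y] [IsManifold 𝓘(ℂ, Cm p) ω Y] : PB1 n M p Y :=
  pb1 n M p Y f1a f1b (k1a f1a f1b) k1b' (gg1 n M)

/-- the pairing is bilinear -/
theorem exQ : ∃ Q : SF n M →ₗ[ℂ] SF n M →ₗ[ℂ] ℂ, ∀ a b, Qi a b = Q a b := by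
  obtain ⟨X, hX, -⟩ := (gg2 n M).1
  exact ⟨X.Q, fun a b => (hX.Q a b).symm⟩

variable {n M}

theorem Qi_eq {X : Cx (SF n M) n} (hX : RealX X) (a b : SF n M) : Qi a b = X.Q a b :=
  (hX.Q a b).symm

/-- partitions of unity as operators on forms -/
theorem pou {K : Set M} (hK : IsClosed K) {ι : Type} [Fintype ι] (O : ι → Set M)
    (hO : ∀ i, IsOpen (O i)) (hc : K ⊆ ⋃ i, O i) :
    ∃ (R : ι → Module.End ℂ (SF n M)) (ρ : ι → M → ℝ), (∀ i, tsupport (ρ i) ⊆ O i) ∧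
      (∀ x ∈ K, ∑ i, ρ i x = 1) ∧
      ∀ i u e x, At e x → vl (R i u) e (e x) = (ρ i x : ℂ) • vl u e (e x) := by
  have := isManifold_real n M
  obtain ⟨f, hf⟩ := SmoothPartitionOfUnity.exists_isSubordinate 𝓘(ℝ, Cm n) hK O hO hc
  choose R hR using fun i => (gg1 n M).op _ ((gg1 n M).fn _ (smoothFn_of_contMDiff (f i).contMDiff))
  refine ⟨R, fun i => f i, hf, fun x hx => ?_, fun i u e x he => ?_⟩
  · have h := f.sum_eq_one hx
    rwa [finsum_eq_sum_of_fintype] at h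
  · rw [hR i u e x he, Matrix.smul_mulVec, Matrix.one_mulVec, e.left_inv he.2]

theorem pou' (O : M → Set M) (hO : ∀ x, IsOpen (O x)) (hx : ∀ x, x ∈ O x) :
    ∃ (t : Finset M) (R : t → Module.End ℂ (SF n M)) (K : t → Set M),
      (∀ i, IsCompact (K i) ∧ K i ⊆ O i) ∧ (∀ u, ∑ i, R i u = u) ∧
      (∀ i u x, x ∉ K i → R i u ∈ ZP x) ∧ ∀ i u x, u ∈ ZP x → R i u ∈ ZP x := by
  obtain ⟨t, ht⟩ := isCompact_univ.elim_finite_subcover O hO fun x _ => mem_iUnion.2 ⟨x, hx x⟩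
  obtain ⟨R, ρ, h1, h2, h3⟩ := pou (n := n) isClosed_univ (fun i : t => O i) (fun i => hO i)
    fun x h => by
      obtain ⟨y, hy, h'⟩ := mem_iUnion₂.1 (ht h)
      exact mem_iUnion.2 ⟨⟨y, hy⟩, h'⟩
  refine ⟨t, R, fun i => tsupport (ρ i), fun i => ⟨(isClosed_tsupport _).isCompact, h1 i⟩,
    fun u => ext' fun e x he => ?_, fun i u x h e he => ?_, fun i u x h e he => ?_⟩
  · simp only [vl_sum, h3 _ u e x he, ← Finset.sum_smul, ← Complex.ofReal_sum, h2 x (mem_univ x),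
      Complex.ofReal_one, one_smul]
  · rw [h3 i u e x he, image_eq_zero_of_notMem_tsupport h, Complex.ofReal_zero, zero_smul]
  · rw [h3 i u e x he, h e he, smul_zero]

theorem cutoff {K O : Set M} (hK : IsClosed K) (hO : IsOpen O) (h : K ⊆ O) :
    ∃ (R : Module.End ℂ (SF n M)) (K' : Set M), IsCompact K' ∧ K' ⊆ O ∧
      (∀ u, ∀ x ∈ K, u - R u ∈ ZP x) ∧ (∀ u x, x ∉ K' → R u ∈ ZP x) ∧
      (∀ u x, u ∈ ZP x → R u ∈ ZP x) ∧ ∀ a b, Qi (R a) b = Qi a (R b) := by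
  obtain ⟨R, ρ, h1, h2, h3⟩ := pou (n := n) hK (fun _ : Unit => O) (fun _ => hO)
    fun x hx => mem_iUnion.2 ⟨(), h hx⟩
  refine ⟨R (), tsupport (ρ ()), (isClosed_tsupport _).isCompact, h1 (), fun u x hx e he => ?_,
    fun u x hx e he => ?_, fun u x hx e he => ?_, fun a b => itg_congr fun e x he => ?_⟩
  · have h4 := h2 x hx
    rw [Fintype.sum_unique] at h4
    rw [vl_sub, h3 _ u e x he, h4, Complex.ofReal_one, one_smul, sub_self]
  · rw [h3 _ u e x he, image_eq_zero_of_notMem_tsupport hx, Complex.ofReal_zero, zero_smul]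
  · rw [h3 _ u e x he, hx e he, smul_zero]
  · rw [h3 _ a e x he, h3 _ b e x he, Bq_smul_l, Bq_smul_r]

omit [T2Space M] [CompactSpace M] [IsManifold 𝓘(ℂ, Cm n) ω M] in
/-- a form with support in a chart -/
theorem glob {e : Chart n M} (he : e ∈ atlas (Cm n) M) {K : Set M} (hK : IsCompact K)
    (hs : K ⊆ e.source) {u : SF n M} (hu : ∀ x, x ∉ K → u ∈ ZP x) :
    IsCompact (e '' K) ∧ e '' K ⊆ e.target ∧ (∀ z ∉ e '' K, vl u e z = 0) ∧
      ContDiff ℝ ∞ (vl u e) := by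
  have h1 : IsCompact (e '' K) := hK.image_of_continuousOn (e.continuousOn.mono hs)
  have h2 : e '' K ⊆ e.target := by
    rintro _ ⟨x, hx, rfl⟩
    exact e.map_source (hs hx)
  have h3 : ∀ z ∉ e '' K, vl u e z = 0 := fun z hz => by
    by_cases h : z ∈ e.target
    · have := hu (e.symm z) (fun k => hz ⟨_, k, e.right_inv h⟩) e (at_tg he h)
      rwa [e.right_inv h] at this
    · exact (vl_isF u).off e z fun k => h k.2
  refine ⟨h1, h2, h3, contDiff_iff_contDiffAt.2 fun z => ?_⟩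
  by_cases h : z ∈ e '' K
  · obtain ⟨x, hx, rfl⟩ := h
    exact (vl_isF u).sm e x ⟨he, hs hx⟩
  · exact (contDiffAt_const (c := 0)).congr_of_eventuallyEq
      (Filter.mem_of_superset (h1.isClosed.isOpen_compl.mem_nhds h) fun w hw => h3 w hw)

/-- the pairing with a form supported in a chart -/
theorem Qi_loc {e : Chart n M} (he : e ∈ atlas (Cm n) M) {K : Set M} (hK : IsCompact K)
    (hs : K ⊆ e.source) {a : SF n M} (ha : ∀ x, x ∉ K → a ∈ ZP x) (b : SF n M) {g : Cm n → ℂ}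
    (hg : Integrable g) (h1 : ∀ z ∈ e.target, Bq (vl a e z) (vl b e z) = g z)
    (h2 : ∀ z ∉ e.target, g z = 0) : Qi a b = ∫ z, g z :=
  itg_supp ((gg1 n M).dens a b) he hK.isClosed hs
    (fun e' x h hx => by rw [ha x hx e' h, Bq_zero_l]) hg h1 h2

/-- the pairing is nondegenerate -/
theorem nd {a : SF n M} (h : ∀ b, Qi a b = 0) : a = 0 := ext' fun e x he => by
  obtain ⟨R, K, k1, k2, k3, k4, -, k6⟩ := cutoff (n := n) (isClosed_singleton (x := x))
    e.open_source (singleton_subset_iff.2 he.2)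
  obtain ⟨l1, l2, l3, l4⟩ := glob he.1 k1 k2 (k4 a)
  have h1 : vl a e (e x) = vl (R a) e (e x) := sub_eq_zero.1 (k3 a x rfl e he)
  rw [h1, vl_zero]
  funext J
  obtain ⟨s, hs, hs'⟩ := hst_ev Jᶜ
  rw [compl_compl] at hs'
  have l5 : ContDiff ℝ ∞ fun z => vl (R a) e z J := contDiff_pi.1 l4 J
  obtain ⟨b, hb, -⟩ := (gg1 n M).loc e K (fun z => (s * star (vl (R a) e z J)) • ev Jᶜ) he.1 k1 k2
    ((contDiff_const.mul (Complex.conjCLE.contDiff.comp l5)).smul contDiff_const).contDiffOn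
    fun z _ hz => by rw [l3 z hz, Pi.zero_apply, star_zero, mul_zero, zero_smul]
  have hc : Continuous fun z => ‖vl (R a) e z J‖ ^ 2 := l5.continuous.norm.pow 2
  have hz : ∀ z ∉ e '' K, ‖vl (R a) e z J‖ ^ 2 = 0 := fun z hz => by
    rw [l3 z hz, Pi.zero_apply, norm_zero, zero_pow two_ne_zero]
  have hs2 : HasCompactSupport fun z => ‖vl (R a) e z J‖ ^ 2 := HasCompactSupport.intro l1 hz
  have h2 := Qi_loc he.1 k1 k2 (k4 a) b (g := fun z => ((‖vl (R a) e z J‖ ^ 2 : ℝ) : ℂ))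
    (hc.integrable_of_hasCompactSupport hs2).ofReal (fun z hz => by
      rw [hb z hz, Bq_smul_r, Bq, hs', dotProduct_smul, ev, dotProduct_single_one, smul_eq_mul,
        Complex.ofReal_pow, ← Complex.conj_mul', starRingEnd_apply]
      linear_combination (star (vl (R a) e z J) * vl (R a) e z J) * hs)
    fun z h' => by rw [hz z fun k => h' (l2 k), Complex.ofReal_zero]
  rw [k6, h, integral_complex_ofReal, eq_comm, Complex.ofReal_eq_zero] at h2
  by_contra h3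
  exact (hc.integral_pos_of_hasCompactSupport_nonneg_nonzero hs2 (fun z => sq_nonneg _)
    (x := e x) (pow_ne_zero 2 (norm_ne_zero_iff.2 h3))).ne' h2

theorem nd' {a a' : SF n M} (h : ∀ b, Qi a b = Qi a' b) : a = a' := by
  obtain ⟨Q, hQ⟩ := exQ n M
  exact sub_eq_zero.1 (nd fun b => by
    rw [hQ, map_sub, LinearMap.sub_apply, ← hQ, ← hQ, h, sub_self])

end Vale.Agent.P280Z.Pu
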